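import Vale.Agent.P353.AN.X.StmtB
import Vale.Agent.P353.AN.D.Defs

/-! # P353, all `N`, block X: bridge to the conventions of block D (`Std2`, `Dz`, `omc`, `vcz`) -/

open MeasureTheory Filter Topology Matrix
open scoped ContDiff

namespace Vale.Agent.P353.Z.AX

variable {d dh dm ds dz : ℕ} {F : Type*} [NormedAddCommGroup F] [InnerProductSpace ℂ F]

/-- `ad` of the central basis vector `a`, on `m` -/
noncomputable def Mz (S : Setup d F) (φ : Spl dh dm d) (ψ : Spl ds dz dh) (a : Fin dz) : Matrix (Fin dm) (Fin dm) ℝ :=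
  Matrix.of fun B C => S.f (φ (Sum.inr B)) (φ (Sum.inl (ψ (Sum.inr a)))) (φ (Sum.inr C))

/-- `Dz = DM Mz` -/
theorem DM_Mz (S : Setup d F) (φ : Spl dh dm d) (ψ : Spl ds dz dh) (yz : Cfg dz) :
    DM (Mz S φ ψ) yz = AD.Dz S φ ψ yz := by
  funext i
  ext B C
  simp only [DM, Mz, AD.Dz, Setup.Dy, Setup.Dm, AD.cmb, Matrix.sum_apply, Matrix.smul_apply, Matrix.of_apply,
    smul_eq_mul]
  rw [← ψ.sum_comp, Fintype.sum_sum_type]
  simp [mul_comm]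

theorem Mz_anti (S : Setup d F) (φ : Spl dh dm d) (ψ : Spl ds dz dh) (a : Fin dz) :
    (Mz S φ ψ a)ᵀ = -Mz S φ ψ a := by
  ext B C
  simp only [Mz, Matrix.transpose_apply, Matrix.of_apply, Matrix.neg_apply]
  rw [S.f_cyc, S.f_swap]

theorem Mz_comm (S : Setup d F) (φ : Spl dh dm d) (ψ : Spl ds dz dh) (hs : S.IsSub φ)
    (hc : ∀ A B C, S.f (φ (Sum.inl (ψ (Sum.inr A)))) (φ (Sum.inl B)) (φ (Sum.inl C)) = 0) (a b : Fin dz) :
    Mz S φ ψ a * Mz S φ ψ b = Mz S φ ψ b * Mz S φ ψ a := by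
  ext B D
  simp only [Mz, Matrix.mul_apply, Matrix.of_apply]
  have hj := S.f_jac (φ (Sum.inl (ψ (Sum.inr a)))) (φ (Sum.inr B)) (φ (Sum.inl (ψ (Sum.inr b)))) (φ (Sum.inr D))
  rw [← φ.sum_comp, Fintype.sum_sum_type] at hj
  have h1 : ∀ E : Fin dh, S.f (φ (Sum.inl (ψ (Sum.inr a)))) (φ (Sum.inr B)) (φ (Sum.inl E)) = 0 := by
    intro E
    rw [S.f_cyc, S.f_cyc]
    exact hs _ _ _
  have h2 : ∀ E : Fin dh, S.f (φ (Sum.inr B)) (φ (Sum.inl (ψ (Sum.inr b)))) (φ (Sum.inl E)) = 0 := by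
    intro E
    rw [S.f_cyc]
    exact hs _ _ _
  have h3 : ∀ E : Fin dh, S.f (φ (Sum.inl (ψ (Sum.inr b)))) (φ (Sum.inl (ψ (Sum.inr a)))) (φ (Sum.inl E)) = 0 :=
    fun E => hc _ _ _
  have h4 : ∀ E : Fin dm, S.f (φ (Sum.inl (ψ (Sum.inr b)))) (φ (Sum.inl (ψ (Sum.inr a)))) (φ (Sum.inr E)) = 0 :=
    fun E => hs _ _ _
  simp only [h1, h2, h3, h4, zero_mul, add_zero, Finset.sum_const_zero, zero_add] at hj
  have h5 : ∀ E : Fin dm, S.f (φ (Sum.inl (ψ (Sum.inr a)))) (φ (Sum.inr B)) (φ (Sum.inr E)) =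
      -S.f (φ (Sum.inr B)) (φ (Sum.inl (ψ (Sum.inr a)))) (φ (Sum.inr E)) := fun E => S.f_swap _ _ _
  simp only [h5, Finset.sum_add_distrib, neg_mul, Finset.sum_neg_distrib] at hj
  linarith

/-- the torus data of a standard position -/
theorem tor_Mz {S : Setup d F} {φ : Spl dh dm d} {ψ : Spl ds dz dh} {z₀ : Cfg dz} (h : AD.Std2 S φ ψ z₀) :
    Tor (Mz S φ ψ) (fun a => z₀ (8, a)) where
  anti := Mz_anti S φ ψ
  comm := Mz_comm S φ ψ h.std.sub h.cen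
  reg := by
    have h1 : (∑ a, z₀ (8, a) • Mz S φ ψ a) = S.Dy φ 8 (AD.cmb ψ 0 z₀) := congrFun (DM_Mz S φ ψ z₀) 8
    rw [h1]
    exact h.std.inv

/-- the `Dz` are frozen points where `D_8` is invertible -/
theorem frz_Dz {S : Setup d F} {φ : Spl dh dm d} {ψ : Spl ds dz dh} {z₀ : Cfg dz} (h : AD.Std2 S φ ψ z₀) (yz : Cfg dz)
    (hy : (AD.Dz S φ ψ yz 8).det ≠ 0) : Frz (AD.Dz S φ ψ yz) := by
  have hT := tor_Mz h
  rw [← DM_Mz] at hy ⊢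
  refine ⟨?_, ?_, hy⟩
  · intro i
    simp only [DM, Matrix.transpose_sum, Matrix.transpose_smul, hT.anti, smul_neg, Finset.sum_neg_distrib]
  · intro i j
    simp only [DM, Finset.sum_mul_sum, smul_mul_smul_comm]
    rw [Finset.sum_comm]
    refine Finset.sum_congr rfl fun a _ => Finset.sum_congr rfl fun b _ => ?_
    rw [hT.comm, mul_comm]

/-- `omc` is the matrix `Ω` -/
theorem omc_eq (hU : OmUStmt) {κ : ℝ} (hκ : 0 < κ) {D : Fin 9 → Matrix (Fin dm) (Fin dm) ℝ}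
    {Om : Matrix (Fin dm) (Fin dm) ℝ} (h : IsOm κ D Om) : AD.omc κ D = Om := by
  have hex : ∃ Om, IsOm κ D Om := ⟨Om, h⟩
  rw [AD.omc, dif_pos hex]
  exact hU dm κ D _ _ hκ hex.choose_spec h

/-- the vacuum `vcz` of block D in terms of the bundle: on vectors `U(yz) k`, `k ∈ K` -/
theorem vcz_eq [FiniteDimensional ℂ F] (hU : OmUStmt) (S : Setup d F) (φ : Spl dh dm d) (ψ : Spl ds dz dh)
    {L : Finset (Fin dz → ℝ)} {Om : Cfg dz → Matrix (Fin dm) (Fin dm) ℝ} {K : Submodule ℂ F} {U : Cfg dz → F →L[ℂ] F}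
    (hB : Bun S φ (Mz S φ ψ) L Om K U) (yz : Cfg dz) (hy : yz ∉ Coll L) (k : F) (hk : k ∈ K) (w : Wsp dm) :
    AD.vcz S φ ψ yz (U yz k) w = ((gN (Mz S φ ψ) Om yz w : ℝ) : ℂ) • U yz k := by
  have h1 : AD.omc S.κ (AD.Dz S φ ψ yz) = Om yz := by
    refine omc_eq hU S.κ_pos ?_
    rw [← DM_Mz]
    exact hB.om yz (hB.det yz hy)
  have h2 : U yz k ∈ S.F0 φ (AD.Dz S φ ψ yz) (AD.omc S.κ (AD.Dz S φ ψ yz)) := by
    rw [h1, ← DM_Mz]
    exact (hB.U_mem yz hy k).1 hk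
  rw [AD.vcz, Submodule.starProjection_eq_self_iff.2 h2, h1, gN, DM_Mz]

end Vale.Agent.P353.Z.AX
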