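import Vale.Agent.P353.AN.X.Stmt

/-! # P353, all `N`, block X: uniqueness of `Ω`, functions of one root, calculus of `sp` -/

open MeasureTheory Filter Topology Matrix
open scoped ContDiff

namespace Vale.Agent.P353.Z.AX

/-- **X-OmU** -/
theorem omU : OmUStmt := by
  intro dm κ D Om Om' hκ h h'
  have hk : (κ ^ 2 : ℝ) ≠ 0 := (pow_pos hκ 2).ne'
  have h1 : Om' * (∑ i, D i * D i) = (∑ i, D i * D i) * Om' := by
    have e : Om' * (Om' * Om') = (Om' * Om') * Om' := (Matrix.mul_assoc _ _ _).symm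
    rw [h'.sq, mul_neg, neg_mul, mul_smul_comm, smul_mul_assoc, neg_inj] at e
    exact smul_right_injective _ hk e
  have h2 : Om' * Om = Om * Om' := h.comm Om' h1
  have h3 : (Om - Om') * (Om + Om') = 0 := by
    rw [sub_mul, mul_add, mul_add, h.sq, h'.sq, h2]
    abel
  have h4 : (Om + Om').det ≠ 0 := by
    intro h0
    obtain ⟨v, hv, hv0⟩ := Matrix.exists_mulVec_eq_zero_iff.2 h0
    have p1 := h.pos v hv
    have p2 := h'.pos v hv
    have : v ⬝ᵥ ((Om + Om') *ᵥ v) = 0 := by rw [hv0, dotProduct_zero]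
    rw [add_mulVec, dotProduct_add] at this
    linarith
  have h5 : (Om + Om') * (Om + Om')⁻¹ = 1 := mul_nonsing_inv _ (isUnit_iff_ne_zero.2 h4)
  have h6 : Om - Om' = 0 := by
    calc Om - Om' = (Om - Om') * ((Om + Om') * (Om + Om')⁻¹) := by rw [h5, mul_one]
      _ = 0 := by rw [← Matrix.mul_assoc, h3, zero_mul]
  exact sub_eq_zero.1 h6

/-- **X-Sp** -/
theorem spS : SpStmt := by
  intro dm E hE
  have hE' : Eᵀ * E = 1 := mul_eq_one_comm.1 hE
  have hinj : ∀ v : Fin dm → ℝ, v ≠ 0 → E *ᵥ v ≠ 0 := by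
    intro v hv h0
    apply hv
    have : Eᵀ *ᵥ (E *ᵥ v) = 0 := by rw [h0, mulVec_zero]
    rwa [mulVec_mulVec, hE', one_mulVec] at this
  have hq : ∀ f (v : Fin dm → ℝ), v ⬝ᵥ (sp E f *ᵥ v) = ∑ k, f k * (E *ᵥ v) k ^ 2 := by
    intro f v
    rw [sp, ← mulVec_mulVec, ← mulVec_mulVec, dotProduct_mulVec, vecMul_transpose, dotProduct]
    refine Finset.sum_congr rfl fun k _ => ?_
    rw [mulVec_diagonal]
    ring
  refine ⟨?_, ?_, ?_, ?_, ?_, ?_, hq, ?_, ?_⟩
  · intro f g
    unfold sp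
    calc Eᵀ * diagonal f * E * (Eᵀ * diagonal g * E) = Eᵀ * diagonal f * (E * Eᵀ) * (diagonal g * E) := by
          simp only [Matrix.mul_assoc]
      _ = Eᵀ * diagonal (fun k => f k * g k) * E := by
          rw [hE, mul_one, ← Matrix.mul_assoc, Matrix.mul_assoc Eᵀ, diagonal_mul_diagonal]
  · intro f g
    unfold sp
    rw [← add_mul, ← mul_add, diagonal_add]
  · intro c f
    unfold sp
    rw [← smul_mul_assoc, ← mul_smul_comm, ← diagonal_smul]
    rfl
  · unfold sp
    rw [diagonal_one, mul_one, hE']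
  · intro f
    unfold sp
    rw [transpose_mul, transpose_mul, diagonal_transpose, transpose_transpose, Matrix.mul_assoc]
  · intro f
    unfold sp
    rw [det_mul, det_mul, det_diagonal]
    have : Eᵀ.det * E.det = 1 := by rw [← det_mul, hE', det_one]
    calc Eᵀ.det * (∏ i, f i) * E.det = (Eᵀ.det * E.det) * ∏ i, f i := by ring
      _ = _ := by rw [this, one_mul]
  · intro f hf v hv
    rw [hq]
    have hv' := hinj v hv
    obtain ⟨k, hk⟩ := Function.ne_iff.1 hv'
    refine Finset.sum_pos' (fun i _ => mul_nonneg (hf i).le (sq_nonneg _)) ⟨k, Finset.mem_univ _, ?_⟩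
    exact mul_pos (hf k) (by
      have : (E *ᵥ v) k ≠ 0 := hk
      positivity)
  · intro f g M hfg hM
    have c1 : ∀ h : Fin dm → ℝ, E * (sp E h) = diagonal h * E := by
      intro h
      unfold sp
      rw [← Matrix.mul_assoc, ← Matrix.mul_assoc, hE, one_mul]
    have c2 : ∀ h : Fin dm → ℝ, (sp E h) * Eᵀ = Eᵀ * diagonal h := by
      intro h
      unfold sp
      rw [Matrix.mul_assoc, hE, mul_one]
    have hM2 : (E * M * Eᵀ) * diagonal f = diagonal f * (E * M * Eᵀ) := by
      calc (E * M * Eᵀ) * diagonal f = E * M * (Eᵀ * diagonal f) := by simp only [Matrix.mul_assoc]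
        _ = E * (M * sp E f) * Eᵀ := by rw [← c2]; simp only [Matrix.mul_assoc]
        _ = (E * sp E f) * (M * Eᵀ) := by rw [hM]; simp only [Matrix.mul_assoc]
        _ = diagonal f * (E * M * Eᵀ) := by rw [c1]; simp only [Matrix.mul_assoc]
    have hM3 : (E * M * Eᵀ) * diagonal g = diagonal g * (E * M * Eᵀ) := by
      ext j k
      have h2 := congrFun (congrFun hM2 j) k
      rw [mul_diagonal, diagonal_mul] at h2 ⊢
      rcases eq_or_ne ((E * M * Eᵀ) j k) 0 with h3 | h3
      · rw [h3, zero_mul, mul_zero]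
      · have h4 : f j = f k := by
          have : (E * M * Eᵀ) j k * (f j - f k) = 0 := by linear_combination -h2
          exact sub_eq_zero.1 ((mul_eq_zero.1 this).resolve_left h3)
        rw [hfg j k h4, mul_comm]
    calc M * sp E g = (Eᵀ * E) * M * (Eᵀ * E) * sp E g := by rw [hE', one_mul, mul_one]
      _ = Eᵀ * (E * M * Eᵀ) * (E * sp E g) := by simp only [Matrix.mul_assoc]
      _ = Eᵀ * ((E * M * Eᵀ) * diagonal g) * E := by rw [c1]; simp only [Matrix.mul_assoc]
      _ = (Eᵀ * diagonal g) * (E * M * (Eᵀ * E)) := by rw [hM3]; simp only [Matrix.mul_assoc]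
      _ = sp E g * M := by
          rw [hE', mul_one, ← Matrix.mul_assoc]
          rfl

private theorem nn8 (τ : ℝ) (z : Fin 9 → ℝ) : nn τ z 8 = Real.cos (τ * ang z) :=
  Fin.lastCases_last (motive := fun _ : Fin 9 => ℝ)

private theorem nnj (τ : ℝ) (z : Fin 9 → ℝ) (j : Fin 8) :
    nn τ z j.castSucc = Real.sin (τ * ang z) * (z j.castSucc / nz8 z) :=
  Fin.lastCases_castSucc (motive := fun _ : Fin 9 => ℝ) j

private theorem nz_sq (z : Fin 9 → ℝ) : nz z ^ 2 = nz8 z ^ 2 + z 8 ^ 2 := by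
  rw [nz, nz8, Real.sq_sqrt (Finset.sum_nonneg fun i _ => sq_nonneg _),
    Real.sq_sqrt (Finset.sum_nonneg fun i _ => sq_nonneg _), Fin.sum_univ_castSucc]
  rfl

private theorem sq8 (z : Fin 9 → ℝ) : nz8 z ^ 2 = ∑ j : Fin 8, z j.castSucc ^ 2 := by
  rw [nz8, Real.sq_sqrt (Finset.sum_nonneg fun i _ => sq_nonneg _)]

/-- **X-Vec** -/
theorem vecS : VecStmt := by
  intro z hz
  have hs : 0 < nz8 z := lt_of_le_of_ne (Real.sqrt_nonneg _) (Ne.symm hz)
  have hr2 := nz_sq z
  have hr : 0 < nz z := by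
    refine lt_of_le_of_ne (Real.sqrt_nonneg _) fun h => ?_
    rw [← h] at hr2
    nlinarith [sq_nonneg (z 8), pow_pos hs 2]
  have hu : ∑ j : Fin 8, (z j.castSucc / nz8 z) ^ 2 = 1 := by
    simp_rw [div_pow]
    rw [← Finset.sum_div, ← sq8, div_self (pow_pos hs 2).ne']
  have hz8 : (z 8 / nz z) ^ 2 ≤ 1 := by
    rw [div_pow, div_le_one (pow_pos hr 2)]
    nlinarith [sq_nonneg (nz8 z)]
  have hab := abs_le.1 ((sq_le_one_iff_abs_le_one _).1 hz8)
  have hcos : Real.cos (ang z) = z 8 / nz z := Real.cos_arccos hab.1 hab.2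
  have hsin : Real.sin (ang z) = nz8 z / nz z := by
    rw [ang, Real.sin_arccos]
    have : 1 - (z 8 / nz z) ^ 2 = (nz8 z / nz z) ^ 2 := by
      field_simp
      linarith
    rw [this, Real.sqrt_sq (by positivity)]
  refine ⟨hr, ?_, ?_, ⟨?_, ?_⟩, ?_, ?_, ?_, ?_⟩
  · intro i
    refine Fin.lastCases ?_ (fun j => ?_) i
    · change nn 1 z 8 = z 8 / nz z
      rw [nn8, one_mul, hcos]
    · rw [nnj, one_mul, hsin]
      field_simp
  · intro τ
    rw [Fin.sum_univ_castSucc]
    change ∑ j : Fin 8, nn τ z j.castSucc ^ 2 + nn τ z 8 ^ 2 = 1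
    rw [nn8]
    simp_rw [nnj, mul_pow]
    rw [← Finset.mul_sum, hu, mul_one]
    exact Real.sin_sq_add_cos_sq _
  · rw [nn8, zero_mul, Real.cos_zero]
  · intro j
    rw [nnj, zero_mul, Real.sin_zero, zero_mul]
  · intro τ
    have e : -2 * ∑ j : Fin 8, be z j * nn τ z j.castSucc = -Real.sin (τ * ang z) * ang z := by
      have : ∀ j : Fin 8, be z j * nn τ z j.castSucc =
          (ang z / 2 * Real.sin (τ * ang z)) * (z j.castSucc / nz8 z) ^ 2 := by
        intro j
        rw [nnj, be]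
        ring
      simp_rw [this]
      rw [← Finset.mul_sum, hu]
      ring
    rw [e]
    simp_rw [nn8]
    have h1 : HasDerivAt (fun s : ℝ => s * ang z) (ang z) τ := by
      simpa using (hasDerivAt_id τ).mul_const (ang z)
    exact h1.cos
  · intro τ j
    simp_rw [nnj, nn8, be]
    have h1 : HasDerivAt (fun s : ℝ => s * ang z) (ang z) τ := by
      simpa using (hasDerivAt_id τ).mul_const (ang z)
    have e : 2 * (ang z / 2 * (z j.castSucc / nz8 z)) * Real.cos (τ * ang z) =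
        Real.cos (τ * ang z) * ang z * (z j.castSucc / nz8 z) := by ring
    rw [e]
    exact h1.sin.mul_const _
  · intro τ i j
    rw [nnj, nnj, be, be]
    ring
  · intro R hR
    have e1 : nz (fun i => R * z i) = R * nz z := by
      rw [nz, nz]
      simp_rw [mul_pow]
      rw [← Finset.mul_sum, Real.sqrt_mul (sq_nonneg R), Real.sqrt_sq hR.le]
    have e2 : nz8 (fun i => R * z i) = R * nz8 z := by
      rw [nz8, nz8]
      simp_rw [mul_pow]
      rw [← Finset.mul_sum, Real.sqrt_mul (sq_nonneg R), Real.sqrt_sq hR.le]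
    refine ⟨fun j => ?_, e1⟩
    rw [be, be, ang, ang, e1, e2, mul_div_mul_left _ _ hR.ne', mul_div_mul_left _ _ hR.ne']

end Vale.Agent.P353.Z.AX
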