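import Vale.Agent.P353.AN.X.StmtB

/-! # P353, all `N`, block X: the Gaussian integral of the boson vacuum (`X-Gauss`) -/

open MeasureTheory Filter Topology Matrix
open scoped ContDiff

namespace Vale.Agent.P353.Z.AX

namespace GsA

/-- Gaussian integral composed with an invertible matrix -/
lemma lin_gauss {ι : Type*} [Fintype ι] [DecidableEq ι] (A : Matrix ι ι ℝ) (hA : A.det ≠ 0) :
    Integrable (fun w : EuclideanSpace ℝ ι => Real.exp (-(∑ p, (A *ᵥ fun q => w q) p ^ 2))) ∧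
    ∫ w : EuclideanSpace ℝ ι, Real.exp (-(∑ p, (A *ᵥ fun q => w q) p ^ 2)) =
      |A.det|⁻¹ * Real.pi ^ ((Fintype.card ι : ℝ) / 2) := by
  set T : EuclideanSpace ℝ ι →ₗ[ℝ] EuclideanSpace ℝ ι := Matrix.toEuclideanLin A with hT
  have hdet : LinearMap.det T = A.det := by
    rw [hT]
    change LinearMap.det (Matrix.toLpLin 2 2 A) = _
    rw [Matrix.toLpLin_eq_toLin, LinearMap.det_toLin]
  have hne : LinearMap.det T ≠ 0 := by rw [hdet]; exact hA
  have hTm : Measurable T := T.continuous_of_finiteDimensional.measurable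
  have hmap := Measure.map_linearMap_addHaar_eq_smul_addHaar (volume : Measure (EuclideanSpace ℝ ι)) hne
  have hg : Integrable (fun y : EuclideanSpace ℝ ι => Real.exp (-(‖y‖ ^ 2))) := by
    have h := (GaussianFourier.integrable_cexp_neg_mul_sq_norm_add (b := (1 : ℂ)) (by norm_num) 0
      (0 : EuclideanSpace ℝ ι)).norm
    refine h.congr (Filter.Eventually.of_forall fun y => ?_)
    simp only [Complex.norm_exp]
    congr 1
    simp [← Complex.ofReal_pow]
  have hgm : Integrable (fun y : EuclideanSpace ℝ ι => Real.exp (-(‖y‖ ^ 2)))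
      (Measure.map T volume) := by
    rw [hmap]
    exact hg.smul_measure ENNReal.ofReal_ne_top
  have hfun : (fun w : EuclideanSpace ℝ ι => Real.exp (-(∑ p, (A *ᵥ fun q => w q) p ^ 2))) =
      fun w => Real.exp (-(‖T w‖ ^ 2)) := by
    funext w
    rw [EuclideanSpace.real_norm_sq_eq]
    rfl
  rw [hfun]
  constructor
  · exact (integrable_map_measure hgm.aestronglyMeasurable hTm.aemeasurable).mp hgm
  · rw [← integral_map (f := fun y : EuclideanSpace ℝ ι => Real.exp (-(‖y‖ ^ 2))) hTm.aemeasurable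
      hgm.aestronglyMeasurable, hmap, integral_smul_measure, hdet]
    have h1 := GaussianFourier.integral_rexp_neg_mul_sq_norm (V := EuclideanSpace ℝ ι) (b := 1) one_pos
    simp only [neg_mul, one_mul, div_one, finrank_euclideanSpace] at h1
    rw [h1, ENNReal.toReal_ofReal (abs_nonneg _), abs_inv, smul_eq_mul]

/-- the 8 by 8 factor belonging to one root -/
noncomputable def Lz (z : Fin 9 → ℝ) : Matrix (Fin 8) (Fin 8) ℝ :=
  1 + replicateCol Unit (fun j : Fin 8 => -(1 / (nz z * (nz z + |z 8|))) * z j.castSucc) *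
    replicateRow Unit (fun j : Fin 8 => z j.castSucc)

lemma nz_sq (z : Fin 9 → ℝ) : nz z ^ 2 = (∑ j : Fin 8, z j.castSucc ^ 2) + |z 8| ^ 2 := by
  unfold nz
  rw [Real.sq_sqrt (Finset.sum_nonneg fun i _ => sq_nonneg _), Fin.sum_univ_castSucc, sq_abs]
  rfl

lemma nz_pos {z : Fin 9 → ℝ} (h : z 8 ≠ 0) : 0 < nz z := by
  unfold nz
  apply Real.sqrt_pos.mpr
  have h1 : z 8 ^ 2 ≤ ∑ i, z i ^ 2 :=
    Finset.single_le_sum (f := fun i => z i ^ 2) (fun i _ => sq_nonneg _) (Finset.mem_univ 8)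
  have h2 : 0 < z 8 ^ 2 := by positivity
  linarith

lemma det_Lz {z : Fin 9 → ℝ} (h : z 8 ≠ 0) : (Lz z).det = |z 8| / nz z := by
  have hn := nz_pos h
  have ha : 0 < |z 8| := abs_pos.mpr h
  unfold Lz
  rw [Matrix.det_one_add_replicateCol_mul_replicateRow]
  have h1 : (fun j : Fin 8 => z j.castSucc) ⬝ᵥ
      (fun j : Fin 8 => -(1 / (nz z * (nz z + |z 8|))) * z j.castSucc) =
      -(1 / (nz z * (nz z + |z 8|))) * (nz z ^ 2 - |z 8| ^ 2) := by
    rw [nz_sq z]
    simp only [dotProduct, add_sub_cancel_right]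
    rw [Finset.mul_sum]
    exact Finset.sum_congr rfl fun j _ => by ring
  rw [h1]
  field_simp
  ring

lemma Lz_mulVec (z : Fin 9 → ℝ) (x : Fin 8 → ℝ) (j : Fin 8) :
    (Lz z *ᵥ x) j = x j - 1 / (nz z * (nz z + |z 8|)) * (∑ i : Fin 8, z i.castSucc * x i) * z j.castSucc := by
  unfold Lz
  rw [Matrix.add_mulVec, Matrix.one_mulVec, Pi.add_apply, ← Matrix.mulVec_mulVec]
  have h1 : (replicateRow Unit (fun j : Fin 8 => z j.castSucc) *ᵥ x) =
      fun _ => ∑ i : Fin 8, z i.castSucc * x i := by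
    funext u
    rfl
  rw [h1]
  simp only [Matrix.mulVec, dotProduct, Matrix.replicateCol_apply, Finset.univ_unique,
    Finset.sum_singleton]
  ring

lemma Lz_norm {z : Fin 9 → ℝ} (h : z 8 ≠ 0) (x : Fin 8 → ℝ) :
    ∑ j, (Lz z *ᵥ x) j ^ 2 = (∑ j, x j ^ 2) - (∑ j : Fin 8, z j.castSucc * x j) ^ 2 / nz z ^ 2 := by
  have hn := nz_pos h
  have ha : 0 < |z 8| := abs_pos.mpr h
  set s : ℝ := ∑ j : Fin 8, z j.castSucc * x j with hs
  set c : ℝ := 1 / (nz z * (nz z + |z 8|)) with hc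
  have h1 : ∀ j, (Lz z *ᵥ x) j ^ 2 = x j ^ 2 - 2 * c * s * (z j.castSucc * x j) +
      c ^ 2 * s ^ 2 * z j.castSucc ^ 2 := by
    intro j
    rw [Lz_mulVec]
    ring
  simp only [h1]
  rw [Finset.sum_add_distrib, Finset.sum_sub_distrib, ← Finset.mul_sum, ← Finset.mul_sum, ← hs]
  have h2 : (∑ j : Fin 8, z j.castSucc ^ 2) = nz z ^ 2 - |z 8| ^ 2 := by
    rw [nz_sq z]; ring
  rw [h2, hc]
  field_simp
  ring

/-- the full matrix -/
noncomputable def AA {dm : ℕ} (κ : ℝ) (E : Matrix (Fin dm) (Fin dm) ℝ) (z : Fin dm → Fin 9 → ℝ) :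
    Matrix (Fin 8 × Fin dm) (Fin 8 × Fin dm) ℝ :=
  blockDiagonal (fun k => Real.sqrt (κ * nz (z k)) • Lz (z k)) *
    kroneckerMap (fun a b => a * b) (1 : Matrix (Fin 8) (Fin 8) ℝ) E

lemma AA_mulVec {dm : ℕ} (κ : ℝ) (E : Matrix (Fin dm) (Fin dm) ℝ) (z : Fin dm → Fin 9 → ℝ)
    (w : Fin 8 × Fin dm → ℝ) (j : Fin 8) (k : Fin dm) :
    (AA κ E z *ᵥ w) (j, k) =
      Real.sqrt (κ * nz (z k)) * (Lz (z k) *ᵥ fun i => (E *ᵥ fun B => w (i, B)) k) j := by
  unfold AA
  rw [← Matrix.mulVec_mulVec]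
  have h1 : ∀ i k, ((kroneckerMap (fun a b => a * b) (1 : Matrix (Fin 8) (Fin 8) ℝ) E) *ᵥ w) (i, k) =
      (E *ᵥ fun B => w (i, B)) k := by
    intro i k
    simp only [Matrix.mulVec, dotProduct, Fintype.sum_prod_type, kroneckerMap_apply]
    rw [Finset.sum_eq_single i]
    · simp
    · intro b _ hb
      simp [Matrix.one_apply_ne (Ne.symm hb)]
    · intro hh
      exact absurd (Finset.mem_univ _) hh
  have h2 : ∀ v : Fin 8 × Fin dm → ℝ, (blockDiagonal (fun k => Real.sqrt (κ * nz (z k)) • Lz (z k)) *ᵥ v) (j, k) =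
      Real.sqrt (κ * nz (z k)) * (Lz (z k) *ᵥ fun i => v (i, k)) j := by
    intro v
    simp only [Matrix.mulVec, dotProduct, Fintype.sum_prod_type, blockDiagonal_apply, Matrix.smul_apply,
      smul_eq_mul]
    rw [Finset.mul_sum]
    refine Finset.sum_congr rfl fun i _ => ?_
    rw [Finset.sum_eq_single k]
    · simp
      ring
    · intro b _ hb
      simp [Ne.symm hb]
    · intro hh
      exact absurd (Finset.mem_univ _) hh
  rw [h2]
  simp only [h1]

lemma det_AA {dm : ℕ} {κ : ℝ} (hκ : 0 < κ) {E : Matrix (Fin dm) (Fin dm) ℝ} (hE : E * Eᵀ = 1)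
    {z : Fin dm → Fin 9 → ℝ} (hz : ∀ k, z k 8 ≠ 0) :
    (AA κ E z).det = (κ ^ dm) ^ 4 * (∏ k, nz (z k)) ^ 3 * ∏ k, |z k 8| := by
  unfold AA
  have hE2 : E.det ^ 2 = 1 := by
    have h := congrArg Matrix.det hE
    rw [Matrix.det_mul, Matrix.det_transpose, Matrix.det_one] at h
    rw [sq]; exact h
  have hk : (kroneckerMap (fun a b => a * b) (1 : Matrix (Fin 8) (Fin 8) ℝ) E).det = 1 := by
    have h := Matrix.det_kronecker (1 : Matrix (Fin 8) (Fin 8) ℝ) E
    rw [h, Matrix.det_one, one_pow, one_mul, Fintype.card_fin]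
    calc E.det ^ 8 = (E.det ^ 2) ^ 4 := by ring
      _ = 1 := by rw [hE2, one_pow]
  rw [Matrix.det_mul, hk, mul_one, Matrix.det_blockDiagonal]
  have h1 : ∀ k, (Real.sqrt (κ * nz (z k)) • Lz (z k)).det = κ ^ 4 * nz (z k) ^ 3 * |z k 8| := by
    intro k
    have hn := nz_pos (hz k)
    rw [Matrix.det_smul, det_Lz (hz k), Fintype.card_fin]
    have h2 : Real.sqrt (κ * nz (z k)) ^ 8 = (κ * nz (z k)) ^ 4 := by
      calc Real.sqrt (κ * nz (z k)) ^ 8 = (Real.sqrt (κ * nz (z k)) ^ 2) ^ 4 := by ring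
        _ = _ := by rw [Real.sq_sqrt (by positivity)]
    rw [h2]
    field_simp
  simp only [h1]
  rw [Finset.prod_mul_distrib, Finset.prod_mul_distrib, Finset.prod_pow Finset.univ 3 (fun k => nz (z k)),
    Finset.prod_const, Finset.card_univ, Fintype.card_fin]
  ring

end GsA

open GsA in
theorem gauss (hQf : QfStmt) : GaussStmt := by
  intro r dm κ M t Kc E l hκ hRD η hη
  obtain ⟨hz, hD, hO, hq⟩ := hQf r dm κ M t Kc E l hκ hRD η hη
  set z : Fin dm → Fin 9 → ℝ := fun k => zk (l k) η with hzdef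
  have hz' : ∀ k, z k 8 ≠ 0 := hz
  have hD' : |(DM M η 8).det| = ∏ k, |z k 8| := hD
  have hO' : (OmE κ E l η).det = κ ^ dm * ∏ k, nz (z k) := hO
  have hn : ∀ k, 0 < nz (z k) := fun k => nz_pos (hz' k)
  have hAA := det_AA hκ hRD.orth hz'
  have hpos : 0 < (AA κ E z).det := by
    rw [hAA]
    have h1 : 0 < ∏ k, nz (z k) := Finset.prod_pos fun k _ => hn k
    have h2 : 0 < ∏ k, |z k 8| := Finset.prod_pos fun k _ => abs_pos.mpr (hz' k)
    positivity
  have hfun : (fun w : Wsp dm => gR (DM M η) (OmE κ E l η) 1 w ^ 2) =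
      fun w : Wsp dm => Real.exp (-(∑ p, (AA κ E z *ᵥ fun q => w q) p ^ 2)) := by
    funext w
    unfold gR
    rw [← Real.exp_nat_mul]
    congr 1
    rw [hq w, Fintype.sum_prod_type_right]
    have h1 : ∀ k, ∑ j, (AA κ E z *ᵥ fun q => w q) (j, k) ^ 2 =
        κ * (nz (z k) * ((∑ j : Fin 8, (E *ᵥ fun B => w (j, B)) k ^ 2) -
          (∑ j : Fin 8, z k j.castSucc * (E *ᵥ fun B => w (j, B)) k) ^ 2 / nz (z k) ^ 2)) := by
      intro k
      simp only [AA_mulVec]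
      simp only [mul_pow]
      rw [← Finset.mul_sum, Lz_norm (hz' k), Real.sq_sqrt (mul_pos hκ (hn k)).le]
      ring
    simp only [h1]
    rw [← Finset.mul_sum]
    push_cast
    ring
  obtain ⟨hi, hv⟩ := lin_gauss (AA κ E z) hpos.ne'
  rw [hfun]
  refine ⟨hi, ?_⟩
  rw [hv, abs_of_pos hpos, hAA, hO', hD']
  have hcard : ((Fintype.card (Fin 8 × Fin dm) : ℝ) / 2) = ((4 * dm : ℕ) : ℝ) := by
    rw [Fintype.card_prod, Fintype.card_fin, Fintype.card_fin]
    push_cast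
    ring
  rw [hcard, Real.rpow_natCast]
  have h1 : (∏ k, nz (z k)) ≠ 0 := (Finset.prod_pos fun k _ => hn k).ne'
  have h2 : (∏ k, |z k 8|) ≠ 0 := (Finset.prod_pos fun k _ => abs_pos.mpr (hz' k)).ne'
  have h3 : κ ^ dm ≠ 0 := (pow_pos hκ dm).ne'
  field_simp

end Vale.Agent.P353.Z.AX
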