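import Vale.Agent.P353.AN.X.Stmt

/-! # P353, all `N`, block X: two-point function on the vacuum space, independence of the frame -/

open MeasureTheory Filter Topology Matrix
open scoped ContDiff

namespace Vale.Agent.P353.Z.AX

variable {d dh dm : ℕ} {F : Type*} [NormedAddCommGroup F] [InnerProductSpace ℂ F]

private lemma twoCov_tm_anti (S : Setup d F) (φ : Spl dh dm d) (p q : Fin 16 × Fin dm) (w : F) :
    S.tm φ p (S.tm φ q w) + S.tm φ q (S.tm φ p w) = (if p = q then (1 : ℂ) else 0) • w := by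
  have h := congrArg (fun T : F →L[ℂ] F => T w) (S.th_anti p.1 (φ (Sum.inr p.2)) q.1 (φ (Sum.inr q.2)))
  have hiff : (p.1 = q.1 ∧ φ (Sum.inr p.2) = φ (Sum.inr q.2)) ↔ p = q := by
    constructor
    · rintro ⟨h1, h2⟩
      have h3 : p.2 = q.2 := by
        have := φ.injective h2
        exact Sum.inr_injective this
      exact Prod.ext h1 h3
    · rintro rfl
      exact ⟨rfl, rfl⟩
  by_cases hpq : p = q
  · rw [if_pos hpq, one_smul]
    rw [if_pos (hiff.2 hpq)] at h
    exact h
  · rw [if_neg hpq, zero_smul]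
    rw [if_neg (fun h' => hpq (hiff.1 h'))] at h
    exact h

private lemma twoCov_tm_sa (S : Setup d F) (φ : Spl dh dm d) (p : Fin 16 × Fin dm) (v w : F) :
    inner ℂ (S.tm φ p v) w = inner ℂ v (S.tm φ p w) := S.th_sa _ _ _ _

private lemma twoCov_ker (S : Setup d F) (φ : Spl dh dm d)
    (J : Matrix (Fin 16 × Fin dm) (Fin 16 × Fin dm) ℂ) (v : F)
    (hv : v ∈ S.Kr φ (1 - Complex.I • J)) (p : Fin 16 × Fin dm) :
    S.tm φ p v = Complex.I • ∑ q, J p q • S.tm φ q v := by
  have h : ∑ q, (1 - Complex.I • J) p q • S.tm φ q v = 0 := hv p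
  have h1 : ∑ q, (1 - Complex.I • J) p q • S.tm φ q v =
      S.tm φ p v - Complex.I • ∑ q, J p q • S.tm φ q v := by
    rw [Finset.smul_sum]
    have : ∀ q, (1 - Complex.I • J) p q • S.tm φ q v =
        (1 : Matrix (Fin 16 × Fin dm) (Fin 16 × Fin dm) ℂ) p q • S.tm φ q v -
          Complex.I • (J p q • S.tm φ q v) := by
      intro q
      rw [Matrix.sub_apply, Matrix.smul_apply, sub_smul, smul_eq_mul, mul_smul]
    simp only [this, Finset.sum_sub_distrib]
    congr 1
    simp only [Matrix.one_apply, ite_smul, one_smul, zero_smul, Finset.sum_ite_eq, Finset.mem_univ,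
      if_true]
  rw [h1] at h
  exact sub_eq_zero.1 h

/-- **X-Two** -/
theorem two (S : Setup d F) (φ : Spl dh dm d) : TwoStmt S φ := by
  intro J hJ v hv w hw
  have hreal : ∀ p q, (starRingEnd ℂ) (J p q) = J p q := by
    intro p q
    rw [Complex.conj_eq_iff_im]
    exact hJ.toRA.real p q
  set G : (Fin 16 × Fin dm) → (Fin 16 × Fin dm) → ℂ :=
    fun p q => inner ℂ v (S.tm φ p (S.tm φ q w)) with hG
  have hA : ∀ p q, G p q = Complex.I * ∑ r, J q r * G p r := by
    intro p q
    simp only [hG]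
    rw [twoCov_ker S φ J w hw q, map_smul, inner_smul_right, map_sum, inner_sum]
    congr 1
    refine Finset.sum_congr rfl fun r _ => ?_
    rw [map_smul, inner_smul_right]
  have hB : ∀ p q, G p q = -Complex.I * ∑ r, J p r * G r q := by
    intro p q
    simp only [hG]
    rw [← twoCov_tm_sa, twoCov_ker S φ J v hv p, inner_smul_left, sum_inner, Complex.conj_I]
    congr 1
    refine Finset.sum_congr rfl fun r _ => ?_
    rw [inner_smul_left, hreal, twoCov_tm_sa]
  have hC : ∀ p q, G p q + G q p = (if p = q then (1 : ℂ) else 0) * inner ℂ v w := by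
    intro p q
    simp only [hG]
    rw [← inner_add_right, twoCov_tm_anti, inner_smul_right]
  have hD : ∀ p q, G p q = (1 / 2 : ℂ) * ((if p = q then 1 else 0) - Complex.I * J p q) * inner ℂ v w := by
    intro p q
    have h1 : G p q = -Complex.I * (J p q * inner ℂ v w - ∑ r, J p r * G q r) := by
      rw [hB p q]
      congr 1
      have : ∀ r, J p r * G r q = J p r * ((if r = q then (1 : ℂ) else 0) * inner ℂ v w) - J p r * G q r := by
        intro r
        rw [← hC r q]
        ring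
      simp only [this, Finset.sum_sub_distrib]
      congr 1
      simp only [ite_mul, one_mul, zero_mul, mul_ite, mul_zero, Finset.sum_ite_eq', Finset.mem_univ,
        if_true]
    have h2 := hA q p
    have h3 := hC p q
    have h4 : G p q - G q p = -Complex.I * (J p q * inner ℂ v w) := by
      rw [h1, h2]
      ring
    linear_combination (1 / 2 : ℂ) * h3 + (1 / 2 : ℂ) * h4
  refine ⟨hD, ?_⟩
  intro b hb
  have hdiag : ∀ p, b p p = 0 := by
    intro p
    have := congrFun (congrFun hb p) p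
    rw [Matrix.transpose_apply, Matrix.neg_apply] at this
    linear_combination (1 / 2 : ℂ) * this
  have h1 : inner ℂ v (S.Qu φ b w) = (1 / 2 : ℂ) * ∑ p, ∑ q, b p q * G p q := by
    unfold Setup.Qu
    simp only [_root_.smul_apply, _root_.sum_apply, inner_smul_right, inner_sum]
    rfl
  rw [h1]
  have h2 : ∀ p q, b p q * G p q = -(Complex.I / 2) * (b p q * J p q) * inner ℂ v w := by
    intro p q
    rw [hD p q]
    by_cases hpq : p = q
    · subst hpq
      rw [hdiag]
      ring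
    · rw [if_neg hpq]
      ring
  simp only [h2]
  simp only [← Finset.sum_mul, ← Finset.mul_sum]
  ring

private lemma twoCov_orth {R : Matrix (Fin 9) (Fin 9) ℝ} (hR : R * Rᵀ = 1) (k j : Fin 9) :
    ∑ i, R i k * R i j = if k = j then 1 else 0 := by
  have hR' : Rᵀ * R = 1 := mul_eq_one_comm.1 hR
  have := congrFun (congrFun hR' k) j
  rw [Matrix.mul_apply, Matrix.one_apply] at this
  simpa [Matrix.transpose_apply] using this

private lemma twoCov_sq {R : Matrix (Fin 9) (Fin 9) ℝ} (hR : R * Rᵀ = 1)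
    (D : Fin 9 → Matrix (Fin dm) (Fin dm) ℝ) :
    ∑ i, (∑ j, R i j • D j) * (∑ j, R i j • D j) = ∑ i, D i * D i := by
  have h1 : ∀ i, (∑ j, R i j • D j) * (∑ j, R i j • D j) =
      ∑ k, ∑ j, (R i k * R i j) • (D k * D j) := by
    intro i
    rw [Finset.sum_mul_sum]
    refine Finset.sum_congr rfl fun k _ => Finset.sum_congr rfl fun j _ => ?_
    rw [smul_mul_smul_comm]
  simp only [h1]
  rw [Finset.sum_comm]
  refine Finset.sum_congr rfl fun k _ => ?_
  rw [Finset.sum_comm]
  simp only [← Finset.sum_smul, twoCov_orth hR, ite_smul, one_smul, zero_smul, Finset.sum_ite_eq,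
    Finset.mem_univ, if_true]

private lemma twoCov_pp (S : Setup d F) (R : Matrix (Fin 9) (Fin 9) ℝ) (hR : R * Rᵀ = 1)
    (hO : (1 : Matrix (Fin d) (Fin d) ℝ) * (1 : Matrix (Fin d) (Fin d) ℝ)ᵀ = 1)
    (D : Fin 9 → Matrix (Fin dm) (Fin dm) ℝ) :
    (S.rot R hR 1 hO).PP (fun i => ∑ j, R i j • D j) = S.PP D := by
  ext p q
  have h1 : (S.rot R hR 1 hO).PP (fun i => ∑ j, R i j • D j) p q =
      (S.κ : ℂ) * ∑ i, (∑ k, (R i k : ℂ) • S.g k) p.1 q.1 * (((∑ j, R i j • D j) p.2 q.2 : ℝ) : ℂ) := rfl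
  have h2 : S.PP D p q = (S.κ : ℂ) * ∑ i, S.g i p.1 q.1 * ((D i p.2 q.2 : ℝ) : ℂ) := rfl
  rw [h1, h2]
  congr 1
  have h3 : ∀ i, (∑ k, (R i k : ℂ) • S.g k) p.1 q.1 * (((∑ j, R i j • D j) p.2 q.2 : ℝ) : ℂ) =
      ∑ k, ∑ j, ((R i k * R i j : ℝ) : ℂ) * (S.g k p.1 q.1 * ((D j p.2 q.2 : ℝ) : ℂ)) := by
    intro i
    rw [Matrix.sum_apply, Matrix.sum_apply]
    push_cast
    rw [Finset.sum_mul_sum]
    refine Finset.sum_congr rfl fun k _ => Finset.sum_congr rfl fun j _ => ?_
    rw [Matrix.smul_apply, Matrix.smul_apply, smul_eq_mul, smul_eq_mul]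
    push_cast
    ring
  simp only [h3]
  rw [Finset.sum_comm]
  refine Finset.sum_congr rfl fun k _ => ?_
  rw [Finset.sum_comm]
  have h4 : ∀ j, ∑ i, ((R i k * R i j : ℝ) : ℂ) * (S.g k p.1 q.1 * ((D j p.2 q.2 : ℝ) : ℂ)) =
      (if k = j then 1 else 0) * (S.g k p.1 q.1 * ((D j p.2 q.2 : ℝ) : ℂ)) := by
    intro j
    rw [← Finset.sum_mul, ← Complex.ofReal_sum, twoCov_orth hR]
    split_ifs <;> simp
  simp only [h4, ite_mul, one_mul, zero_mul, Finset.sum_ite_eq, Finset.mem_univ, if_true]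

private lemma twoCov_isOm {κ : ℝ} {D D' : Fin 9 → Matrix (Fin dm) (Fin dm) ℝ}
    {Om : Matrix (Fin dm) (Fin dm) ℝ} (h : ∑ i, D' i * D' i = ∑ i, D i * D i)
    (hOm : IsOm κ D Om) : IsOm κ D' Om := by
  refine ⟨hOm.symm, hOm.pos, ?_, ?_⟩
  · rw [h]
    exact hOm.sq
  · intro M hM
    rw [h] at hM
    exact hOm.comm M hM

/-- **X-Cov** -/
theorem covF0 (S : Setup d F) (φ : Spl dh dm d) : CovF0Stmt S φ := by
  intro R hR hO D Om
  have hth : ∀ α A, (S.rot R hR 1 hO).th α A = S.th α A := by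
    intro α A
    have : (S.rot R hR 1 hO).th α A =
        ∑ B, (((1 : Matrix (Fin d) (Fin d) ℝ) A B : ℝ) : ℂ) • S.th α B := rfl
    rw [this]
    have h2 : ∀ B, (((1 : Matrix (Fin d) (Fin d) ℝ) A B : ℝ) : ℂ) • S.th α B =
        if A = B then S.th α B else 0 := by
      intro B
      rw [Matrix.one_apply]
      split_ifs <;> simp
    simp only [h2, Finset.sum_ite_eq, Finset.mem_univ, if_true]
  refine ⟨hth, ?_, ?_, ?_⟩
  · have hL : ∀ p, (S.rot R hR 1 hO).Lth φ (fun i => ∑ j, R i j • D j) Om p = S.Lth φ D Om p := by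
      intro p
      unfold Setup.Lth
      refine Finset.sum_congr rfl fun q _ => ?_
      rw [hth]
      congr 1
      unfold Setup.Lam
      rw [twoCov_pp]
    ext v
    constructor
    · intro hv p
      rw [← hL]
      exact hv p
    · intro hv p
      rw [hL]
      exact hv p
  · intro h
    exact twoCov_isOm (twoCov_sq hR D) h
  · intro h
    exact twoCov_isOm (twoCov_sq hR D).symm h

end Vale.Agent.P353.Z.AX
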