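import Vale.Agent.P353.AN.X.Stmt
import Vale.Agent.P353.AN.B.Om

/-! # P353, all `N`, block X-Root: root data exist -/

open MeasureTheory Filter Topology Matrix
open scoped ContDiff

namespace Vale.Agent.P353.Z.AX

namespace RootPf

/-- simultaneous diagonalisation of commuting real symmetric matrices -/
lemma rtp_simdiag {ι : Type*} [Finite ι] {n : ℕ} (T : ι → Matrix (Fin n) (Fin n) ℝ)
    (hs : ∀ a, (T a)ᵀ = T a) (hc : ∀ a b, T a * T b = T b * T a) :
    ∃ (E : Matrix (Fin n) (Fin n) ℝ) (l : Fin n → ι → ℝ), E * Eᵀ = 1 ∧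
      ∀ a, T a = Eᵀ * diagonal (fun k => l k a) * E := by
  classical
  have hap : ∀ (A : Matrix (Fin n) (Fin n) ℝ) (x : EuclideanSpace ℝ (Fin n)),
      (toEuclideanLin A x).ofLp = A *ᵥ x.ofLp := fun _ _ => rfl
  set L : ι → (EuclideanSpace ℝ (Fin n) →ₗ[ℝ] EuclideanSpace ℝ (Fin n)) :=
    fun a => toEuclideanLin (T a) with hL
  have hsym : ∀ a, (L a).IsSymmetric := by
    intro a
    rw [hL]
    refine isSymmetric_toEuclideanLin_iff.2 ?_
    rw [IsHermitian, conjTranspose_eq_transpose_of_trivial]
    exact hs a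
  have hcomm : Pairwise (Function.onFun Commute L) := by
    intro a b _
    change L a * L b = L b * L a
    refine LinearMap.ext fun x => ?_
    apply (WithLp.equiv 2 (Fin n → ℝ)).injective
    change (toEuclideanLin (T a) (toEuclideanLin (T b) x)).ofLp =
      (toEuclideanLin (T b) (toEuclideanLin (T a) x)).ofLp
    rw [hap, hap, hap, hap, mulVec_mulVec, mulVec_mulVec, hc]
  have hV := LinearMap.IsSymmetric.directSum_isInternal_of_pairwise_commute hsym hcomm
  have hV' := LinearMap.IsSymmetric.orthogonalFamily_iInf_eigenspaces hsym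
  have hW := DirectSum.isInternal_ne_bot_iff.2 hV
  have hfin : Set.Finite {χ : ι → ℝ | (⨅ a, Module.End.eigenspace (L a) (χ a)) ≠ ⊥} :=
    WellFoundedGT.finite_ne_bot_of_iSupIndep hV.submodule_iSupIndep
  have : Fintype {χ : ι → ℝ // (⨅ a, Module.End.eigenspace (L a) (χ a)) ≠ ⊥} := hfin.fintype
  have hW' := hV'.comp (Subtype.val_injective
    (p := fun χ : ι → ℝ => (⨅ a, Module.End.eigenspace (L a) (χ a)) ≠ ⊥))
  have hn : Module.finrank ℝ (EuclideanSpace ℝ (Fin n)) = n := finrank_euclideanSpace_fin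
  set b := hW.subordinateOrthonormalBasis hn hW' with hb
  have hmem : ∀ k, ∃ χ : ι → ℝ, ∀ a, L a (b k) = χ a • b k := by
    intro k
    have h1 := hW.subordinateOrthonormalBasis_subordinate hn k hW'
    refine ⟨(hW.subordinateOrthonormalBasisIndex hn k hW').1, fun a => ?_⟩
    rw [Submodule.mem_iInf] at h1
    exact Module.End.mem_eigenspace_iff.1 (h1 a)
  choose l hl using hmem
  have hE : (Matrix.of fun i j => b i j) * (Matrix.of fun i j => b i j)ᵀ =
      (1 : Matrix (Fin n) (Fin n) ℝ) := by
    ext i j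
    rw [mul_apply]
    have h1 : inner ℝ (b i) (b j) = if i = j then (1 : ℝ) else 0 :=
      orthonormal_iff_ite.1 b.orthonormal i j
    rw [one_apply, ← h1, PiLp.inner_apply]
    simp [mul_comm]
  refine ⟨Matrix.of fun i j => b i j, l, hE, fun a => ?_⟩
  have hE2 := mul_eq_one_comm.1 hE
  have h2 : T a * (Matrix.of fun i j => b i j)ᵀ =
      (Matrix.of fun i j => b i j)ᵀ * diagonal (fun k => l k a) := by
    ext i k
    rw [mul_diagonal, mul_apply]
    have h3 := congrArg (fun x : EuclideanSpace ℝ (Fin n) => x.ofLp i) (hl k a)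
    simp only [hL] at h3
    rw [hap] at h3
    simp only [WithLp.ofLp_smul, Pi.smul_apply, smul_eq_mul] at h3
    simp only [transpose_apply, of_apply]
    rw [mul_comm]
    exact h3
  calc T a = T a * ((Matrix.of fun i j => b i j)ᵀ * (Matrix.of fun i j => b i j)) := by
        rw [hE2, mul_one]
    _ = _ := by rw [← Matrix.mul_assoc, h2]

end RootPf

/-- **X-Root** -/
theorem root : RootStmt := by
  intro r dm M t hM
  set A := ∑ a, t a • M a with hA
  have hAT : Aᵀ = -A := by
    rw [hA, transpose_sum, ← Finset.sum_neg_distrib]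
    refine Finset.sum_congr rfl fun a _ => ?_
    rw [transpose_smul, hM.anti, smul_neg]
  have hMA : ∀ a, M a * A = A * M a := by
    intro a
    rw [hA, Finset.mul_sum, Finset.sum_mul]
    refine Finset.sum_congr rfl fun b _ => ?_
    rw [mul_smul_comm, smul_mul_assoc, hM.comm]
  have hB : (-(A * A)).PosDef := by
    refine PosDef.of_dotProduct_mulVec_pos ?_ ?_
    · change (-(A * A))ᴴ = _
      rw [conjTranspose_eq_transpose_of_trivial, transpose_neg, transpose_mul, hAT, neg_mul_neg]
    · intro v hv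
      rw [star_trivial, neg_mulVec, dotProduct_neg, ← mulVec_mulVec, dotProduct_mulVec,
        ← mulVec_transpose, hAT, neg_mulVec, neg_dotProduct, neg_neg]
      have h8 : A *ᵥ v ≠ 0 := by
        intro h0
        apply hv
        have h1 : A⁻¹ *ᵥ (A *ᵥ v) = 0 := by rw [h0, mulVec_zero]
        rwa [mulVec_mulVec, nonsing_inv_mul _ (isUnit_iff_ne_zero.2 hM.reg), one_mulVec] at h1
      have h9 := (dotProduct_self_eq_zero (v := A *ᵥ v)).not.2 h8
      exact lt_of_le_of_ne (Finset.sum_nonneg fun j _ => mul_self_nonneg _) (Ne.symm h9)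
  obtain ⟨P, hP, hPP, hPc⟩ := OmPf.omp_sqrt hB
  have hPT : Pᵀ = P := by
    have := hP.1
    rwa [IsHermitian, conjTranspose_eq_transpose_of_trivial] at this
  have hPu : IsUnit P.det := isUnit_iff_ne_zero.2 hP.det_pos.ne'
  set Pi := P⁻¹ with hPi
  have hPPi : P * Pi = 1 := mul_nonsing_inv _ hPu
  have hPiP : Pi * P = 1 := nonsing_inv_mul _ hPu
  have cinv : ∀ X : Matrix (Fin dm) (Fin dm) ℝ, X * P = P * X → X * Pi = Pi * X := by
    intro X hX
    calc X * Pi = (Pi * P) * X * Pi := by rw [hPiP, Matrix.one_mul]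
      _ = Pi * (P * X) * Pi := by rw [Matrix.mul_assoc Pi P X]
      _ = Pi * (X * P) * Pi := by rw [hX]
      _ = Pi * X * (P * Pi) := by simp only [Matrix.mul_assoc]
      _ = Pi * X := by rw [hPPi, Matrix.mul_one]
  have hMP : ∀ a, M a * P = P * M a := by
    intro a
    refine hPc _ ?_
    rw [mul_neg, neg_mul, ← Matrix.mul_assoc, hMA, Matrix.mul_assoc, hMA, Matrix.mul_assoc]
  have hAP : A * P = P * A := by
    refine hPc _ ?_
    rw [mul_neg, neg_mul, Matrix.mul_assoc]
  have hMPi := fun a => cinv _ (hMP a)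
  have hAPi : A * Pi = Pi * A := cinv _ hAP
  obtain ⟨Kc, hKc⟩ : ∃ Kc, Kc = A * Pi := ⟨_, rfl⟩
  have hPiT : Piᵀ = Pi := by rw [hPi, transpose_nonsing_inv, hPT]
  have hanti : Kcᵀ = -Kc := by
    rw [hKc, transpose_mul, hAT, hPiT, mul_neg, hAPi]
  have hAA : A * A = -(P * P) := by rw [hPP, neg_neg]
  have hsq : Kc * Kc = -1 := by
    calc Kc * Kc = A * (Pi * A) * Pi := by rw [hKc]; simp only [Matrix.mul_assoc]
      _ = A * A * Pi * Pi := by rw [← hAPi]; simp only [Matrix.mul_assoc]
      _ = -(P * (P * Pi) * Pi) := by rw [hAA]; simp only [neg_mul, Matrix.mul_assoc]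
      _ = -1 := by rw [hPPi, Matrix.mul_one, hPPi]
  have hMK : ∀ a, M a * Kc = Kc * M a := by
    intro a
    rw [hKc, ← Matrix.mul_assoc, hMA, Matrix.mul_assoc, hMPi, Matrix.mul_assoc]
  have hTs : ∀ a, (-(M a * Kc))ᵀ = -(M a * Kc) := by
    intro a
    rw [transpose_neg, transpose_mul, hanti, hM.anti, neg_mul_neg, hMK]
  have hMKM : ∀ a b, M a * Kc * (M b * Kc) = -(M a * M b) := by
    intro a b
    calc M a * Kc * (M b * Kc) = M a * (Kc * M b) * Kc := by simp only [Matrix.mul_assoc]
      _ = M a * M b * (Kc * Kc) := by rw [← hMK]; simp only [Matrix.mul_assoc]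
      _ = -(M a * M b) := by rw [hsq, mul_neg, Matrix.mul_one]
  have hTc : ∀ a b, -(M a * Kc) * -(M b * Kc) = -(M b * Kc) * -(M a * Kc) := by
    intro a b
    rw [neg_mul_neg, neg_mul_neg, hMKM, hMKM, hM.comm]
  obtain ⟨E, l, hE, hT⟩ := RootPf.rtp_simdiag (fun a => -(M a * Kc)) hTs hTc
  have hE2 := mul_eq_one_comm.1 hE
  have hTK : ∀ a, -(M a * Kc) * Kc = M a := by
    intro a
    rw [neg_mul, Matrix.mul_assoc, hsq, mul_neg, Matrix.mul_one, neg_neg]
  refine ⟨Kc, E, l, hanti, hsq, hE, fun a => ?_, fun k => ?_, fun f => ?_⟩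
  · rw [sp, ← hT a, hTK]
  · -- positivity
    have h1 : P = Eᵀ * diagonal (fun k => ∑ a, l k a * t a) * E := by
      have h2 : P = ∑ a, t a • -(M a * Kc) := by
        have h3 : ∑ a, t a • -(M a * Kc) = -(A * Kc) := by
          rw [hA, Finset.sum_mul, ← Finset.sum_neg_distrib]
          refine Finset.sum_congr rfl fun a _ => ?_
          rw [smul_neg, smul_mul_assoc]
        rw [h3, hKc, ← Matrix.mul_assoc, hAA, neg_mul, neg_neg, Matrix.mul_assoc, hPPi,
          Matrix.mul_one]
      rw [h2]
      have h4 : diagonal (fun k => ∑ a, l k a * t a) =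
          ∑ a, t a • diagonal (fun k => l k a) := by
        ext i j
        rw [Matrix.sum_apply]
        simp only [diagonal_apply, Matrix.smul_apply, smul_eq_mul]
        by_cases hij : i = j
        · simp [hij, mul_comm]
        · simp [hij]
      rw [h4, Finset.mul_sum, Finset.sum_mul]
      refine Finset.sum_congr rfl fun a _ => ?_
      rw [hT a, mul_smul_comm, smul_mul_assoc]
    have h5 : E * P * Eᵀ = diagonal (fun k => ∑ a, l k a * t a) := by
      rw [h1]
      calc E * (Eᵀ * diagonal (fun k => ∑ a, l k a * t a) * E) * Eᵀ =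
            (E * Eᵀ) * diagonal (fun k => ∑ a, l k a * t a) * (E * Eᵀ) := by
              simp only [Matrix.mul_assoc]
        _ = _ := by rw [hE, Matrix.one_mul, Matrix.mul_one]
    have h6 : (E * P * Eᵀ) k k = E k ⬝ᵥ (P *ᵥ E k) := by
      rw [Matrix.mul_assoc, mul_apply, dotProduct]
      refine Finset.sum_congr rfl fun j _ => ?_
      congr 1
    have h7 : E k ≠ 0 := by
      intro h0
      have h8 : (E * Eᵀ) k k = 1 := by rw [hE, one_apply_eq]
      rw [mul_apply] at h8
      simp [h0] at h8
    have h9 := hP.dotProduct_mulVec_pos h7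
    rw [star_trivial, ← h6, h5, diagonal_apply_eq] at h9
    exact h9
  · -- commutation
    have hKT : ∀ a, Kc * -(M a * Kc) = -(M a * Kc) * Kc := by
      intro a
      rw [mul_neg, neg_mul, ← Matrix.mul_assoc, ← hMK]
    set N := E * Kc * Eᵀ with hN
    have hKN : Kc = Eᵀ * N * E := by
      rw [hN]
      calc Kc = (Eᵀ * E) * Kc * (Eᵀ * E) := by rw [hE2, Matrix.one_mul, Matrix.mul_one]
        _ = _ := by simp only [Matrix.mul_assoc]
    have hNd : ∀ a, N * diagonal (fun k => l k a) = diagonal (fun k => l k a) * N := by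
      intro a
      have h1 := hKT a
      have h1' : -(M a * Kc) = Eᵀ * diagonal (fun k => l k a) * E := hT a
      rw [h1'] at h1
      calc N * diagonal (fun k => l k a) =
            E * (Kc * (Eᵀ * diagonal (fun k => l k a) * E)) * Eᵀ := by
              rw [hN]
              calc E * Kc * Eᵀ * diagonal (fun k => l k a) =
                  E * Kc * Eᵀ * diagonal (fun k => l k a) * (E * Eᵀ) := by
                    rw [hE, Matrix.mul_one]
                _ = _ := by simp only [Matrix.mul_assoc]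
        _ = E * (Eᵀ * diagonal (fun k => l k a) * E * Kc) * Eᵀ := by rw [h1]
        _ = (E * Eᵀ) * diagonal (fun k => l k a) * (E * Kc * Eᵀ) := by
              simp only [Matrix.mul_assoc]
        _ = diagonal (fun k => l k a) * N := by rw [hE, Matrix.one_mul]
    have hNf : N * diagonal (fun k => f (l k)) = diagonal (fun k => f (l k)) * N := by
      ext i j
      rw [mul_diagonal, diagonal_mul]
      by_cases h0 : N i j = 0
      · rw [h0, zero_mul, mul_zero]
      · have h1 : l i = l j := by
          funext a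
          have h2 := congrFun (congrFun (hNd a) i) j
          rw [mul_diagonal, diagonal_mul] at h2
          have h3 : N i j * (l j a - l i a) = 0 := by linear_combination h2
          exact (sub_eq_zero.1 ((mul_eq_zero.1 h3).resolve_left h0)).symm
        rw [h1, mul_comm]
    rw [sp, hKN]
    calc Eᵀ * N * E * (Eᵀ * diagonal (fun k => f (l k)) * E) =
          Eᵀ * N * (E * Eᵀ) * diagonal (fun k => f (l k)) * E := by simp only [Matrix.mul_assoc]
      _ = Eᵀ * (N * diagonal (fun k => f (l k))) * E := by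
            rw [hE, Matrix.mul_one]; simp only [Matrix.mul_assoc]
      _ = Eᵀ * (diagonal (fun k => f (l k)) * N) * E := by rw [hNf]
      _ = Eᵀ * diagonal (fun k => f (l k)) * (E * Eᵀ) * N * E := by
            rw [hE, Matrix.mul_one]; simp only [Matrix.mul_assoc]
      _ = _ := by simp only [Matrix.mul_assoc]

end Vale.Agent.P353.Z.AX
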