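import Vale.Agent.P353.AN.X.Bri
import Vale.Agent.P353.AN.X.TwoCov
import Vale.Agent.P353.AN.E.Defs

/-! # P353, all `N`, block X: vacuum frames of block E from the vacuum bundle, in every rotated frame -/

open MeasureTheory Filter Topology Matrix
open scoped ContDiff

namespace Vale.Agent.P353.Z.AX

variable {d dh dm ds r : ℕ} {F : Type*} [NormedAddCommGroup F] [InnerProductSpace ℂ F]

/-- rotation of the vector index -/
noncomputable def rz (R : Matrix (Fin 9) (Fin 9) ℝ) (y : Cfg r) : Cfg r := WithLp.toLp 2 fun p => ∑ j, R p.1 j * y (j, p.2)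

theorem rox_one (R : Matrix (Fin 9) (Fin 9) ℝ) (y : Cfg r) : rox R 1 y = rz R y := by
  ext p
  simp [rox, rz, Matrix.one_apply]

theorem rz_add (R : Matrix (Fin 9) (Fin 9) ℝ) (y z : Cfg r) : rz R (y + z) = rz R y + rz R z := by
  ext p
  simp [rz, mul_add, Finset.sum_add_distrib]

theorem rz_smul (R : Matrix (Fin 9) (Fin 9) ℝ) (c : ℝ) (y : Cfg r) : rz R (c • y) = c • rz R y := by
  ext p
  simp only [rz, PiLp.smul_apply, smul_eq_mul, Finset.mul_sum]
  exact Finset.sum_congr rfl fun j _ => by ring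

/-- `rz R` as a continuous linear map -/
noncomputable def rzL (r : ℕ) (R : Matrix (Fin 9) (Fin 9) ℝ) : Cfg r →L[ℝ] Cfg r :=
  LinearMap.toContinuousLinearMap
    { toFun := rz R
      map_add' := rz_add R
      map_smul' := rz_smul R }

@[simp] theorem rzL_apply (R : Matrix (Fin 9) (Fin 9) ℝ) (y : Cfg r) : rzL r R y = rz R y := rfl

theorem rz_rz {R : Matrix (Fin 9) (Fin 9) ℝ} (hR : R * Rᵀ = 1) (y : Cfg r) : rz R (rz Rᵀ y) = y := by
  ext p
  have h : ∀ i j, ∑ k, R i k * R j k = if i = j then 1 else 0 := by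
    intro i j
    have := congrFun (congrFun hR i) j
    rwa [Matrix.mul_apply, Matrix.one_apply] at this
  simp only [rz, Matrix.transpose_apply, Finset.mul_sum]
  rw [Finset.sum_comm]
  have h2 : ∀ j, ∑ k, R p.1 k * (R j k * y (j, p.2)) = (if p.1 = j then 1 else 0) * y (j, p.2) := by
    intro j
    rw [← h p.1 j, Finset.sum_mul]
    exact Finset.sum_congr rfl fun k _ => by ring
  simp only [h2]
  simp

theorem DM_Dz (S : Setup d F) (φ : Spl dh dm d) (ψ : Spl r ds dh) (y : Cfg r) :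
    DM (Mz S φ (spsw ψ)) y = S.Dz φ ψ y := by
  funext i
  ext B C
  simp only [DM, Mz, Setup.Dz, Setup.Dy, Setup.Dm, cmb, Matrix.sum_apply, Matrix.smul_apply, Matrix.of_apply,
    smul_eq_mul]
  rw [← ψ.sum_comp, Fintype.sum_sum_type]
  simp [mul_comm, spsw]

/-- torus data of a standard position in the conventions of block E -/
theorem tor_Dz {S : Setup d F} {φ : Spl dh dm d} {ψ : Spl r ds dh} (hs : S.IsSub φ) (hc : S.IsCen φ ψ) {y₀ : Cfg r}
    (h8 : (S.Dz φ ψ y₀ 8).det ≠ 0) : Tor (Mz S φ (spsw ψ)) (fun a => y₀ (8, a)) where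
  anti := Mz_anti S φ (spsw ψ)
  comm := Mz_comm S φ (spsw ψ) hs (fun A B C => hc A B C)
  reg := by
    have h1 : (∑ a, y₀ (8, a) • Mz S φ (spsw ψ) a) = S.Dz φ ψ y₀ 8 := congrFun (DM_Dz S φ ψ y₀) 8
    rw [h1]
    exact h8

theorem rot_f (S : Setup d F) (R : Matrix (Fin 9) (Fin 9) ℝ) (hR : R * Rᵀ = 1)
    (hO : (1 : Matrix (Fin d) (Fin d) ℝ) * (1 : Matrix (Fin d) (Fin d) ℝ)ᵀ = 1) (A B C : Fin d) :
    (S.rot R hR 1 hO).f A B C = S.f A B C := by
  change ∑ A', ∑ B', ∑ C', (1 : Matrix (Fin d) (Fin d) ℝ) A A' * (1 : Matrix (Fin d) (Fin d) ℝ) B B' *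
    (1 : Matrix (Fin d) (Fin d) ℝ) C C' * S.f A' B' C' = S.f A B C
  rw [Finset.sum_eq_single A, Finset.sum_eq_single B, Finset.sum_eq_single C]
  · simp
  · intro x _ hx
    rw [Matrix.one_apply_ne hx.symm]
    ring
  · simp
  · intro x _ hx
    refine Finset.sum_eq_zero fun y _ => ?_
    rw [Matrix.one_apply_ne hx.symm]
    ring
  · simp
  · intro x _ hx
    refine Finset.sum_eq_zero fun y _ => Finset.sum_eq_zero fun z _ => ?_
    rw [Matrix.one_apply_ne hx.symm]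
    ring
  · simp

theorem rot_Dz (S : Setup d F) (φ : Spl dh dm d) (ψ : Spl r ds dh) (R : Matrix (Fin 9) (Fin 9) ℝ) (hR : R * Rᵀ = 1)
    (hO : (1 : Matrix (Fin d) (Fin d) ℝ) * (1 : Matrix (Fin d) (Fin d) ℝ)ᵀ = 1) (y : Cfg r) :
    (S.rot R hR 1 hO).Dz φ ψ y = S.Dz φ ψ y := by
  funext i
  ext B C
  simp only [Setup.Dz, Setup.Dy, Setup.Dm, Matrix.of_apply, rot_f]

theorem DM_rz (M : Fin r → Matrix (Fin dm) (Fin dm) ℝ) (R : Matrix (Fin 9) (Fin 9) ℝ) (y : Cfg r) (i : Fin 9) :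
    DM M (rz R y) i = ∑ j, R i j • DM M y j := by
  simp only [DM, rz, Finset.smul_sum, smul_smul, Finset.sum_smul]
  rw [Finset.sum_comm]

theorem isClosed_smul_Coll {L : Finset (Fin r → ℝ)} {t : ℝ} (ht : 0 < t) {y : Cfg r} (hy : y ∉ Coll L) : t • y ∉ Coll L := by
  rintro ⟨l, hl, h⟩
  refine hy ⟨l, hl, fun i => ?_⟩
  have h1 := h i
  have h2 : ∑ A, l A * (t • y) (i.castSucc, A) = t * ∑ A, l A * y (i.castSucc, A) := by
    rw [Finset.mul_sum]
    exact Finset.sum_congr rfl fun A _ => by simp only [PiLp.smul_apply, smul_eq_mul]; ring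
  rw [h2] at h1
  exact (mul_eq_zero.1 h1).resolve_left ht.ne'

/-- vacuum frames of block E: in the frame rotated by `R`, points `y' = R y` -/
theorem vfr (S : Setup d F) (φ : Spl dh dm d) (ψ : Spl r ds dh) {L : Finset (Fin r → ℝ)}
    {Om : Cfg r → Matrix (Fin dm) (Fin dm) ℝ} {K : Submodule ℂ F} {U : Cfg r → F →L[ℂ] F}
    (hB : Bun S φ (Mz S φ (spsw ψ)) L Om K U) (R : Matrix (Fin 9) (Fin 9) ℝ) (hR : R * Rᵀ = 1)
    (hO : (1 : Matrix (Fin d) (Fin d) ℝ) * (1 : Matrix (Fin d) (Fin d) ℝ)ᵀ = 1) :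
    (S.rot R hR 1 hO).VFr φ ψ {y | rz Rᵀ y ∉ Coll L ∧ (S.Dz φ ψ y 8).det ≠ 0} (fun y => Om (rz Rᵀ y))
      (fun y => U (rz Rᵀ y)) K := by
  have hκ : (S.rot R hR 1 hO).κ = S.κ := rfl
  have hth : ∀ α A, (S.rot R hR 1 hO).th α A = S.th α A := fun α A =>
    (covF0 S φ R hR hO (fun _ => 0) 0).1 α A
  have hDR : ∀ y : Cfg r, (fun i => ∑ j, R i j • DM (Mz S φ (spsw ψ)) (rz Rᵀ y) j) = S.Dz φ ψ y := by
    intro y
    funext i
    rw [← DM_rz, rz_rz hR, DM_Dz]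
  have hcont : Continuous fun y : Cfg r => rz Rᵀ y := (rzL r Rᵀ).continuous
  have hsm : ContDiff ℝ ∞ fun y : Cfg r => rz Rᵀ y := (rzL r Rᵀ).contDiff
  have hdetc : Continuous fun y : Cfg r => (S.Dz φ ψ y 8).det := by
    have h : Continuous fun y : Cfg r => S.Dz φ ψ y 8 := by
      have h0 : (fun y : Cfg r => S.Dz φ ψ y 8) = fun y => DM (Mz S φ (spsw ψ)) y 8 := by
        funext y
        rw [DM_Dz]
      rw [h0]
      unfold DM
      fun_prop
    exact h.matrix_det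
  refine
    { opn := ?_, cone := ?_, det := ?_, om := ?_, om_c := ?_, om_h := ?_, v_c := ?_, v_h := ?_, v_n := ?_, v_s := ?_,
      v_m := ?_, v_th := ?_, par := ?_ }
  · exact (hB.closed.isOpen_compl.preimage hcont).inter (isOpen_ne_fun hdetc continuous_const)
  · rintro y ⟨h1, h2⟩ t ht
    refine ⟨?_, ?_⟩
    · rw [rz_smul]
      exact isClosed_smul_Coll ht h1
    · have h3 : S.Dz φ ψ (t • y) 8 = t • S.Dz φ ψ y 8 := by
        rw [← DM_Dz, ← DM_Dz]
        simp only [DM, PiLp.smul_apply, smul_eq_mul, Finset.smul_sum, smul_smul]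
      rw [h3, Matrix.det_smul]
      exact mul_ne_zero (pow_ne_zero _ ht.ne') h2
  · rintro y ⟨_, h2⟩
    rw [rot_Dz]
    exact h2
  · rintro y ⟨h1, _⟩
    have h3 := ((covF0 S φ R hR hO (DM (Mz S φ (spsw ψ)) (rz Rᵀ y)) (Om (rz Rᵀ y))).2.2).1
      (hB.om _ (hB.det _ h1))
    rw [hDR] at h3
    rw [rot_Dz]
    exact h3
  · intro B C
    exact (hB.om_smooth B C).comp hsm.contDiffOn fun y hy => hB.det _ hy.1
  · rintro y ⟨_, _⟩ t ht
    rw [rz_smul, hB.om_scale t _ ht]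
  · exact hB.U_smooth.comp hsm.contDiffOn fun y hy => hy.1
  · rintro y ⟨_, _⟩ t ht
    rw [rz_smul, hB.U_scale t _ ht]
  · rintro y _ v
    have h := hB.U_inner (rz Rᵀ y) v v
    rw [inner_self_eq_norm_sq_to_K, inner_self_eq_norm_sq_to_K] at h
    have h2 : ‖U (rz Rᵀ y) v‖ ^ 2 = ‖v‖ ^ 2 := by exact_mod_cast h
    exact (sq_eq_sq₀ (norm_nonneg _) (norm_nonneg _)).1 h2
  · intro y _ w
    exact hB.U_surj _ w
  · rintro y ⟨h1, _⟩ v
    have h3 := (covF0 S φ R hR hO (DM (Mz S φ (spsw ψ)) (rz Rᵀ y)) (Om (rz Rᵀ y))).2.1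
    rw [hDR] at h3
    rw [rot_Dz, h3]
    exact hB.U_mem _ h1 v
  · intro y _ α A v
    rw [hth]
    exact DFunLike.congr_fun (hB.U_comm (rz Rᵀ y) α A) v
  · rintro y ⟨h1, _⟩ i a v hv v' hv'
    have hd : DifferentiableAt ℝ U (rz Rᵀ y) :=
      (hB.U_smooth.contDiffAt (hB.closed.isOpen_compl.mem_nhds h1)).differentiableAt (by simp)
    have h2 : fderiv ℝ (fun y => U (rz Rᵀ y)) y = (fderiv ℝ U (rz Rᵀ y)).comp (rzL r Rᵀ) := by
      have h3 : HasFDerivAt (fun y : Cfg r => rz Rᵀ y) (rzL r Rᵀ) y := (rzL r Rᵀ).hasFDerivAt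
      exact (hd.hasFDerivAt.comp y h3).fderiv
    rw [h2]
    exact hB.U_par _ h1 v' hv' v hv _

end Vale.Agent.P353.Z.AX
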