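import Vale.Agent.P353.AN.X.Stmt
import Mathlib.GroupTheory.CosetCover

/-! # P353, all `N`, block X: X-Conn, the complement of the collision set is connected (prover helper213) -/

open MeasureTheory Filter Topology Matrix
open scoped ContDiff

namespace Vale.Agent.P353.Z.AX

variable {r : ℕ}

/-- the functional `y ↦ ∑_A l_A y_{i,A}` for `i < 8` -/
private noncomputable def xcP (l : Fin r → ℝ) (i : Fin 8) : Cfg r →ₗ[ℝ] ℝ where
  toFun y := ∑ A, l A * y (i.castSucc, A)
  map_add' y z := by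
    simp only [PiLp.add_apply, mul_add, Finset.sum_add_distrib]
  map_smul' c y := by
    simp only [PiLp.smul_apply, smul_eq_mul, RingHom.id_apply, Finset.mul_sum]
    exact Finset.sum_congr rfl fun A _ => by ring

private lemma xcP_apply (l : Fin r → ℝ) (i : Fin 8) (y : Cfg r) :
    xcP l i y = ∑ A, l A * y (i.castSucc, A) := rfl

private lemma xc_mem {L : Finset (Fin r → ℝ)} {y : Cfg r} :
    y ∈ Coll L ↔ ∃ l ∈ L, ∀ i, xcP l i y = 0 := Iff.rfl

/-- the subspace of `z` with `P(z) ∥ P(x)` -/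
private noncomputable def xcW (l : Fin r → ℝ) (x : Cfg r) : Submodule ℝ (Cfg r) :=
  ⨅ i : Fin 8, ⨅ j : Fin 8, LinearMap.ker (xcP l j x • xcP l i - xcP l i x • xcP l j)

private lemma xcW_mem (l : Fin r → ℝ) (x z : Cfg r) :
    z ∈ xcW l x ↔ ∀ i j, xcP l j x * xcP l i z = xcP l i x * xcP l j z := by
  simp only [xcW, Submodule.mem_iInf, LinearMap.mem_ker, LinearMap.sub_apply, LinearMap.smul_apply, smul_eq_mul,
    sub_eq_zero]

/-- a point with prescribed value of one functional -/
private lemma xc_pt (l : Fin r → ℝ) (hl : l ≠ 0) (j : Fin 8) :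
    ∃ z : Cfg r, xcP l j z ≠ 0 ∧ ∀ i, i ≠ j → xcP l i z = 0 := by
  obtain ⟨A, hA⟩ := Function.ne_iff.1 hl
  refine ⟨EuclideanSpace.single (j.castSucc, A) 1, ?_, fun i hij => ?_⟩
  · rw [xcP_apply, Finset.sum_eq_single A]
    · simpa using hA
    · intro B _ hB
      simp [hB]
    · simp
  · rw [xcP_apply]
    refine Finset.sum_eq_zero fun B _ => ?_
    have : i.castSucc ≠ j.castSucc := fun h => hij (Fin.castSucc_injective _ h)
    simp [this]

private lemma xcW_ne (l : Fin r → ℝ) (hl : l ≠ 0) (x : Cfg r) (hx : ∃ i, xcP l i x ≠ 0) : xcW l x ≠ ⊤ := by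
  intro h
  obtain ⟨i, hi⟩ := hx
  obtain ⟨j, hj⟩ : ∃ j : Fin 8, j ≠ i := exists_ne i
  obtain ⟨z, hz, hz'⟩ := xc_pt l hl j
  have h1 : z ∈ xcW l x := by rw [h]; trivial
  have h2 := (xcW_mem l x z).1 h1 j i
  rw [hz' i hj.symm, mul_zero] at h2
  exact (mul_ne_zero hi hz) h2

/-- the segment from `x` to a point off `W(x)` avoids the subspace -/
private lemma xc_seg (l : Fin r → ℝ) (x z : Cfg r) (hx : ∃ i, xcP l i x ≠ 0) (hz : z ∉ xcW l x) (w : Cfg r)
    (hw : w ∈ segment ℝ x z) : ∃ i, xcP l i w ≠ 0 := by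
  by_contra hc
  push Not at hc
  obtain ⟨a, b, ha, hb, hab, rfl⟩ := hw
  have h1 : ∀ i, a * xcP l i x + b * xcP l i z = 0 := fun i => by
    have := hc i
    rwa [map_add, map_smul, map_smul, smul_eq_mul, smul_eq_mul] at this
  by_cases hb0 : b = 0
  · obtain ⟨i, hi⟩ := hx
    have h2 := h1 i
    rw [hb0, zero_mul, add_zero] at h2
    have ha1 : a = 1 := by linarith
    rw [ha1, one_mul] at h2
    exact hi h2
  · refine hz ((xcW_mem l x z).2 fun i j => ?_)
    have e1 := h1 i
    have e2 := h1 j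
    have : b * (xcP l j x * xcP l i z) = b * (xcP l i x * xcP l j z) := by
      linear_combination xcP l j x * e1 - xcP l i x * e2
    exact mul_left_cancel₀ hb0 this

/-- **X-Conn**: the complement of the collision set is connected -/
theorem conn : ConnStmt := by
  intro r L hL
  classical
  have hcomp : ∀ {y : Cfg r}, y ∈ (Coll L)ᶜ ↔ ∀ l ∈ L, ∃ i, xcP l i y ≠ 0 := by
    intro y
    rw [Set.mem_compl_iff, xc_mem]
    push Not
    rfl
  refine isPreconnected_of_forall_pair fun x hx y hy => ?_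
  rw [hcomp] at hx hy
  obtain ⟨z, hz⟩ : ∃ z : Cfg r, ∀ l ∈ L, z ∉ xcW l x ∧ z ∉ xcW l y := by
    let T : Finset (Submodule ℝ (Cfg r)) := L.image (fun l => xcW l x) ∪ L.image (fun l => xcW l y)
    have hT : (⊤ : Submodule ℝ (Cfg r)) ∉ T := by
      intro h
      rcases Finset.mem_union.1 h with h | h
      · obtain ⟨l, hl, e⟩ := Finset.mem_image.1 h
        exact xcW_ne l (hL l hl) x (hx l hl) e
      · obtain ⟨l, hl, e⟩ := Finset.mem_image.1 h
        exact xcW_ne l (hL l hl) y (hy l hl) e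
    have h1 := Subspace.biUnion_ne_univ_of_top_notMem (s := T) hT
    obtain ⟨z, hz⟩ := (Set.ne_univ_iff_exists_notMem _).1 h1
    refine ⟨z, fun l hl => ⟨fun h => hz ?_, fun h => hz ?_⟩⟩
    · exact Set.mem_biUnion (Finset.mem_coe.2 (Finset.mem_union_left _ (Finset.mem_image_of_mem _ hl))) h
    · exact Set.mem_biUnion (Finset.mem_coe.2 (Finset.mem_union_right _ (Finset.mem_image_of_mem _ hl))) h
  refine ⟨segment ℝ x z ∪ segment ℝ y z, ?_, Or.inl (left_mem_segment ℝ x z), Or.inr (left_mem_segment ℝ y z), ?_⟩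
  · rintro w (hw | hw)
    · exact hcomp.2 fun l hl => xc_seg l x z (hx l hl) (hz l hl).1 w hw
    · exact hcomp.2 fun l hl => xc_seg l y z (hy l hl) (hz l hl).2 w hw
  · exact IsPreconnected.union z (right_mem_segment ℝ x z) (right_mem_segment ℝ y z)
      (convex_segment x z).isPreconnected (convex_segment y z).isPreconnected

end Vale.Agent.P353.Z.AX
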