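import Vale.Agent.P353.AN.X.Stmt

/-! # P353, all `N`, block X: assembly of the vacuum bundle (`BunStmt`) -/

open MeasureTheory Filter Topology Matrix
open scoped ContDiff

namespace Vale.Agent.P353.Z.AX

variable {d dh dm : ℕ} {F : Type*} [NormedAddCommGroup F] [InnerProductSpace ℂ F]

private lemma bun_zk_smul {r : ℕ} (l : Fin r → ℝ) (R : ℝ) (η : Cfg r) :
    zk l (R • η) = fun i => R * zk l η i := by
  funext i
  simp only [zk, PiLp.smul_apply, smul_eq_mul, Finset.mul_sum]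
  refine Finset.sum_congr rfl fun a _ => ?_
  ring

private lemma bun_nz_scale (R : ℝ) (hR : 0 < R) (z : Fin 9 → ℝ) : nz (fun i => R * z i) = R * nz z := by
  unfold nz
  have h : ∑ i, (R * z i) ^ 2 = R ^ 2 * ∑ i, z i ^ 2 := by
    rw [Finset.mul_sum]
    exact Finset.sum_congr rfl fun i _ => mul_pow _ _ _
  rw [h, Real.sqrt_mul (sq_nonneg R), Real.sqrt_sq hR.le]

private lemma bun_nz8_scale (R : ℝ) (hR : 0 < R) (z : Fin 9 → ℝ) : nz8 (fun i => R * z i) = R * nz8 z := by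
  unfold nz8
  have h : ∑ j : Fin 8, (R * z j.castSucc) ^ 2 = R ^ 2 * ∑ j : Fin 8, z j.castSucc ^ 2 := by
    rw [Finset.mul_sum]
    exact Finset.sum_congr rfl fun i _ => mul_pow _ _ _
  rw [h, Real.sqrt_mul (sq_nonneg R), Real.sqrt_sq hR.le]

private lemma bun_ang_scale (R : ℝ) (hR : 0 < R) (z : Fin 9 → ℝ) : ang (fun i => R * z i) = ang z := by
  unfold ang
  rw [bun_nz_scale R hR z, mul_div_mul_left _ _ hR.ne']

private lemma bun_be_scale (R : ℝ) (hR : 0 < R) (z : Fin 9 → ℝ) (j : Fin 8) :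
    be (fun i => R * z i) j = be z j := by
  unfold be
  rw [bun_nz8_scale R hR z, bun_ang_scale R hR z, mul_div_mul_left _ _ hR.ne']

private lemma bun_bb_scale (S : Setup d F) {r : ℕ} (E : Matrix (Fin dm) (Fin dm) ℝ) (l : Fin dm → Fin r → ℝ)
    (R : ℝ) (hR : 0 < R) (η : Cfg r) : S.bb E l (R • η) = S.bb E l η := by
  have h : ∀ j, (fun k => be (zk (l k) (R • η)) j) = fun k => be (zk (l k) η) j := by
    intro j
    funext k
    rw [bun_zk_smul, bun_be_scale R hR]
  unfold Setup.bb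
  simp only [h]

private lemma bun_om_scale {r : ℕ} (κ : ℝ) (E : Matrix (Fin dm) (Fin dm) ℝ) (l : Fin dm → Fin r → ℝ)
    (R : ℝ) (hR : 0 < R) (η : Cfg r) : OmE κ E l (R • η) = R • OmE κ E l η := by
  unfold OmE
  have h : (fun k => nz (zk (l k) (R • η))) = R • fun k => nz (zk (l k) η) := by
    funext k
    rw [bun_zk_smul, bun_nz_scale R hR]
    rfl
  rw [h, smul_comm R κ]
  congr 1
  unfold sp
  rw [Matrix.diagonal_smul, Matrix.mul_smul, Matrix.smul_mul]

private lemma bun_th_anti (S : Setup d F) (φ : Spl dh dm d) (α : Fin 16) (A : Fin dh) (p : Fin 16 × Fin dm) :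
    S.th α (φ (Sum.inl A)) * S.tm φ p = -(S.tm φ p * S.th α (φ (Sum.inl A))) := by
  have h := S.th_anti α (φ (Sum.inl A)) p.1 (φ (Sum.inr p.2))
  have hne : ¬ (α = p.1 ∧ φ (Sum.inl A) = φ (Sum.inr p.2)) := by
    rintro ⟨_, h2⟩
    have h3 := φ.injective h2
    simp at h3
  rw [if_neg hne] at h
  unfold Setup.tm
  exact eq_neg_of_add_eq_zero_left h

/-- **X-Bun** -/
theorem bun (S : Setup d F) (φ : Spl dh dm d) (hVec : VecStmt) (hSp : SpStmt) (hOm : OmPStmt) (hP : PathStmt S)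
    (hK : KrFStmt S φ) (hQ : QuStmt S φ) (hSm : SmStmt S φ) (hPar : ParStmt S φ) (hI : IrrStmt S φ) :
    BunStmt S φ := by
  intro hF r M t Kc E l hRD
  obtain ⟨-, hOm1, hOm2, -, -, -⟩ := hOm r dm S.κ M t Kc E l S.κ_pos hRD
  obtain ⟨hRA, hCS, -⟩ := hP r dm M t Kc E l hRD
  obtain ⟨-, hKr⟩ := hK r M t Kc E l hRD
  obtain ⟨hcl, hoff, -, hUs, -, hOs⟩ := hSm hF r E l
  obtain ⟨hI1, hI2, -, hI4⟩ := hI hF (S.J0 Kc) hCS
  have hset : {η : Cfg r | (∑ i, DM M η i * DM M η i).det ≠ 0} = {η | ∀ k, 0 < nz (zk (l k) η)} := by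
    ext η
    exact ⟨fun h => (hOm1 η h).1, fun h => hOm2 η h⟩
  have hUU : ∀ η : Cfg r, S.UU φ E l η = NormedSpace.exp ((1 : ℝ) • S.Qu φ (S.bb E l η)) := by
    intro η
    rw [one_smul]
    rfl
  have hcomm : ∀ (η : Cfg r) (X : F →L[ℂ] F),
      ((∀ p, X * S.tm φ p = S.tm φ p * X) ∨ (∀ p, X * S.tm φ p = -(S.tm φ p * X))) →
      S.UU φ E l η * X = X * S.UU φ E l η := by
    intro η X hX
    rw [hUU η]
    exact ((hQ hF (S.bb E l η) (hRA η)).2.2.2 X hX).2 1
  refine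
    { L_ne := ?_
      closed := hcl
      det := ?_
      om := fun η h => (hOm1 η h).2
      om_smooth := ?_
      om_scale := fun R η hR => bun_om_scale S.κ E l R hR η
      U_smooth := hUs
      U_scale := ?_
      U_inner := ?_
      U_surj := ?_
      U_comm := fun η α A => hcomm η _ (Or.inr fun p => bun_th_anti S φ α A p)
      U_comm' := hcomm
      U_mem := ?_
      U_par := fun η hη => (hPar hF r M t Kc E l hRD η hη).2
      K_th := hI1
      K_ne := hI2
      K_irr := hI4 }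
  · intro l0 hl0 h0
    obtain ⟨k, -, hk⟩ := Finset.mem_image.1 hl0
    have hp := hRD.pos k
    rw [hk, h0] at hp
    simp at hp
  · intro η hη
    exact hOm2 η fun k => (hVec _ ((hoff η).1 hη k)).1
  · intro A B
    rw [hset]
    exact hOs A B
  · intro R η hR
    unfold Setup.UU
    rw [bun_bb_scale S E l R hR η]
  · intro η v w
    rw [hUU η]
    exact ((hQ hF (S.bb E l η) (hRA η)).2.2.1 1).1 v w
  · intro η v
    rw [hUU η]
    exact ((hQ hF (S.bb E l η) (hRA η)).2.2.1 1).2 v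
  · intro η hη v
    rw [← hKr η ((hoff η).1 hη)]
    exact (hPar hF r M t Kc E l hRD η hη).1 v

end Vale.Agent.P353.Z.AX
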