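import Vale.Agent.P353.AN.X.Stmt

/-! # P353, all `N`, block X: derivative of `exp (A η)` between vectors (X-Duh) -/

open MeasureTheory Filter Topology
open scoped ContDiff

namespace Vale.Agent.P353.Z.AX

section Duhamel

variable {𝔸 : Type*} [NormedRing 𝔸] [NormedAlgebra ℝ 𝔸] [CompleteSpace 𝔸]

open NormedSpace

/-- integrand of Duhamel's formula -/
private lemma dh7_cont (A B : 𝔸) :
    Continuous (fun p : ℝ × ℝ => exp (p.2 • (A + p.1 • B)) * B * exp ((1 - p.2) • A)) := by
  have h : Continuous (exp : 𝔸 → 𝔸) := by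
    refine continuous_iff_continuousAt.2 fun x => ?_
    exact (exp_analytic (𝕂 := ℝ) x).continuousAt
  fun_prop

private lemma dh7_duh (A B : 𝔸) (t : ℝ) :
    exp (A + t • B) - exp A =
      t • ∫ s in (0 : ℝ)..1, exp (s • (A + t • B)) * B * exp ((1 - s) • A) := by
  have hd : ∀ s : ℝ, HasDerivAt (fun s : ℝ => exp (s • (A + t • B)) * exp ((1 - s) • A))
      (t • (exp (s • (A + t • B)) * B * exp ((1 - s) • A))) s := by
    intro s
    have h1 := hasDerivAt_exp_smul_const (𝕂 := ℝ) (A + t • B) s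
    have h2 := hasDerivAt_exp_smul_const' (𝕂 := ℝ) A (1 - s)
    have h3 : HasDerivAt (fun s : ℝ => 1 - s) (-1) s := by
      simpa using (hasDerivAt_id s).const_sub 1
    have h4 := h2.scomp s h3
    refine (h1.mul h4).congr_deriv ?_
    simp only [Function.comp_apply, neg_smul, one_smul, mul_neg, mul_add, add_mul, mul_assoc,
      Algebra.smul_mul_assoc, Algebra.mul_smul_comm]
    abel
  have hc : Continuous (fun s : ℝ => t • (exp (s • (A + t • B)) * B * exp ((1 - s) • A))) :=
    ((dh7_cont A B).comp (Continuous.prodMk_right t)).const_smul t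
  have h5 := intervalIntegral.integral_eq_sub_of_hasDerivAt (a := 0) (b := 1)
    (fun s _ => hd s) (hc.intervalIntegrable 0 1)
  rw [intervalIntegral.integral_smul] at h5
  rw [h5]
  simp

private lemma dh7_hasDerivAt (A B : 𝔸) :
    HasDerivAt (fun t : ℝ => exp (A + t • B))
      (∫ s in (0 : ℝ)..1, exp (s • A) * B * exp ((1 - s) • A)) 0 := by
  rw [hasDerivAt_iff_tendsto_slope_zero]
  have hc : Continuous (fun t : ℝ => ∫ s in (0 : ℝ)..1,
      exp (s • (A + t • B)) * B * exp ((1 - s) • A)) :=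
    intervalIntegral.continuous_parametric_intervalIntegral_of_continuous' (dh7_cont A B) 0 1
  have h1 := (hc.tendsto 0).mono_left (nhdsWithin_le_nhds (s := {(0 : ℝ)}ᶜ))
  simp only [zero_smul, add_zero] at h1
  refine h1.congr' ?_
  filter_upwards [self_mem_nhdsWithin] with t ht
  rw [zero_add, zero_smul, add_zero, dh7_duh, smul_smul, inv_mul_cancel₀ ht, one_smul]

end Duhamel

/-- **X-Duh** -/
theorem duh (F : Type*) [NormedAddCommGroup F] [InnerProductSpace ℂ F] : DuhStmt F := by
  intro hF r A s η ξ hs hη hA hsk v w h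
  have hc : CompleteSpace F := FiniteDimensional.complete ℂ F
  let iQ : NormedAlgebra ℚ (F →L[ℂ] F) := NormedAlgebra.restrictScalars ℚ ℝ (F →L[ℂ] F)
  have hAd : DifferentiableAt ℝ A η := (hA.contDiffAt (hs.mem_nhds hη)).differentiableAt (by simp)
  obtain ⟨B, hB⟩ : ∃ B, B = fderiv ℝ A η ξ := ⟨_, rfl⟩
  rw [← hB] at h
  have hexp : DifferentiableAt ℝ (NormedSpace.exp : (F →L[ℂ] F) → (F →L[ℂ] F)) (A η) :=
    (NormedSpace.exp_analytic (𝕂 := ℝ) _).differentiableAt
  have h1 : (fderiv ℝ (fun η' => NormedSpace.exp (A η')) η ξ) =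
      fderiv ℝ (NormedSpace.exp : (F →L[ℂ] F) → (F →L[ℂ] F)) (A η) B := by
    have := fderiv_comp η hexp hAd
    change fderiv ℝ (NormedSpace.exp ∘ A) η ξ = _
    rw [this, hB]
    rfl
  have h2 : HasDerivAt (fun t : ℝ => NormedSpace.exp (A η + t • B))
      (fderiv ℝ (NormedSpace.exp : (F →L[ℂ] F) → (F →L[ℂ] F)) (A η) B) 0 := by
    have e1 : HasDerivAt (fun t : ℝ => A η + t • B) B 0 := by
      simpa using ((hasDerivAt_id (0 : ℝ)).smul_const B).const_add (A η)
    have e2 : HasFDerivAt (NormedSpace.exp : (F →L[ℂ] F) → (F →L[ℂ] F))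
        (fderiv ℝ (NormedSpace.exp : (F →L[ℂ] F) → (F →L[ℂ] F)) (A η)) (A η + (0 : ℝ) • B) := by
      rw [zero_smul, add_zero]
      exact hexp.hasFDerivAt
    exact e2.comp_hasDerivAt 0 e1
  have h3 := h2.unique (dh7_hasDerivAt (A η) B)
  rw [h1, h3]
  -- adjoint of the exponential
  have hadj : ∀ (τ : ℝ) (x y : F), inner ℂ (NormedSpace.exp (τ • A η) x) y =
      inner ℂ x (NormedSpace.exp ((-τ) • A η) y) := by
    intro τ x y
    have e1 : star (A η) = -A η := by
      rw [ContinuousLinearMap.star_eq_adjoint]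
      refine ContinuousLinearMap.ext fun x => ext_inner_left ℂ fun y => ?_
      rw [ContinuousLinearMap.adjoint_inner_right, hsk, _root_.neg_apply, inner_neg_right]
    have e2 : star (NormedSpace.exp (τ • A η)) = NormedSpace.exp ((-τ) • A η) := by
      rw [NormedSpace.star_exp, star_smul, e1]
      simp
    rw [← e2, ContinuousLinearMap.star_eq_adjoint, ContinuousLinearMap.adjoint_inner_right]
  have hci : Continuous (fun s : ℝ => NormedSpace.exp (s • A η) * B * NormedSpace.exp ((1 - s) • A η)) := by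
    have h5 := (dh7_cont (A η) B).comp (Continuous.prodMk_right (0 : ℝ))
    refine h5.congr fun t => ?_
    simp only [Function.comp_apply, zero_smul, add_zero]
  have h4 : inner ℂ (NormedSpace.exp (A η) v)
      ((∫ s in (0 : ℝ)..1, NormedSpace.exp (s • A η) * B * NormedSpace.exp ((1 - s) • A η)) w) =
      ∫ s in (0 : ℝ)..1, inner ℂ (NormedSpace.exp (A η) v)
        ((NormedSpace.exp (s • A η) * B * NormedSpace.exp ((1 - s) • A η)) w) := by
    let Λ : (F →L[ℂ] F) →L[ℝ] ℂ := ((innerSL ℂ (NormedSpace.exp (A η) v)).comp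
      (ContinuousLinearMap.apply ℂ F w)).restrictScalars ℝ
    exact (Λ.intervalIntegral_comp_comm (hci.intervalIntegrable 0 1)).symm
  rw [h4]
  refine intervalIntegral.integral_zero_ae (Filter.Eventually.of_forall fun t ht => ?_)
  rw [Set.uIoc_of_le zero_le_one] at ht
  have e3 : NormedSpace.exp (A η) = NormedSpace.exp (t • A η) * NormedSpace.exp ((1 - t) • A η) := by
    rw [← NormedSpace.exp_add_of_commute (((Commute.refl (A η)).smul_left t).smul_right (1 - t)),
      ← add_smul]
    simp
  have e4 := h (1 - t) (by linarith [ht.2]) (by linarith [ht.1])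
  rw [e3]
  simp only [_root_.mul_apply_eq_comp]
  rw [hadj t]
  have e5 : NormedSpace.exp ((-t) • A η) (NormedSpace.exp (t • A η)
      (B (NormedSpace.exp ((1 - t) • A η) w))) = B (NormedSpace.exp ((1 - t) • A η) w) := by
    have : NormedSpace.exp ((-t) • A η) * NormedSpace.exp (t • A η) = 1 := by
      rw [← NormedSpace.exp_add_of_commute (((Commute.refl (A η)).smul_left (-t)).smul_right t),
        ← add_smul]
      simp
    exact congrArg (fun T : F →L[ℂ] F => T (B (NormedSpace.exp ((1 - t) • A η) w))) this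
  rw [e5]
  exact e4

end Vale.Agent.P353.Z.AX
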