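import Vale.Agent.P353.AN.X.Stmt

/-! # P353, all `N`, block X: task X-Irr (the vacuum space of a complex structure) -/

open Matrix

namespace Vale.Agent.P353.Z.AX

namespace IrrPf

variable {P : Type*} [Fintype P] [DecidableEq P] {F : Type*} [NormedAddCommGroup F] [InnerProductSpace ℂ F]

/-- Clifford generators and a real orthogonal complex structure -/
structure ICl (θ : P → F →L[ℂ] F) (J : Matrix P P ℂ) : Prop where
  anti : ∀ p q, θ p * θ q + θ q * θ p = if p = q then 1 else 0
  sa : ∀ p (v w : F), inner ℂ (θ p v) w = inner ℂ v (θ p w)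
  Jre : ∀ p q, (J p q).im = 0
  Janti : Jᵀ = -J
  Jsq : J * J = -1

/-- annihilation operator -/
noncomputable def iann (θ : P → F →L[ℂ] F) (J : Matrix P P ℂ) (p : P) : F →L[ℂ] F :=
  ∑ q, (1 - Complex.I • J) p q • θ q

omit [Fintype P] [DecidableEq P] in
lemma imul_apply (X Y : F →L[ℂ] F) (v : F) : (X * Y) v = X (Y v) := rfl

variable {θ : P → F →L[ℂ] F} {J : Matrix P P ℂ}

lemma iann_apply (p : P) (v : F) : iann θ J p v = ∑ q, (1 - Complex.I • J) p q • θ q v := by
  simp only [iann, _root_.sum_apply, _root_.smul_apply]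

lemma ian_th (h : ICl θ J) (p q : P) :
    iann θ J p * θ q = (1 - Complex.I • J) p q • (1 : F →L[ℂ] F) - θ q * iann θ J p := by
  rw [eq_sub_iff_add_eq, iann, Finset.sum_mul, Finset.mul_sum, ← Finset.sum_add_distrib]
  have : ∀ r, (1 - Complex.I • J) p r • θ r * θ q + θ q * (1 - Complex.I • J) p r • θ r =
      if r = q then (1 - Complex.I • J) p r • (1 : F →L[ℂ] F) else 0 := by
    intro r
    rw [smul_mul_assoc, mul_smul_comm, ← smul_add, h.anti]
    split_ifs <;> simp
  simp only [this, Finset.sum_ite_eq', Finset.mem_univ, if_true]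

lemma iAAt (h : ICl θ J) : (1 - Complex.I • J) * (1 - Complex.I • J)ᵀ = 0 := by
  rw [Matrix.transpose_sub, Matrix.transpose_one, Matrix.transpose_smul, h.Janti, smul_neg, sub_neg_eq_add,
    sub_mul, mul_add, mul_add, Matrix.one_mul, Matrix.one_mul, Matrix.mul_one, smul_mul_smul_comm, h.Jsq,
    Complex.I_mul_I, neg_smul, one_smul, neg_neg]
  abel

lemma ian_ian (h : ICl θ J) (p q : P) :
    iann θ J p * iann θ J q + iann θ J q * iann θ J p = 0 := by
  have h1 : iann θ J p * iann θ J q + iann θ J q * iann θ J p =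
      ∑ r, (1 - Complex.I • J) q r • (iann θ J p * θ r + θ r * iann θ J p) := by
    conv_lhs => rw [iann.eq_def θ J q, Finset.mul_sum, Finset.sum_mul, ← Finset.sum_add_distrib]
    refine Finset.sum_congr rfl fun r _ => ?_
    rw [smul_mul_assoc, mul_smul_comm, ← smul_add]
  rw [h1]
  have h2 : ∀ r, (1 - Complex.I • J) q r • (iann θ J p * θ r + θ r * iann θ J p) =
      ((1 - Complex.I • J) p r * (1 - Complex.I • J)ᵀ r q) • (1 : F →L[ℂ] F) := by
    intro r
    rw [ian_th h, sub_add_cancel, smul_smul, Matrix.transpose_apply, mul_comm]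
  simp only [h2]
  rw [← Finset.sum_smul, ← Matrix.mul_apply, iAAt h]
  simp

lemma inner_th (h : ICl θ J) {p : P} {u : F} (hu : iann θ J p u = 0) (v : F) :
    inner ℂ u (θ p v) = (1 / 2 : ℂ) * inner ℂ u (iann θ J p v) := by
  have h0 : inner ℂ (iann θ J p u) v = 0 := by rw [hu, inner_zero_left]
  have h1 : inner ℂ (iann θ J p u) v + inner ℂ u (iann θ J p v) = 2 * inner ℂ u (θ p v) := by
    rw [iann_apply, iann_apply, sum_inner, inner_sum, ← Finset.sum_add_distrib]
    have : ∀ q, inner ℂ ((1 - Complex.I • J) p q • θ q u) v + inner ℂ u ((1 - Complex.I • J) p q • θ q v) =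
        if p = q then 2 * inner ℂ u (θ q v) else 0 := by
      intro q
      rw [inner_smul_left, inner_smul_right, h.sa, ← add_mul]
      have hc : (starRingEnd ℂ) ((1 - Complex.I • J) p q) + (1 - Complex.I • J) p q =
          if p = q then 2 else 0 := by
        have hr : (starRingEnd ℂ) (J p q) = J p q := Complex.conj_eq_iff_im.2 (h.Jre p q)
        rw [Matrix.sub_apply, Matrix.smul_apply, smul_eq_mul, map_sub, map_mul, hr, Complex.conj_I,
          Matrix.one_apply]
        split_ifs
        · rw [map_one]; ring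
        · rw [map_zero]; ring
      rw [hc]
      split_ifs <;> simp
    simp only [this, Finset.sum_ite_eq, Finset.mem_univ, if_true]
  rw [h0, zero_add] at h1
  rw [h1]
  ring

/-- the vacuum is not zero -/
lemma iexists (h : ICl θ J) (hF : ∃ v : F, v ≠ 0) (T : Finset P) :
    ∃ v : F, v ≠ 0 ∧ ∀ p ∈ T, iann θ J p v = 0 := by
  induction T using Finset.induction_on with
  | empty => obtain ⟨v, hv⟩ := hF; exact ⟨v, hv, by simp⟩
  | insert p T _ ih =>
    obtain ⟨v, hv, hT⟩ := ih
    by_cases h0 : iann θ J p v = 0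
    · refine ⟨v, hv, fun q hq => ?_⟩
      rcases Finset.mem_insert.1 hq with rfl | hq
      · exact h0
      · exact hT q hq
    · refine ⟨iann θ J p v, h0, fun q hq => ?_⟩
      rcases Finset.mem_insert.1 hq with rfl | hq
      · have := congrArg (fun X : F →L[ℂ] F => X v) (ian_ian h q q)
        simp only [_root_.add_apply, imul_apply,
          _root_.zero_apply] at this
        rw [← two_smul ℂ] at this
        exact (smul_eq_zero.1 this).resolve_left two_ne_zero
      · have := congrArg (fun X : F →L[ℂ] F => X v) (ian_ian h q p)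
        simp only [_root_.add_apply, imul_apply,
          _root_.zero_apply, hT q hq, map_zero, add_zero] at this
        exact this

/-- span of the words of length `< n` -/
def iwd (θ : P → F →L[ℂ] F) (n : ℕ) : Submodule ℂ (F →L[ℂ] F) :=
  Submodule.span ℂ {X | ∃ L : List P, L.length < n ∧ X = (L.map θ).prod}

omit [Fintype P] [DecidableEq P] in
lemma iwd_cons (q : P) {n : ℕ} {X : F →L[ℂ] F} (hX : X ∈ iwd θ n) : θ q * X ∈ iwd θ (n + 1) := by
  induction hX using Submodule.span_induction with
  | mem X h =>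
    obtain ⟨L, hL, rfl⟩ := h
    refine Submodule.subset_span ⟨q :: L, by simpa using hL, by simp⟩
  | zero => simp
  | add X Y _ _ hX hY => rw [mul_add]; exact Submodule.add_mem _ hX hY
  | smul c X _ hX => rw [mul_smul_comm]; exact Submodule.smul_mem _ c hX

lemma ipass (h : ICl θ J) (p : P) (L : List P) :
    ∃ R ∈ iwd θ L.length, ∃ ε : ℂ, iann θ J p * (L.map θ).prod = ε • ((L.map θ).prod * iann θ J p) + R := by
  induction L with
  | nil => exact ⟨0, Submodule.zero_mem _, 1, by simp⟩
  | cons q L ih =>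
    obtain ⟨R, hR, ε, he⟩ := ih
    refine ⟨(1 - Complex.I • J) p q • (L.map θ).prod - θ q * R, ?_, -ε, ?_⟩
    · refine Submodule.sub_mem _ (Submodule.smul_mem _ _ ?_) (iwd_cons q hR)
      exact Submodule.subset_span ⟨L, by simp, rfl⟩
    · rw [List.map_cons, List.prod_cons, ← mul_assoc, ian_th h, sub_mul, mul_assoc, he, smul_mul_assoc, one_mul,
        mul_add, mul_smul_comm, neg_smul, mul_assoc]
      abel

/-- operators that act as a scalar between vacuum vectors -/
def isc (θ : P → F →L[ℂ] F) (J : Matrix P P ℂ) : Submodule ℂ (F →L[ℂ] F) where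
  carrier := {X | ∃ c : ℂ, ∀ u w : F, (∀ p, iann θ J p u = 0) → (∀ p, iann θ J p w = 0) →
    inner ℂ u (X w) = c * inner ℂ u w}
  add_mem' := by
    rintro X Y ⟨c, hc⟩ ⟨e, he⟩
    refine ⟨c + e, fun u w hu hw => ?_⟩
    rw [_root_.add_apply, inner_add_right, hc u w hu hw, he u w hu hw, add_mul]
  zero_mem' := ⟨0, fun u w _ _ => by simp⟩
  smul_mem' := by
    rintro a X ⟨c, hc⟩
    refine ⟨a * c, fun u w hu hw => ?_⟩
    rw [_root_.smul_apply, inner_smul_right, hc u w hu hw, mul_assoc]

lemma iword (h : ICl θ J) (n : ℕ) : ∀ L : List P, L.length = n → (L.map θ).prod ∈ isc θ J := by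
  induction n using Nat.strong_induction_on with
  | _ n ih =>
    intro L hL
    cases L with
    | nil => exact ⟨1, fun u w _ _ => by simp⟩
    | cons p L =>
      obtain ⟨R, hR, ε, he⟩ := ipass h p L
      have hsc : R ∈ isc θ J := by
        have hle : iwd θ L.length ≤ isc θ J := by
          refine Submodule.span_le.2 ?_
          rintro X ⟨M, hM, rfl⟩
          refine ih M.length ?_ M rfl
          rw [← hL, List.length_cons]
          omega
        exact hle hR
      obtain ⟨c, hc⟩ := hsc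
      refine ⟨(1 / 2 : ℂ) * c, fun u w hu hw => ?_⟩
      rw [List.map_cons, List.prod_cons, imul_apply, inner_th h (hu p),
        ← imul_apply, he, _root_.add_apply,
        _root_.smul_apply, imul_apply, hw p, map_zero, smul_zero, zero_add, hc u w hu hw,
        mul_assoc]

/-- irreducibility of the vacuum space -/
lemma iirr [FiniteDimensional ℂ F] (h : ICl θ J) (G : Set (F →L[ℂ] F)) (hG : ∀ g ∈ G, ∀ p, g * θ p = -(θ p * g))
    (hir : ∀ W : Submodule ℂ F, (∀ p, ∀ v ∈ W, θ p v ∈ W) → (∀ g ∈ G, ∀ v ∈ W, g v ∈ W) → W = ⊥ ∨ W = ⊤)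
    (W : Submodule ℂ F) (hW : ∀ v ∈ W, ∀ p, iann θ J p v = 0) (hWG : ∀ g ∈ G, ∀ v ∈ W, g v ∈ W) (hne : W ≠ ⊥)
    (u : F) (hu : ∀ p, iann θ J p u = 0) : u ∈ W := by
  set Y : Submodule ℂ F := Submodule.span ℂ {x | ∃ L : List P, ∃ w ∈ W, x = (L.map θ).prod w} with hY
  have hYW : W ≤ Y := fun w hw => Submodule.subset_span ⟨[], w, hw, by simp⟩
  have hYp : ∀ p, ∀ v ∈ Y, θ p v ∈ Y := by
    intro p v hv
    induction hv using Submodule.span_induction with
    | mem x hx =>
      obtain ⟨L, w, hw, rfl⟩ := hx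
      exact Submodule.subset_span ⟨p :: L, w, hw, by simp⟩
    | zero => simp
    | add x y _ _ hx hy => rw [map_add]; exact Submodule.add_mem _ hx hy
    | smul c x _ hx => rw [map_smul]; exact Submodule.smul_mem _ c hx
  have hgL : ∀ g ∈ G, ∀ L : List P, ∃ ε : ℂ, g * (L.map θ).prod = ε • ((L.map θ).prod * g) := by
    intro g hg L
    induction L with
    | nil => exact ⟨1, by simp⟩
    | cons q L ih =>
      obtain ⟨ε, he⟩ := ih
      refine ⟨-ε, ?_⟩
      rw [List.map_cons, List.prod_cons, ← mul_assoc, hG g hg q, neg_mul, mul_assoc, he, mul_smul_comm, neg_smul, mul_assoc]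
  have hYg : ∀ g ∈ G, ∀ v ∈ Y, g v ∈ Y := by
    intro g hg v hv
    induction hv using Submodule.span_induction with
    | mem x hx =>
      obtain ⟨L, w, hw, rfl⟩ := hx
      obtain ⟨ε, he⟩ := hgL g hg L
      rw [← imul_apply, he, _root_.smul_apply, imul_apply]
      exact Submodule.smul_mem _ _ (Submodule.subset_span ⟨L, g w, hWG g hg w hw, rfl⟩)
    | zero => simp
    | add x y _ _ hx hy => rw [map_add]; exact Submodule.add_mem _ hx hy
    | smul c x _ hx => rw [map_smul]; exact Submodule.smul_mem _ c hx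
  have hYtop : Y = ⊤ := by
    refine (hir Y hYp hYg).resolve_left fun h0 => hne ?_
    rw [h0, le_bot_iff] at hYW
    exact hYW
  obtain ⟨y, hy, z, hz, hyz⟩ := W.exists_add_mem_mem_orthogonal u
  have hzk : ∀ p, iann θ J p z = 0 := by
    intro p
    have h1 := hu p
    rw [hyz, map_add, hW y hy p, zero_add] at h1
    exact h1
  have hzY : ∀ x ∈ Y, inner ℂ z x = 0 := by
    intro x hx
    induction hx using Submodule.span_induction with
    | mem x hx =>
      obtain ⟨L, w, hw, rfl⟩ := hx
      obtain ⟨c, hc⟩ := iword h L.length L rfl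
      rw [hc z w hzk (hW w hw), Submodule.inner_left_of_mem_orthogonal hw hz, mul_zero]
    | zero => simp
    | add x y _ _ hx hy => rw [inner_add_right, hx, hy, add_zero]
    | smul c x _ hx => rw [inner_smul_right, hx, mul_zero]
  have hz0 : z = 0 := by
    have := hzY z (by rw [hYtop]; trivial)
    exact inner_self_eq_zero.1 this
  rw [hyz, hz0, add_zero]
  exact hy

end IrrPf

open IrrPf

variable {d dh dm : ℕ} {F : Type*} [NormedAddCommGroup F] [InnerProductSpace ℂ F]

theorem irr (S : Setup d F) (φ : Spl dh dm d) : IrrStmt S φ := by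
  intro hfin J hJ
  have hCl : ICl (S.tm φ) J := by
    refine ⟨fun p q => ?_, fun p v w => S.th_sa _ _ v w, hJ.real, hJ.anti, hJ.sq⟩
    rw [Setup.tm, Setup.tm, S.th_anti]
    congr 1
    simp only [EmbeddingLike.apply_eq_iff_eq, Sum.inr.injEq, Prod.ext_iff]
  have hmem : ∀ v : F, v ∈ S.Kr φ (1 - Complex.I • J) ↔ ∀ p, iann (S.tm φ) J p v = 0 := by
    intro v
    refine forall_congr' fun p => ?_
    rw [iann_apply]
  have hanti : ∀ α (A : Fin dh) (p : Fin 16 × Fin dm),
      S.th α (φ (Sum.inl A)) * S.tm φ p = -(S.tm φ p * S.th α (φ (Sum.inl A))) := by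
    intro α A p
    rw [eq_neg_iff_add_eq_zero, Setup.tm, S.th_anti, if_neg]
    simp
  refine ⟨fun α A v hv => ?_, fun hne => ?_, fun L => ?_, fun hirr W hW hWh => ?_⟩
  · rw [hmem] at hv ⊢
    intro p
    have h1 : iann (S.tm φ) J p * S.th α (φ (Sum.inl A)) = -(S.th α (φ (Sum.inl A)) * iann (S.tm φ) J p) := by
      rw [iann, Finset.sum_mul, Finset.mul_sum, ← Finset.sum_neg_distrib]
      refine Finset.sum_congr rfl fun q _ => ?_
      rw [smul_mul_assoc, mul_smul_comm, hanti, smul_neg, neg_neg]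
    rw [← imul_apply, h1, _root_.neg_apply,
      imul_apply, hv p, map_zero, neg_zero]
  · obtain ⟨v, hv, h⟩ := iexists hCl hne Finset.univ
    exact ⟨v, (hmem v).2 fun p => h p (Finset.mem_univ p), hv⟩
  · obtain ⟨c, hc⟩ := iword hCl L.length L rfl
    exact ⟨c, fun u hu w hw => hc u w ((hmem u).1 hu) ((hmem w).1 hw)⟩
  · by_cases hbot : W = ⊥
    · exact Or.inl hbot
    · refine Or.inr (le_antisymm hW fun u hu => ?_)
      refine iirr hCl {g | ∃ α, ∃ A : Fin dh, g = S.th α (φ (Sum.inl A))} ?_ ?_ W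
        (fun v hv => (hmem v).1 (hW hv)) ?_ hbot u ((hmem u).1 hu)
      · rintro g ⟨α, A, rfl⟩ p
        exact hanti α A p
      · intro Y hYp hYg
        refine hirr Y fun α A v hv => ?_
        obtain ⟨a, rfl⟩ := φ.surjective A
        rcases a with A | B
        · exact hYg _ ⟨α, A, rfl⟩ v hv
        · exact hYp (α, B) v hv
      · rintro g ⟨α, A, rfl⟩ v hv
        exact hWh α A v hv

end Vale.Agent.P353.Z.AX
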