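import Vale.Agent.P353.AN.X.Stmt

/-! # P353, all `N`, block X: parallel transport (`ParStmt`) -/

open MeasureTheory Filter Topology Matrix
open scoped ContDiff

namespace Vale.Agent.P353.Z.AX

variable {d dh dm : ℕ} {F : Type*} [NormedAddCommGroup F] [InnerProductSpace ℂ F]

/-- the trace pairing of a symmetric with an antisymmetric matrix vanishes -/
private lemma xpar_pair (A N Kc : Matrix (Fin dm) (Fin dm) ℝ) (hA : Aᵀ = A) (hAN : (A * N)ᵀ = A * N)
    (hK : Kcᵀ = -Kc) : ∑ p, ∑ q, A p q * (N * Kc) p q = 0 := by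
  have h1 : ∑ p, ∑ q, A p q * (N * Kc) p q = (A * N * Kc).trace := by
    rw [Matrix.mul_assoc, Matrix.trace]
    simp only [Matrix.diag_apply, Matrix.mul_apply (M := A)]
    rw [Finset.sum_comm]
    refine Finset.sum_congr rfl fun q _ => Finset.sum_congr rfl fun p _ => ?_
    have : A p q = A q p := by
      conv_lhs => rw [← hA, Matrix.transpose_apply]
    rw [this]
  have h2 : (A * N * Kc).trace = -(A * N * Kc).trace := by
    conv_lhs => rw [← Matrix.trace_transpose, Matrix.transpose_mul, hAN, hK, Matrix.neg_mul,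
      Matrix.trace_neg, Matrix.trace_mul_comm]
  rw [h1]
  linarith

/-- the derivative of `bb` is antisymmetric -/
private lemma xpar_anti (S : Setup d F) (hSp : SpStmt) (E : Matrix (Fin dm) (Fin dm) ℝ) (hE : E * Eᵀ = 1)
    (c : Fin 8 → Fin dm → ℝ) :
    (Matrix.of fun p q : Fin 16 × Fin dm =>
      ∑ j : Fin 8, (S.g j.castSucc * S.g 8) p.1 q.1 * ((sp E (c j) p.2 q.2 : ℝ) : ℂ))ᵀ =
    -(Matrix.of fun p q : Fin 16 × Fin dm =>
      ∑ j : Fin 8, (S.g j.castSucc * S.g 8) p.1 q.1 * ((sp E (c j) p.2 q.2 : ℝ) : ℂ)) := by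
  obtain ⟨-, -, -, -, hsym, -⟩ := hSp dm E hE
  ext p q
  simp only [Matrix.transpose_apply, Matrix.of_apply, Matrix.neg_apply]
  rw [← Finset.sum_neg_distrib]
  refine Finset.sum_congr rfl fun j _ => ?_
  have h1 : (S.g j.castSucc * S.g 8) q.1 p.1 = -(S.g j.castSucc * S.g 8) p.1 q.1 := by
    have ha := S.g_anti j.castSucc 8
    have hne : (j.castSucc : Fin 9) ≠ 8 := by
      intro h
      have := congrArg Fin.val h
      have hj := j.isLt
      simp at this
      omega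
    rw [if_neg hne] at ha
    have ht : (S.g j.castSucc * S.g 8)ᵀ = S.g 8 * S.g j.castSucc := by
      rw [Matrix.transpose_mul, S.g_symm, S.g_symm]
    have h2 : (S.g j.castSucc * S.g 8) q.1 p.1 = (S.g 8 * S.g j.castSucc) p.1 q.1 := by
      rw [← ht, Matrix.transpose_apply]
    rw [h2, ← Matrix.neg_apply, eq_neg_of_add_eq_zero_right ha]
  have h2 : sp E (c j) q.2 p.2 = sp E (c j) p.2 q.2 := by
    conv_lhs => rw [← hsym, Matrix.transpose_apply]
  rw [h1, h2, neg_mul]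

/-- the pairing of the derivative of `bb` with `JJ` vanishes -/
private lemma xpar_zero (S : Setup d F) (hSp : SpStmt) (Kc E : Matrix (Fin dm) (Fin dm) ℝ) (hE : E * Eᵀ = 1)
    (hK : Kcᵀ = -Kc) (c : Fin 8 → Fin dm → ℝ) (n : Fin 9 → Fin dm → ℝ) :
    ∑ p : Fin 16 × Fin dm, ∑ q : Fin 16 × Fin dm,
      (∑ j : Fin 8, (S.g j.castSucc * S.g 8) p.1 q.1 * ((sp E (c j) p.2 q.2 : ℝ) : ℂ)) *
      (∑ i : Fin 9, S.g i p.1 q.1 * (((sp E (n i) * Kc) p.2 q.2 : ℝ) : ℂ)) = 0 := by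
  obtain ⟨hmul, -, -, -, hsym, -⟩ := hSp dm E hE
  have key : ∀ (j : Fin 8) (i : Fin 9),
      ∑ x : Fin dm, ∑ y : Fin dm, sp E (c j) x y * (sp E (n i) * Kc) x y = 0 := by
    intro j i
    refine xpar_pair _ _ _ (hsym _) ?_ hK
    rw [hmul, hsym]
  have h1 : ∀ p q : Fin 16 × Fin dm,
      (∑ j : Fin 8, (S.g j.castSucc * S.g 8) p.1 q.1 * ((sp E (c j) p.2 q.2 : ℝ) : ℂ)) *
      (∑ i : Fin 9, S.g i p.1 q.1 * (((sp E (n i) * Kc) p.2 q.2 : ℝ) : ℂ)) =
      ∑ j : Fin 8, ∑ i : Fin 9, ((S.g j.castSucc * S.g 8) p.1 q.1 * S.g i p.1 q.1) *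
        (((sp E (c j) p.2 q.2 * (sp E (n i) * Kc) p.2 q.2 : ℝ)) : ℂ) := by
    intro p q
    rw [Finset.sum_mul_sum]
    refine Finset.sum_congr rfl fun j _ => Finset.sum_congr rfl fun i _ => ?_
    push_cast
    ring
  simp_rw [h1]
  have h2 : ∀ (j : Fin 8) (i : Fin 9), ∑ p : Fin 16 × Fin dm, ∑ q : Fin 16 × Fin dm,
      ((S.g j.castSucc * S.g 8) p.1 q.1 * S.g i p.1 q.1) *
        (((sp E (c j) p.2 q.2 * (sp E (n i) * Kc) p.2 q.2 : ℝ)) : ℂ) = 0 := by
    intro j i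
    simp only [Fintype.sum_prod_type]
    refine Finset.sum_eq_zero fun α _ => ?_
    rw [Finset.sum_comm]
    refine Finset.sum_eq_zero fun β _ => ?_
    simp_rw [← Finset.mul_sum]
    have := key j i
    have h3 : (∑ x : Fin dm, ∑ y : Fin dm,
        (((sp E (c j) x y * (sp E (n i) * Kc) x y : ℝ)) : ℂ)) = 0 := by
      exact_mod_cast congrArg (fun r : ℝ => (r : ℂ)) this
    rw [h3, mul_zero]
  calc _ = ∑ j : Fin 8, ∑ i : Fin 9, ∑ p : Fin 16 × Fin dm, ∑ q : Fin 16 × Fin dm,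
      ((S.g j.castSucc * S.g 8) p.1 q.1 * S.g i p.1 q.1) *
        (((sp E (c j) p.2 q.2 * (sp E (n i) * Kc) p.2 q.2 : ℝ)) : ℂ) := by
        rw [Finset.sum_congr rfl fun p _ => Finset.sum_comm]
        rw [Finset.sum_comm]
        refine Finset.sum_congr rfl fun j _ => ?_
        rw [Finset.sum_congr rfl fun p _ => Finset.sum_comm]
        rw [Finset.sum_comm]
    _ = 0 := Finset.sum_eq_zero fun j _ => Finset.sum_eq_zero fun i _ => h2 j i

theorem par (S : Setup d F) (φ : Spl dh dm d) (hSp : SpStmt) (hP : PathStmt S) (hQ : QuStmt S φ)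
    (hT : TrStmt S φ) (hTwo : TwoStmt S φ) (hD : DuhStmt F) (hSm : SmStmt S φ) : ParStmt S φ := by
  intro hfin r M t Kc E l hRD η hη
  obtain ⟨hRA, hJ0, hpath⟩ := hP r dm M t Kc E l hRD
  obtain ⟨hcl, hcoll, hsmA, -, hder, -⟩ := hSm hfin r E l
  have hnz := (hcoll η).1 hη
  obtain ⟨hJ, hJz, hJd⟩ := hpath η hnz
  -- transport
  have htr : ∀ (τ : ℝ) (v : F), v ∈ S.Kr φ (1 - Complex.I • S.J0 Kc) ↔
      NormedSpace.exp (τ • S.Qu φ (S.bb E l η)) v ∈ S.Kr φ (1 - Complex.I • S.JJ Kc E l τ η) := by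
    intro τ v
    have h := hT hfin (S.bb E l η) (hRA η) (fun s => 1 - Complex.I • S.JJ Kc E l s η) ?_ τ v
    · simp only [hJz] at h
      exact h
    · intro τ' p q
      have h1 := ((hJd τ' p q).const_mul Complex.I).const_sub
        ((1 : Matrix (Fin 16 × Fin dm) (Fin 16 × Fin dm) ℂ) p q)
      have h2 : (S.bb E l η * (1 - Complex.I • S.JJ Kc E l τ' η) -
          (1 - Complex.I • S.JJ Kc E l τ' η) * S.bb E l η) =
          -(Complex.I • (S.bb E l η * S.JJ Kc E l τ' η - S.JJ Kc E l τ' η * S.bb E l η)) := by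
        rw [Matrix.mul_sub, Matrix.sub_mul, Matrix.mul_one, Matrix.one_mul, Matrix.mul_smul, Matrix.smul_mul,
          smul_sub]
        abel
      rw [h2]
      simpa [Matrix.sub_apply, Matrix.smul_apply, Matrix.neg_apply, smul_eq_mul] using h1
  refine ⟨fun v => ?_, ?_⟩
  · have h := htr 1 v
    rw [one_smul] at h
    exact h
  · intro v hv w hw ξ
    refine hD hfin r (fun η' => S.Qu φ (S.bb E l η')) (Coll (Finset.univ.image l))ᶜ η ξ hcl.isOpen_compl hη hsmA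
      (fun η' a b => ?_) v w ?_
    · exact (hQ hfin _ (hRA η')).2.1 a b
    · intro τ _ _
      obtain ⟨c, hc⟩ := hder η hη ξ
      rw [hc]
      have hv' := (htr τ v).1 hv
      have hw' := (htr τ w).1 hw
      have h2 := (hTwo _ (hJ τ) _ hv' _ hw').2 _ (xpar_anti S hSp E hRD.orth c)
      rw [h2]
      have h3 := xpar_zero S hSp Kc E hRD.orth hRD.anti c (fun i k => nn τ (zk (l k) η) i)
      have h4 : ∑ p : Fin 16 × Fin dm, ∑ q : Fin 16 × Fin dm,
          (Matrix.of fun p q : Fin 16 × Fin dm =>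
            ∑ j : Fin 8, (S.g j.castSucc * S.g 8) p.1 q.1 * ((sp E (c j) p.2 q.2 : ℝ) : ℂ)) p q *
            S.JJ Kc E l τ η p q = 0 := h3
      rw [h4]
      ring

end Vale.Agent.P353.Z.AX
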