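import Vale.Agent.P353.AN.X.Stmt

/-! # P353, all `N`, block X: `Ω(η)`, the path of complex structures, `F0` as a kernel (X-OmP, X-Path, X-KrF) -/

open MeasureTheory Filter Topology Matrix
open scoped ContDiff

namespace Vale.Agent.P353.Z.AX

variable {d dh dm : ℕ} {F : Type*} [NormedAddCommGroup F] [InnerProductSpace ℂ F]

/-! ## calculus of `sp` -/

private theorem spx_sum {r : ℕ} (E : Matrix (Fin dm) (Fin dm) ℝ) (f : Fin r → Fin dm → ℝ) :
    ∑ a, sp E (f a) = sp E (fun k => ∑ a, f a k) := by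
  have h : (diagonal fun k => ∑ a, f a k : Matrix (Fin dm) (Fin dm) ℝ) = ∑ a, diagonal (f a) := by
    ext p q
    rw [Matrix.sum_apply]
    rcases eq_or_ne p q with h | h
    · subst h
      simp
    · simp [Matrix.diagonal_apply_ne _ h]
  unfold sp
  rw [h, Finset.mul_sum, Finset.sum_mul]

private theorem spx_comm1 {r : ℕ} {M : Fin r → Matrix (Fin dm) (Fin dm) ℝ} {t : Fin r → ℝ}
    {Kc E : Matrix (Fin dm) (Fin dm) ℝ} {l : Fin dm → Fin r → ℝ} (h : RD M t Kc E l) (f : (Fin r → ℝ) → ℝ) :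
    Kc * sp E (fun k => f (l k)) = sp E (fun k => f (l k)) * Kc := h.comm f

/-- `sp f Kc sp g Kc = - sp (f g)` -/
private theorem spx_KK {r : ℕ} {M : Fin r → Matrix (Fin dm) (Fin dm) ℝ} {t : Fin r → ℝ}
    {Kc E : Matrix (Fin dm) (Fin dm) ℝ} {l : Fin dm → Fin r → ℝ} (hSp : SpStmt) (h : RD M t Kc E l)
    (f g : (Fin r → ℝ) → ℝ) :
    (sp E (fun k => f (l k)) * Kc) * (sp E (fun k => g (l k)) * Kc) = -sp E (fun k => f (l k) * g (l k)) := by
  rw [Matrix.mul_assoc, ← Matrix.mul_assoc Kc, h.comm g, Matrix.mul_assoc, h.sq, mul_neg, mul_one, mul_neg,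
    (hSp dm E h.orth).1]

private theorem spx_DM {r : ℕ} {M : Fin r → Matrix (Fin dm) (Fin dm) ℝ} {t : Fin r → ℝ}
    {Kc E : Matrix (Fin dm) (Fin dm) ℝ} {l : Fin dm → Fin r → ℝ} (hSp : SpStmt) (h : RD M t Kc E l) (c : Fin r → ℝ) :
    ∑ a, c a • M a = sp E (fun k => ∑ a, l k a * c a) * Kc := by
  rw [← spx_sum E (fun a k => l k a * c a), Finset.sum_mul]
  refine Finset.sum_congr rfl fun a _ => ?_
  rw [h.M_eq a, ← smul_mul_assoc, (hSp dm E h.orth).2.2.1]
  congr 2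
  funext k
  ring

private theorem spx_anti {r : ℕ} {M : Fin r → Matrix (Fin dm) (Fin dm) ℝ} {t : Fin r → ℝ}
    {Kc E : Matrix (Fin dm) (Fin dm) ℝ} {l : Fin dm → Fin r → ℝ} (hSp : SpStmt) (h : RD M t Kc E l)
    (f : (Fin r → ℝ) → ℝ) :
    (sp E (fun k => f (l k)) * Kc)ᵀ = -(sp E (fun k => f (l k)) * Kc) := by
  rw [transpose_mul, h.anti, (hSp dm E h.orth).2.2.2.2.1, neg_mul, h.comm f]

/-- if `∑ D_i² = - sp (q²)`, `q > 0`, then `κ sp q` is `Ω` -/
private theorem spx_isOm (hSp : SpStmt) {E : Matrix (Fin dm) (Fin dm) ℝ} (hE : E * Eᵀ = 1) {κ : ℝ} (hκ : 0 < κ)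
    {D : Fin 9 → Matrix (Fin dm) (Fin dm) ℝ} {q : Fin dm → ℝ} (hq : ∀ k, 0 < q k)
    (hD : ∑ i, D i * D i = -sp E (fun k => q k * q k)) : IsOm κ D (κ • sp E q) := by
  obtain ⟨h1, h2, h3, h4, h5, h6, h7, h8, h9⟩ := hSp dm E hE
  refine ⟨?_, ?_, ?_, ?_⟩
  · rw [transpose_smul, h5]
  · intro v hv
    rw [h3]
    exact h8 _ (fun k => mul_pos hκ (hq k)) v hv
  · rw [hD, smul_mul_assoc, mul_smul_comm, smul_smul, h1, smul_neg, neg_neg, sq]
  · intro X hX
    rw [hD, mul_neg, neg_mul, neg_inj] at hX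
    rw [mul_smul_comm, smul_mul_assoc]
    congr 1
    refine h9 _ _ X (fun j k hjk => ?_) hX
    have := hq j
    have := hq k
    nlinarith

private theorem spx_nz (z : Fin 9 → ℝ) : nz z * nz z = ∑ i, z i * z i := by
  rw [nz, Real.mul_self_sqrt (Finset.sum_nonneg fun i _ => sq_nonneg _)]
  exact Finset.sum_congr rfl fun i _ => sq (z i)

private theorem spx_sqsum {r : ℕ} {M : Fin r → Matrix (Fin dm) (Fin dm) ℝ} {t : Fin r → ℝ}
    {Kc E : Matrix (Fin dm) (Fin dm) ℝ} {l : Fin dm → Fin r → ℝ} (hSp : SpStmt) (h : RD M t Kc E l) (η : Cfg r) :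
    ∑ i, DM M η i * DM M η i = -sp E (fun k => nz (zk (l k) η) * nz (zk (l k) η)) := by
  have e : ∀ i, DM M η i * DM M η i = -sp E (fun k => zk (l k) η i * zk (l k) η i) := by
    intro i
    have e1 : DM M η i = sp E (fun k => zk (l k) η i) * Kc := by
      rw [DM, spx_DM hSp h (fun a => η (i, a))]
      rfl
    rw [e1]
    exact spx_KK hSp h (fun x => zk x η i) (fun x => zk x η i)
  rw [Finset.sum_congr rfl fun i _ => e i, Finset.sum_neg_distrib, spx_sum]
  congr 2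
  funext k
  rw [spx_nz]

private theorem spx_DT {r : ℕ} {M : Fin r → Matrix (Fin dm) (Fin dm) ℝ} {t : Fin r → ℝ}
    {Kc E : Matrix (Fin dm) (Fin dm) ℝ} {l : Fin dm → Fin r → ℝ} (hSp : SpStmt) (h : RD M t Kc E l) (i : Fin 9) :
    DT M t i = if i = 8 then sp E (fun k => ∑ a, l k a * t a) * Kc else 0 := by
  rw [DT, spx_DM hSp h t]

/-- **X-OmP** -/
theorem omP (hSp : SpStmt) (_hVec : VecStmt) : OmPStmt := by
  intro r dm κ M t Kc E l hκ h
  obtain ⟨h1, h2, h3, h4, h5, h6, h7, h8, h9⟩ := hSp dm E h.orth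
  have hdet : ∀ η : Cfg r, (∑ i, DM M η i * DM M η i).det ≠ 0 ↔ ∀ k, 0 < nz (zk (l k) η) := by
    intro η
    have e : -sp E (fun k => nz (zk (l k) η) * nz (zk (l k) η)) = sp E (fun k => -(nz (zk (l k) η) * nz (zk (l k) η))) := by
      rw [← neg_one_smul ℝ, h3]
      congr 1
      funext k
      ring
    rw [spx_sqsum hSp h η, e, h6, Finset.prod_ne_zero_iff]
    constructor
    · intro h0 k
      have h1 := h0 k (Finset.mem_univ _)
      refine lt_of_le_of_ne (Real.sqrt_nonneg _) fun h2 => h1 ?_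
      rw [← h2]
      simp
    · intro h0 k _
      have := h0 k
      exact neg_ne_zero.2 (mul_pos this this).ne'
  refine ⟨?_, ?_, ?_, ?_, ?_, ?_⟩
  · intro η i
    rw [DM, spx_DM hSp h (fun a => η (i, a))]
    rfl
  · intro η hη
    have h0 := (hdet η).1 hη
    exact ⟨h0, spx_isOm hSp h.orth hκ h0 (spx_sqsum hSp h η)⟩
  · intro η hη
    exact (hdet η).2 hη
  · refine spx_isOm hSp h.orth hκ h.pos ?_
    rw [Finset.sum_eq_single (8 : Fin 9)]
    · rw [spx_DT hSp h, if_pos rfl]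
      exact spx_KK hSp h (fun x => ∑ a, x a * t a) (fun x => ∑ a, x a * t a)
    · intro i _ hi
      rw [spx_DT hSp h, if_neg hi, mul_zero]
    · intro h0
      exact absurd (Finset.mem_univ _) h0
  · intro i
    rw [spx_DT hSp h]
    split_ifs with hi
    · exact spx_anti hSp h (fun x => ∑ a, x a * t a)
    · rw [transpose_zero, neg_zero]
  · intro i j
    rw [spx_DT hSp h, spx_DT hSp h]
    split_ifs <;> simp

/-! ## Kronecker products -/

/-- `x ⊗ X` -/
private noncomputable def krx (x : Matrix (Fin 16) (Fin 16) ℂ) (X : Matrix (Fin dm) (Fin dm) ℝ) :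
    Matrix (Fin 16 × Fin dm) (Fin 16 × Fin dm) ℂ :=
  Matrix.of fun p q => x p.1 q.1 * ((X p.2 q.2 : ℝ) : ℂ)

private theorem krx_mul (x y : Matrix (Fin 16) (Fin 16) ℂ) (X Y : Matrix (Fin dm) (Fin dm) ℝ) :
    krx x X * krx y Y = krx (x * y) (X * Y) := by
  ext p q
  simp only [krx, Matrix.mul_apply, Matrix.of_apply, Fintype.sum_prod_type, Complex.ofReal_sum, Complex.ofReal_mul]
  rw [Finset.sum_mul_sum]
  refine Finset.sum_congr rfl fun i _ => Finset.sum_congr rfl fun j _ => ?_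
  ring

private theorem krx_T (x : Matrix (Fin 16) (Fin 16) ℂ) (X : Matrix (Fin dm) (Fin dm) ℝ) :
    (krx x X)ᵀ = krx xᵀ Xᵀ := by
  ext p q
  simp [krx]

private theorem krx_one : krx (dm := dm) 1 1 = 1 := by
  ext ⟨a, A⟩ ⟨b, B⟩
  simp only [krx, Matrix.of_apply, Matrix.one_apply, Prod.mk.injEq]
  by_cases h1 : a = b <;> by_cases h2 : A = B <;> simp [h1, h2]

private theorem krx_negR (x : Matrix (Fin 16) (Fin 16) ℂ) (X : Matrix (Fin dm) (Fin dm) ℝ) :
    krx x (-X) = -krx x X := by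
  ext p q
  simp [krx]

private theorem krx_negL (x : Matrix (Fin 16) (Fin 16) ℂ) (X : Matrix (Fin dm) (Fin dm) ℝ) :
    krx (-x) X = -krx x X := by
  ext p q
  simp [krx]

private theorem krx_zeroR (x : Matrix (Fin 16) (Fin 16) ℂ) : krx x (0 : Matrix (Fin dm) (Fin dm) ℝ) = 0 := by
  ext p q
  simp [krx]

private theorem krx_zeroL (X : Matrix (Fin dm) (Fin dm) ℝ) : krx 0 X = 0 := by
  ext p q
  simp [krx]

private theorem krx_addL (x y : Matrix (Fin 16) (Fin 16) ℂ) (X : Matrix (Fin dm) (Fin dm) ℝ) :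
    krx (x + y) X = krx x X + krx y X := by
  ext p q
  simp [krx, add_mul]

private theorem krx_subL (x y : Matrix (Fin 16) (Fin 16) ℂ) (X : Matrix (Fin dm) (Fin dm) ℝ) :
    krx (x - y) X = krx x X - krx y X := by
  ext p q
  simp [krx, sub_mul]

private theorem krx_smulR (c : ℝ) (x : Matrix (Fin 16) (Fin 16) ℂ) (X : Matrix (Fin dm) (Fin dm) ℝ) :
    krx x (c • X) = (c : ℂ) • krx x X := by
  ext p q
  simp only [krx, Matrix.of_apply, Matrix.smul_apply, smul_eq_mul, Complex.ofReal_mul]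
  ring

private theorem krx_smulL (c : ℂ) (x : Matrix (Fin 16) (Fin 16) ℂ) (X : Matrix (Fin dm) (Fin dm) ℝ) :
    krx (c • x) X = c • krx x X := by
  ext p q
  simp only [krx, Matrix.of_apply, Matrix.smul_apply, smul_eq_mul]
  ring

private theorem krx_sumR {ι : Type*} (s : Finset ι) (x : Matrix (Fin 16) (Fin 16) ℂ)
    (X : ι → Matrix (Fin dm) (Fin dm) ℝ) : krx x (∑ i ∈ s, X i) = ∑ i ∈ s, krx x (X i) := by
  ext p q
  simp only [krx, Matrix.of_apply, Matrix.sum_apply, Complex.ofReal_sum, Finset.mul_sum]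

private theorem krx_real (x : Matrix (Fin 16) (Fin 16) ℂ) (hx : ∀ a b, (x a b).im = 0)
    (X : Matrix (Fin dm) (Fin dm) ℝ) (p q : Fin 16 × Fin dm) : (krx x X p q).im = 0 := by
  simp [krx, hx]

private theorem krx_realM (x y : Matrix (Fin 16) (Fin 16) ℂ) (hx : ∀ a b, (x a b).im = 0)
    (hy : ∀ a b, (y a b).im = 0) (a b : Fin 16) : ((x * y) a b).im = 0 := by
  rw [Matrix.mul_apply, Complex.im_sum]
  exact Finset.sum_eq_zero fun i _ => by rw [Complex.mul_im, hx, hy]; ring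

private theorem krx_realS {ι : Type*} (s : Finset ι) (X : ι → Matrix (Fin 16 × Fin dm) (Fin 16 × Fin dm) ℂ)
    (h : ∀ i p q, (X i p q).im = 0) (p q : Fin 16 × Fin dm) : ((∑ i ∈ s, X i) p q).im = 0 := by
  rw [Matrix.sum_apply, Complex.im_sum]
  exact Finset.sum_eq_zero fun i _ => h i p q

section
variable (S : Setup d F)

private theorem krx_bb {r : ℕ} (E : Matrix (Fin dm) (Fin dm) ℝ) (l : Fin dm → Fin r → ℝ) (η : Cfg r) :
    S.bb E l η = ∑ j : Fin 8, krx (S.g j.castSucc * S.g 8) (sp E (fun k => be (zk (l k) η) j)) := by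
  ext p q
  simp only [Setup.bb, krx, Matrix.of_apply, Matrix.sum_apply]

private theorem krx_JJ {r : ℕ} (Kc E : Matrix (Fin dm) (Fin dm) ℝ) (l : Fin dm → Fin r → ℝ) (τ : ℝ) (η : Cfg r) :
    S.JJ Kc E l τ η = ∑ i : Fin 9, krx (S.g i) (sp E (fun k => nn τ (zk (l k) η) i) * Kc) := by
  ext p q
  simp only [Setup.JJ, krx, Matrix.of_apply, Matrix.sum_apply]

private theorem krx_J0 (Kc : Matrix (Fin dm) (Fin dm) ℝ) : S.J0 Kc = krx (S.g 8) Kc := rfl

private theorem gx_sq (i : Fin 9) : S.g i * S.g i = 1 := by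
  have h := S.g_anti i i
  rw [if_pos rfl, ← two_mul] at h
  ext a b
  have h2 := congrFun (congrFun h a) b
  have e : ((2 : Matrix (Fin 16) (Fin 16) ℂ) * (S.g i * S.g i)) a b = 2 * (S.g i * S.g i) a b := by
    rw [two_mul, Matrix.add_apply, two_mul]
  have e2 : (2 : Matrix (Fin 16) (Fin 16) ℂ) a b = 2 * (1 : Matrix (Fin 16) (Fin 16) ℂ) a b := by
    rw [← one_add_one_eq_two, Matrix.add_apply, ← one_add_one_eq_two]
    ring
  rw [e, e2] at h2
  exact mul_left_cancel₀ two_ne_zero h2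

private theorem gx_swap {i j : Fin 9} (h : i ≠ j) : S.g i * S.g j = -(S.g j * S.g i) := by
  have := S.g_anti i j
  rw [if_neg h] at this
  exact eq_neg_of_add_eq_zero_left this

private theorem cs8 (j : Fin 8) : j.castSucc ≠ (8 : Fin 9) := by
  intro h
  have := congrArg Fin.val h
  have h2 := j.isLt
  simp at this
  omega

/-! ## the path of complex structures -/

private theorem pathx_bbRA {r : ℕ} {M : Fin r → Matrix (Fin dm) (Fin dm) ℝ} {t : Fin r → ℝ}
    {Kc E : Matrix (Fin dm) (Fin dm) ℝ} {l : Fin dm → Fin r → ℝ} (hSp : SpStmt) (h : RD M t Kc E l) (η : Cfg r) :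
    RA (S.bb E l η) := by
  obtain ⟨h1, h2, h3, h4, h5, h6, h7, h8, h9⟩ := hSp dm E h.orth
  rw [krx_bb]
  refine ⟨krx_realS _ _ fun j => krx_real _ (krx_realM _ _ (S.g_real _) (S.g_real _)) _, ?_⟩
  rw [Matrix.transpose_sum, ← Finset.sum_neg_distrib]
  refine Finset.sum_congr rfl fun j _ => ?_
  rw [krx_T, h5, transpose_mul, S.g_symm, S.g_symm, gx_swap S (cs8 j).symm, krx_negL]

private theorem pathx_J0 {r : ℕ} {M : Fin r → Matrix (Fin dm) (Fin dm) ℝ} {t : Fin r → ℝ}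
    {Kc E : Matrix (Fin dm) (Fin dm) ℝ} {l : Fin dm → Fin r → ℝ} (h : RD M t Kc E l) :
    CStr (S.J0 Kc) := by
  rw [krx_J0]
  refine ⟨⟨krx_real _ (S.g_real _) _, ?_⟩, ?_⟩
  · rw [krx_T, S.g_symm, h.anti, krx_negR]
  · rw [krx_mul, gx_sq, h.sq, krx_negR, krx_one]

private theorem pathx_JJ {r : ℕ} {M : Fin r → Matrix (Fin dm) (Fin dm) ℝ} {t : Fin r → ℝ}
    {Kc E : Matrix (Fin dm) (Fin dm) ℝ} {l : Fin dm → Fin r → ℝ} (hSp : SpStmt) (hVec : VecStmt) (h : RD M t Kc E l)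
    (η : Cfg r) (hη : ∀ k, nz8 (zk (l k) η) ≠ 0) (τ : ℝ) : CStr (S.JJ Kc E l τ η) := by
  obtain ⟨h1, h2, h3, h4, h5, h6, h7, h8, h9⟩ := hSp dm E h.orth
  rw [krx_JJ]
  refine ⟨⟨krx_realS _ _ fun j => krx_real _ (S.g_real _) _, ?_⟩, ?_⟩
  · rw [Matrix.transpose_sum, ← Finset.sum_neg_distrib]
    refine Finset.sum_congr rfl fun i _ => ?_
    rw [krx_T, S.g_symm, spx_anti hSp h (fun x => nn τ (zk x η) i), krx_negR]
  · have e : ∀ i j, krx (S.g i) (sp E (fun k => nn τ (zk (l k) η) i) * Kc) *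
        krx (S.g j) (sp E (fun k => nn τ (zk (l k) η) j) * Kc) =
        -krx (S.g i * S.g j) (sp E (fun k => nn τ (zk (l k) η) i * nn τ (zk (l k) η) j)) := by
      intro i j
      rw [krx_mul, spx_KK hSp h (fun x => nn τ (zk x η) i) (fun x => nn τ (zk x η) j), krx_negR]
    have e2 : (∑ i, krx (S.g i) (sp E (fun k => nn τ (zk (l k) η) i) * Kc)) *
        (∑ j, krx (S.g j) (sp E (fun k => nn τ (zk (l k) η) j) * Kc)) =
        -∑ i, ∑ j, krx (S.g i * S.g j) (sp E (fun k => nn τ (zk (l k) η) i * nn τ (zk (l k) η) j)) := by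
      rw [Finset.sum_mul_sum, ← Finset.sum_neg_distrib]
      refine Finset.sum_congr rfl fun i _ => ?_
      rw [← Finset.sum_neg_distrib]
      exact Finset.sum_congr rfl fun j _ => e i j
    rw [e2]
    set X := ∑ i, ∑ j, krx (S.g i * S.g j) (sp E (fun k => nn τ (zk (l k) η) i * nn τ (zk (l k) η) j)) with hX
    have e3 : X + X = 1 + 1 := by
      have e4 : X = ∑ i, ∑ j, krx (S.g j * S.g i) (sp E (fun k => nn τ (zk (l k) η) i * nn τ (zk (l k) η) j)) := by
        rw [hX, Finset.sum_comm]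
        refine Finset.sum_congr rfl fun i _ => Finset.sum_congr rfl fun j _ => ?_
        congr 2
        funext k
        ring
      nth_rewrite 2 [e4]
      rw [hX, ← Finset.sum_add_distrib]
      have e5 : ∀ i, (∑ j, krx (S.g i * S.g j) (sp E (fun k => nn τ (zk (l k) η) i * nn τ (zk (l k) η) j)) +
          ∑ j, krx (S.g j * S.g i) (sp E (fun k => nn τ (zk (l k) η) i * nn τ (zk (l k) η) j))) =
          krx 1 (sp E (fun k => nn τ (zk (l k) η) i ^ 2)) + krx 1 (sp E (fun k => nn τ (zk (l k) η) i ^ 2)) := by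
        intro i
        rw [← Finset.sum_add_distrib, Finset.sum_eq_single i]
        · rw [gx_sq]
          simp only [sq]
        · intro j _ hj
          rw [gx_swap S hj, krx_negL, add_neg_cancel]
        · intro h0
          exact absurd (Finset.mem_univ _) h0
      rw [Finset.sum_congr rfl fun i _ => e5 i, Finset.sum_add_distrib, ← krx_sumR, spx_sum]
      have e6 : (fun k => ∑ a, nn τ (zk (l k) η) a ^ 2) = fun _ => (1 : ℝ) := by
        funext k
        exact (hVec _ (hη k)).2.2.1 τ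
      rw [e6, h4, krx_one]
    have e7 : X = 1 := by
      ext p q
      have := congrFun (congrFun e3 p) q
      simp only [Matrix.add_apply] at this
      linear_combination this / 2
    rw [e7]

private theorem pathx_zero {r : ℕ} {M : Fin r → Matrix (Fin dm) (Fin dm) ℝ} {t : Fin r → ℝ}
    {Kc E : Matrix (Fin dm) (Fin dm) ℝ} {l : Fin dm → Fin r → ℝ} (hSp : SpStmt) (hVec : VecStmt) (h : RD M t Kc E l)
    (η : Cfg r) (hη : ∀ k, nz8 (zk (l k) η) ≠ 0) : S.JJ Kc E l 0 η = S.J0 Kc := by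
  obtain ⟨h1, h2, h3, h4, h5, h6, h7, h8, h9⟩ := hSp dm E h.orth
  have hz : sp E (fun _ => (0 : ℝ)) = 0 := by
    have := h3 0 (fun _ => (0 : ℝ))
    rw [zero_smul] at this
    rw [this]
    congr 1
    funext k
    ring
  rw [krx_JJ, krx_J0, Fin.sum_univ_castSucc, Finset.sum_eq_zero, zero_add]
  · have e : (fun k => nn 0 (zk (l k) η) (Fin.last 8)) = fun _ => (1 : ℝ) := by
      funext k
      exact (hVec _ (hη k)).2.2.2.1.1
    rw [e, h4, one_mul]
    rfl
  · intro j _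
    have e : (fun k => nn 0 (zk (l k) η) j.castSucc) = fun _ => (0 : ℝ) := by
      funext k
      exact (hVec _ (hη k)).2.2.2.1.2 j
    rw [e, hz, zero_mul, krx_zeroR]

private theorem pathx_der (E Kc : Matrix (Fin dm) (Fin dm) ℝ) (x : Matrix (Fin 16) (Fin 16) ℂ)
    (f : ℝ → Fin dm → ℝ) (f' : Fin dm → ℝ) (τ : ℝ) (hf : ∀ k, HasDerivAt (fun s => f s k) (f' k) τ)
    (p q : Fin 16 × Fin dm) :
    HasDerivAt (fun s => krx x (sp E (f s) * Kc) p q) (krx x (sp E f' * Kc) p q) τ := by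
  have e : ∀ g : Fin dm → ℝ, (sp E g * Kc) p.2 q.2 = ∑ k, g k * (E k p.2 * (E * Kc) k q.2) := by
    intro g
    rw [sp, Matrix.mul_assoc, Matrix.mul_assoc, Matrix.mul_apply]
    refine Finset.sum_congr rfl fun k _ => ?_
    rw [Matrix.diagonal_mul, transpose_apply]
    ring
  have h1 : HasDerivAt (fun s => (sp E (f s) * Kc) p.2 q.2) ((sp E f' * Kc) p.2 q.2) τ := by
    rw [e f']
    refine HasDerivAt.congr_of_eventuallyEq ?_ (Filter.Eventually.of_forall fun s => e (f s))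
    exact HasDerivAt.fun_sum fun k _ => (hf k).mul_const _
  exact (h1.ofReal_comp).const_mul _

private theorem pathx_comm {r : ℕ} {M : Fin r → Matrix (Fin dm) (Fin dm) ℝ} {t : Fin r → ℝ}
    {Kc E : Matrix (Fin dm) (Fin dm) ℝ} {l : Fin dm → Fin r → ℝ} (hSp : SpStmt) (h : RD M t Kc E l)
    (η : Cfg r) (τ : ℝ) :
    S.bb E l η * S.JJ Kc E l τ η - S.JJ Kc E l τ η * S.bb E l η =
      ∑ j : Fin 8, krx (S.g j.castSucc) (sp E (fun k => 2 * be (zk (l k) η) j * nn τ (zk (l k) η) 8) * Kc) +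
      krx (S.g 8) (sp E (fun k => -2 * ∑ j : Fin 8, be (zk (l k) η) j * nn τ (zk (l k) η) j.castSucc) * Kc) := by
  obtain ⟨h1, h2, h3, h4, h5, h6, h7, h8, h9⟩ := hSp dm E h.orth
  have e : ∀ (j : Fin 8) (i : Fin 9), krx (S.g j.castSucc * S.g 8) (sp E (fun k => be (zk (l k) η) j)) *
      krx (S.g i) (sp E (fun k => nn τ (zk (l k) η) i) * Kc) -
      krx (S.g i) (sp E (fun k => nn τ (zk (l k) η) i) * Kc) *
        krx (S.g j.castSucc * S.g 8) (sp E (fun k => be (zk (l k) η) j)) =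
      krx (S.g j.castSucc * S.g 8 * S.g i - S.g i * (S.g j.castSucc * S.g 8))
        (sp E (fun k => be (zk (l k) η) j * nn τ (zk (l k) η) i) * Kc) := by
    intro j i
    have c1 : sp E (fun k => be (zk (l k) η) j) * (sp E (fun k => nn τ (zk (l k) η) i) * Kc) =
        sp E (fun k => be (zk (l k) η) j * nn τ (zk (l k) η) i) * Kc := by
      rw [← Matrix.mul_assoc, h1]
    have c2 : sp E (fun k => nn τ (zk (l k) η) i) * Kc * sp E (fun k => be (zk (l k) η) j) =
        sp E (fun k => be (zk (l k) η) j * nn τ (zk (l k) η) i) * Kc := by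
      rw [Matrix.mul_assoc, h.comm (fun x => be (zk x η) j), ← Matrix.mul_assoc, h1]
      congr 2
      funext k
      ring
    rw [krx_mul, krx_mul, krx_subL, c1, c2]
  rw [krx_bb, krx_JJ, Finset.sum_mul_sum, Finset.sum_mul_sum, Finset.sum_comm (s := (Finset.univ : Finset (Fin 9))),
    ← Finset.sum_sub_distrib]
  simp_rw [← Finset.sum_sub_distrib, e]
  simp_rw [Fin.sum_univ_castSucc (n := 8)]
  rw [Finset.sum_add_distrib, add_comm]
  congr 1
  · refine Finset.sum_congr rfl fun j _ => ?_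
    have g1 : S.g j.castSucc * S.g 8 * S.g (Fin.last 8) - S.g (Fin.last 8) * (S.g j.castSucc * S.g 8) =
        (2 : ℂ) • S.g j.castSucc := by
      have : (Fin.last 8 : Fin 9) = 8 := rfl
      rw [this, Matrix.mul_assoc, gx_sq, mul_one, ← Matrix.mul_assoc, gx_swap S (cs8 j).symm, neg_mul,
        Matrix.mul_assoc, gx_sq, mul_one, two_smul, sub_neg_eq_add]
    rw [g1, krx_smulL]
    have g2 : (fun k => 2 * be (zk (l k) η) j * nn τ (zk (l k) η) 8) =
        fun k => 2 * (be (zk (l k) η) j * nn τ (zk (l k) η) 8) := by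
      funext k
      ring
    rw [g2, ← h3, smul_mul_assoc, krx_smulR]
    norm_cast
  · have g3 : ∀ j i : Fin 8, krx (S.g j.castSucc * S.g 8 * S.g i.castSucc - S.g i.castSucc * (S.g j.castSucc * S.g 8))
        (sp E (fun k => be (zk (l k) η) j * nn τ (zk (l k) η) i.castSucc) * Kc) =
        if i = j then (-2 : ℂ) • krx (S.g 8) (sp E (fun k => be (zk (l k) η) j * nn τ (zk (l k) η) j.castSucc) * Kc)
          else 0 := by
      intro j i
      have g4 : S.g j.castSucc * S.g 8 * S.g i.castSucc - S.g i.castSucc * (S.g j.castSucc * S.g 8) =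
          -((S.g j.castSucc * S.g i.castSucc + S.g i.castSucc * S.g j.castSucc) * S.g 8) := by
        rw [Matrix.mul_assoc, gx_swap S (cs8 i).symm, mul_neg, ← Matrix.mul_assoc, ← Matrix.mul_assoc, add_mul]
        abel
      rw [g4]
      split_ifs with hij
      · subst hij
        rw [gx_sq, ← krx_smulL]
        congr 1
        rw [add_mul, one_mul, neg_smul, two_smul]
      · rw [gx_swap S (fun h0 => hij ((Fin.castSucc_injective 8 h0).symm)), neg_add_cancel, zero_mul, neg_zero,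
          krx_zeroL]
    simp_rw [g3]
    simp only [Finset.sum_ite_eq', Finset.mem_univ, if_true]
    rw [← Finset.smul_sum, ← krx_sumR, ← Finset.sum_mul, spx_sum, ← h3, smul_mul_assoc, krx_smulR]
    norm_cast

/-- **X-Path** -/
theorem path (hSp : SpStmt) (hVec : VecStmt) : PathStmt S := by
  intro r dm M t Kc E l h
  refine ⟨fun η => pathx_bbRA S hSp h η, pathx_J0 S h, fun η hη => ⟨fun τ => pathx_JJ S hSp hVec h η hη τ,
    pathx_zero S hSp hVec h η hη, fun τ p q => ?_⟩⟩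
  rw [pathx_comm S hSp h η τ]
  have e : ∀ s, S.JJ Kc E l s η p q =
      ∑ j : Fin 8, krx (S.g j.castSucc) (sp E (fun k => nn s (zk (l k) η) j.castSucc) * Kc) p q +
        krx (S.g 8) (sp E (fun k => nn s (zk (l k) η) 8) * Kc) p q := by
    intro s
    rw [krx_JJ, Fin.sum_univ_castSucc, Matrix.add_apply, Matrix.sum_apply]
    rfl
  refine HasDerivAt.congr_of_eventuallyEq ?_ (Filter.Eventually.of_forall e)
  rw [Matrix.add_apply, Matrix.sum_apply]
  refine HasDerivAt.add (HasDerivAt.fun_sum fun j _ => ?_) ?_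
  · exact pathx_der E Kc _ (fun s k => nn s (zk (l k) η) j.castSucc) _ τ
      (fun k => (hVec _ (hη k)).2.2.2.2.2.1 τ j) p q
  · exact pathx_der E Kc _ (fun s k => nn s (zk (l k) η) 8) _ τ
      (fun k => (hVec _ (hη k)).2.2.2.2.1 τ) p q

/-! ## `F0` as a kernel -/

variable (φ : Spl dh dm d)

private theorem krfx_F0 (D : Fin 9 → Matrix (Fin dm) (Fin dm) ℝ) (Om : Matrix (Fin dm) (Fin dm) ℝ) :
    S.F0 φ D Om = S.Kr φ (S.Lam D Om) := by
  ext v
  change (∀ p, S.Lth φ D Om p v = 0) ↔ (∀ p, ∑ q, S.Lam D Om p q • S.tm φ q v = 0)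
  simp only [Setup.Lth, Setup.tm, _root_.sum_apply, _root_.smul_apply]

private theorem krfx_le (A B : Matrix (Fin 16 × Fin dm) (Fin 16 × Fin dm) ℂ) : S.Kr φ A ≤ S.Kr φ (B * A) := by
  intro v hv p
  have hv' : ∀ p, ∑ q, A p q • S.tm φ q v = 0 := hv
  have e : ∑ q, (B * A) p q • S.tm φ q v = ∑ s, B p s • ∑ q, A s q • S.tm φ q v := by
    simp only [Matrix.mul_apply, Finset.sum_smul, Finset.smul_sum, smul_smul]
    rw [Finset.sum_comm]
  rw [e]
  exact Finset.sum_eq_zero fun s _ => by rw [hv', smul_zero]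

private theorem krfx_eq (A B C : Matrix (Fin 16 × Fin dm) (Fin 16 × Fin dm) ℂ) (h : C * B = 1) :
    S.Kr φ (B * A) = S.Kr φ A := by
  refine le_antisymm ?_ (krfx_le S φ A B)
  have := krfx_le S φ (B * A) C
  rwa [← Matrix.mul_assoc, h, Matrix.one_mul] at this

/-- `Λ = ½ (1 ⊗ Ω)(1 - i J)` if `(1 ⊗ Ω) J = P` -/
private theorem krfx_main (hSp : SpStmt) {E : Matrix (Fin dm) (Fin dm) ℝ} (hE : E * Eᵀ = 1)
    (D : Fin 9 → Matrix (Fin dm) (Fin dm) ℝ) {q : Fin dm → ℝ} (hq : ∀ k, 0 < q k)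
    (J : Matrix (Fin 16 × Fin dm) (Fin 16 × Fin dm) ℂ)
    (hJ : krx 1 (sp E q) * J = ∑ i, krx (S.g i) (D i)) :
    S.Kr φ (1 - Complex.I • J) = S.F0 φ D (S.κ • sp E q) := by
  obtain ⟨h1, h2, h3, h4, h5, h6, h7, h8, h9⟩ := hSp dm E hE
  have hκ := S.κ_pos
  have hP : S.PP D = (S.κ : ℂ) • ∑ i, krx (S.g i) (D i) := by
    ext p q
    simp only [Setup.PP, krx, Matrix.of_apply, Matrix.smul_apply, Matrix.sum_apply, smul_eq_mul]
  have hL : S.Lam D (S.κ • sp E q) =
      (((1 / 2 : ℂ) * (S.κ : ℂ)) • krx 1 (sp E q)) * (1 - Complex.I • J) := by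
    have e0 : S.Lam D (S.κ • sp E q) = (1 / 2 : ℂ) • (krx 1 (S.κ • sp E q) - Complex.I • S.PP D) := by
      ext p q
      simp only [Setup.Lam, krx, Matrix.of_apply, Matrix.smul_apply, Matrix.sub_apply, smul_eq_mul,
        Matrix.one_apply]
      split_ifs <;> simp
    rw [e0, hP, ← hJ, krx_smulR, mul_sub, mul_one, mul_smul_comm, smul_mul_assoc, smul_sub, smul_smul, smul_smul,
      smul_smul, smul_smul]
    congr 2
    ring
  rw [krfx_F0, hL]
  refine (krfx_eq S φ _ _ ((((1 / 2 : ℂ) * (S.κ : ℂ))⁻¹) • krx 1 (sp E (fun k => (q k)⁻¹))) ?_).symm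
  have hc : ((1 / 2 : ℂ) * (S.κ : ℂ)) ≠ 0 :=
    mul_ne_zero (by norm_num) (Complex.ofReal_ne_zero.2 hκ.ne')
  rw [smul_mul_assoc, mul_smul_comm, smul_smul, inv_mul_cancel₀ hc, one_smul, krx_mul, h1, one_mul]
  have : (fun k => (q k)⁻¹ * q k) = fun _ => (1 : ℝ) := by
    funext k
    exact inv_mul_cancel₀ (hq k).ne'
  rw [this, h4, krx_one]

/-- **X-KrF** -/
theorem krF (hSp : SpStmt) (hVec : VecStmt) : KrFStmt S φ := by
  intro r M t Kc E l h
  obtain ⟨h1, h2, h3, h4, h5, h6, h7, h8, h9⟩ := hSp dm E h.orth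
  refine ⟨?_, fun η hη => ?_⟩
  · refine krfx_main S φ hSp h.orth (DT M t) h.pos _ ?_
    rw [krx_J0, krx_mul, one_mul, Finset.sum_eq_single (8 : Fin 9)]
    · rw [spx_DT hSp h, if_pos rfl]
    · intro i _ hi
      rw [spx_DT hSp h, if_neg hi, krx_zeroR]
    · intro h0
      exact absurd (Finset.mem_univ _) h0
  · refine krfx_main S φ hSp h.orth (DM M η) (fun k => (hVec _ (hη k)).1) _ ?_
    rw [krx_JJ, Finset.mul_sum]
    refine Finset.sum_congr rfl fun i _ => ?_
    rw [krx_mul, one_mul, ← Matrix.mul_assoc, h1, DM, spx_DM hSp h (fun a => η (i, a))]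
    congr 3
    funext k
    have e := (hVec _ (hη k)).2.1 i
    have e0 := (hVec _ (hη k)).1
    rw [e, mul_div_cancel₀ _ e0.ne']
    rfl

end

end Vale.Agent.P353.Z.AX
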