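import Vale.Agent.P353.AN.X.StmtB

/-! # P353, all `N`, block X: the quadratic form `qf` in the joint eigenbasis -/

open MeasureTheory Filter Topology Matrix
open scoped ContDiff

namespace Vale.Agent.P353.Z.AX

section QfPf

variable {dm r : ℕ}

private theorem qfx_wt_last (w : Wsp dm) : wt w (Fin.last 8) = 0 := by
  funext B
  unfold wt
  rw [Fin.lastCases_last]
  rfl

private theorem qfx_wt_cast (w : Wsp dm) (j : Fin 8) : wt w j.castSucc = fun B => w (j, B) := by
  funext B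
  unfold wt
  rw [Fin.lastCases_castSucc]

/-- `sp` acts diagonally after the change of coordinates by `E` -/
private theorem qfx_E_sp {E : Matrix (Fin dm) (Fin dm) ℝ} (hE : E * Eᵀ = 1) (f : Fin dm → ℝ)
    (v : Fin dm → ℝ) (k : Fin dm) : (E *ᵥ (sp E f *ᵥ v)) k = f k * (E *ᵥ v) k := by
  unfold sp
  rw [Matrix.mulVec_mulVec, ← mul_assoc, ← mul_assoc, hE, one_mul, ← Matrix.mulVec_mulVec,
    Matrix.mulVec_diagonal]

private theorem qfx_sp_sum {ι : Type*} (s : Finset ι) (E : Matrix (Fin dm) (Fin dm) ℝ)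
    (f : ι → Fin dm → ℝ) : ∑ a ∈ s, sp E (f a) = sp E (fun k => ∑ a ∈ s, f a k) := by
  unfold sp
  rw [← Finset.sum_mul, ← Finset.mul_sum]
  congr 2
  ext i j
  rw [Matrix.sum_apply, Matrix.diagonal_apply]
  by_cases hij : i = j
  · subst hij
    simp
  · simp [hij]

private theorem qfx_DM {M : Fin r → Matrix (Fin dm) (Fin dm) ℝ} {t : Fin r → ℝ}
    {Kc E : Matrix (Fin dm) (Fin dm) ℝ} {l : Fin dm → Fin r → ℝ} (hSp : SpStmt)
    (h : RD M t Kc E l) (η : Cfg r) (i : Fin 9) :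
    DM M η i = sp E (fun k => zk (l k) η i) * Kc := by
  obtain ⟨-, -, hs, -⟩ := hSp dm E h.orth
  unfold DM
  have h1 : ∀ a, η (i, a) • M a = sp E (fun k => l k a * η (i, a)) * Kc := by
    intro a
    rw [h.M_eq a, ← Matrix.smul_mul, hs]
    congr 2
    funext k
    ring
  simp only [h1]
  rw [← Finset.sum_mul, qfx_sp_sum]
  rfl

/-- the pointwise computation: one root -/
private theorem qfx_alg (z u : Fin 9 → ℝ) (h8 : z 8 ≠ 0) :
    ∑ i, (u i - z i / z 8 * (z 8 ^ 2 / (∑ i, z i ^ 2) * ∑ j, z j / z 8 * u j)) ^ 2 =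
      (∑ i, u i ^ 2) - (∑ i, z i * u i) ^ 2 / (∑ i, z i ^ 2) := by
  set N := ∑ i, z i ^ 2 with hN
  set s := ∑ i, z i * u i with hs
  have hNpos : 0 < N := by
    have h1 : z 8 ^ 2 ≤ N := Finset.single_le_sum (f := fun i => z i ^ 2)
      (fun i _ => sq_nonneg _) (Finset.mem_univ 8)
    have h2 : 0 < z 8 ^ 2 := by positivity
    linarith
  have h1 : ∑ j, z j / z 8 * u j = s / z 8 := by
    rw [hs, Finset.sum_div]
    refine Finset.sum_congr rfl fun i _ => ?_
    ring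
  rw [h1]
  have h2 : ∀ i, (u i - z i / z 8 * (z 8 ^ 2 / N * (s / z 8))) ^ 2 =
      u i ^ 2 - 2 * (s / N) * (z i * u i) + (s / N) ^ 2 * z i ^ 2 := by
    intro i
    have h3 : z i / z 8 * (z 8 ^ 2 / N * (s / z 8)) = z i * (s / N) := by
      field_simp
    rw [h3]
    ring
  simp only [h2]
  rw [Finset.sum_add_distrib, Finset.sum_sub_distrib, ← Finset.mul_sum, ← Finset.mul_sum,
    ← hN, ← hs]
  field_simp
  ring

end QfPf

theorem qfR (hSp : SpStmt) : QfStmt := by
  intro r dm κ M t Kc E l hκ h η hdet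
  obtain ⟨hmul, hadd, hsmul, hone, htr, hdt, hquad, -, -⟩ := hSp dm E h.orth
  have hD : ∀ i, DM M η i = sp E (fun k => zk (l k) η i) * Kc := qfx_DM hSp h η
  have hKdet : |Kc.det| = 1 := by
    have h1 : Kc.det * Kc.det = (-1) ^ dm := by
      rw [← Matrix.det_mul, h.sq, Matrix.det_neg, Matrix.det_one, Fintype.card_fin, mul_one]
    have h2 : |Kc.det| * |Kc.det| = 1 := by
      rw [← abs_mul, h1, abs_pow, abs_neg, abs_one, one_pow]
    nlinarith [abs_nonneg Kc.det]
  have hdetabs : |(DM M η 8).det| = ∏ k, |zk (l k) η 8| := by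
    rw [hD, Matrix.det_mul, abs_mul, hKdet, mul_one, hdt, Finset.abs_prod]
  have hz8 : ∀ k, zk (l k) η 8 ≠ 0 := by
    intro k hk
    apply hdet
    rw [← abs_eq_zero, hdetabs]
    exact Finset.prod_eq_zero (Finset.mem_univ k) (by rw [hk, abs_zero])
  refine ⟨hz8, hdetabs, ?_, ?_⟩
  · unfold OmE
    rw [hsmul, hdt, Finset.prod_mul_distrib, Finset.prod_const, Finset.card_univ,
      Fintype.card_fin]
  intro w
  -- the matrices `T_i`
  have hT : ∀ i, tI (DM M η) i = sp E (fun k => zk (l k) η i / zk (l k) η 8) := by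
    intro i
    have h1 : DM M η i = DM M η 8 * sp E (fun k => zk (l k) η i / zk (l k) η 8) := by
      rw [hD i, hD 8, mul_assoc]
      have h2 := h.comm (fun u => zk u η i / zk u η 8)
      rw [h2, ← mul_assoc, hmul]
      congr 2
      funext k
      rw [mul_div_cancel₀ _ (hz8 k)]
    unfold tI
    rw [h1, ← mul_assoc, Matrix.nonsing_inv_mul _ (isUnit_iff_ne_zero.2 hdet), one_mul]
  have hNpos : ∀ k, 0 < ∑ i, zk (l k) η i ^ 2 := by
    intro k
    have h1 : zk (l k) η 8 ^ 2 ≤ ∑ i, zk (l k) η i ^ 2 :=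
      Finset.single_le_sum (f := fun i => zk (l k) η i ^ 2)
        (fun i _ => sq_nonneg _) (Finset.mem_univ 8)
    have h2 : 0 < zk (l k) η 8 ^ 2 := by
      have := hz8 k
      positivity
    linarith
  have ht2 : t2 (DM M η) = sp E (fun k => (∑ i, zk (l k) η i ^ 2) / zk (l k) η 8 ^ 2) := by
    unfold t2
    simp only [hT, hmul]
    rw [qfx_sp_sum]
    congr 1
    funext k
    rw [Finset.sum_div]
    refine Finset.sum_congr rfl fun i _ => ?_
    rw [← sq, div_pow]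
  have ht2inv : (t2 (DM M η))⁻¹ = sp E (fun k => zk (l k) η 8 ^ 2 / (∑ i, zk (l k) η i ^ 2)) := by
    apply Matrix.inv_eq_left_inv
    rw [ht2, hmul, ← hone]
    congr 1
    funext k
    have h1 := hz8 k
    have h2 := (hNpos k).ne'
    field_simp
  have hEV : ∀ (i : Fin 9) (k : Fin dm), (E *ᵥ VV (DM M η) w i) k =
      (E *ᵥ wt w i) k - zk (l k) η i / zk (l k) η 8 * (zk (l k) η 8 ^ 2 / (∑ i, zk (l k) η i ^ 2) *
        ∑ j, zk (l k) η j / zk (l k) η 8 * (E *ᵥ wt w j) k) := by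
    intro i k
    unfold VV
    rw [Matrix.mulVec_sub, Pi.sub_apply, hT, qfx_E_sp h.orth]
    unfold sV
    rw [ht2inv, qfx_E_sp h.orth, Matrix.mulVec_sum, Finset.sum_apply]
    congr 3
    refine Finset.sum_congr rfl fun j _ => ?_
    rw [hT, qfx_E_sp h.orth]
  have hnz : ∀ k, nz (zk (l k) η) ^ 2 = ∑ i, zk (l k) η i ^ 2 := by
    intro k
    unfold nz
    rw [Real.sq_sqrt (hNpos k).le]
  unfold qf OmE
  simp only [Matrix.smul_mulVec, dotProduct_smul, smul_eq_mul, hquad]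
  rw [← Finset.mul_sum, Finset.sum_comm]
  congr 1
  refine Finset.sum_congr rfl fun k _ => ?_
  rw [← Finset.mul_sum]
  congr 1
  simp only [hEV]
  rw [qfx_alg (zk (l k) η) (fun i => (E *ᵥ wt w i) k) (hz8 k), hnz k]
  have h0 : (E *ᵥ wt w (Fin.last 8)) k = 0 := by
    rw [qfx_wt_last, Matrix.mulVec_zero, Pi.zero_apply]
  rw [Fin.sum_univ_castSucc (fun i => (E *ᵥ wt w i) k ^ 2),
    Fin.sum_univ_castSucc (fun i => zk (l k) η i * (E *ᵥ wt w i) k), h0]
  simp only [qfx_wt_cast]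
  ring

end Vale.Agent.P353.Z.AX
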