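import Vale.Agent.P353.AN.X.Stmt

/-! # P353, all `N`, block X: `QuStmt` and `TrStmt` -/

open MeasureTheory Filter Topology Matrix
open scoped ContDiff

namespace Vale.Agent.P353.Z.AX

variable {d dh dm : ℕ} {F : Type*} [NormedAddCommGroup F] [InnerProductSpace ℂ F]

lemma qu_anti (S : Setup d F) (φ : Spl dh dm d) (p q : Fin 16 × Fin dm) :
    S.tm φ p * S.tm φ q = (if p = q then 1 else 0) - S.tm φ q * S.tm φ p := by
  have h := S.th_anti p.1 (φ (Sum.inr p.2)) q.1 (φ (Sum.inr q.2))
  have e : (p.1 = q.1 ∧ φ (Sum.inr p.2) = φ (Sum.inr q.2)) ↔ p = q := by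
    rw [EmbeddingLike.apply_eq_iff_eq, Sum.inr.injEq, ← Prod.ext_iff]
  rw [if_congr e rfl rfl] at h
  exact eq_sub_of_add_eq h

/-- `[Qu b, θ_r] = -∑ b_{rq} θ_q` -/
lemma qu_comm (S : Setup d F) (φ : Spl dh dm d) {b : Matrix (Fin 16 × Fin dm) (Fin 16 × Fin dm) ℂ}
    (hb : bᵀ = -b) (r : Fin 16 × Fin dm) :
    S.Qu φ b * S.tm φ r - S.tm φ r * S.Qu φ b = -∑ q, b r q • S.tm φ q := by
  have hb' : ∀ p q, b p q = -b q p := by
    intro p q
    have := congrFun (congrFun hb q) p
    simpa [Matrix.transpose_apply] using this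
  have h1 : ∀ p q, S.tm φ p * S.tm φ q * S.tm φ r - S.tm φ r * (S.tm φ p * S.tm φ q) =
      (if q = r then S.tm φ p else 0) - (if p = r then S.tm φ q else 0) := by
    intro p q
    have e1 := qu_anti S φ q r
    have e2 := qu_anti S φ p r
    calc S.tm φ p * S.tm φ q * S.tm φ r - S.tm φ r * (S.tm φ p * S.tm φ q)
        = S.tm φ p * (S.tm φ q * S.tm φ r) - S.tm φ r * S.tm φ p * S.tm φ q := by
          rw [mul_assoc, ← mul_assoc (S.tm φ r)]
      _ = S.tm φ p * ((if q = r then 1 else 0) - S.tm φ r * S.tm φ q) -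
          S.tm φ r * S.tm φ p * S.tm φ q := by rw [e1]
      _ = S.tm φ p * (if q = r then 1 else 0) - (S.tm φ p * S.tm φ r) * S.tm φ q -
          S.tm φ r * S.tm φ p * S.tm φ q := by rw [mul_sub, ← mul_assoc]
      _ = S.tm φ p * (if q = r then 1 else 0) -
          ((if p = r then 1 else 0) - S.tm φ r * S.tm φ p) * S.tm φ q -
          S.tm φ r * S.tm φ p * S.tm φ q := by rw [e2]
      _ = (if q = r then S.tm φ p else 0) - (if p = r then S.tm φ q else 0) := by
          split_ifs <;> simp [sub_mul]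
          abel
  have h2 : S.Qu φ b * S.tm φ r - S.tm φ r * S.Qu φ b =
      (1 / 2 : ℂ) • ∑ p, ∑ q, b p q •
        (S.tm φ p * S.tm φ q * S.tm φ r - S.tm φ r * (S.tm φ p * S.tm φ q)) := by
    unfold Setup.Qu
    rw [smul_mul_assoc, mul_smul_comm, ← smul_sub, Finset.sum_mul, Finset.mul_sum,
      ← Finset.sum_sub_distrib]
    congr 1
    refine Finset.sum_congr rfl fun p _ => ?_
    rw [Finset.sum_mul, Finset.mul_sum, ← Finset.sum_sub_distrib]
    refine Finset.sum_congr rfl fun q _ => ?_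
    rw [smul_mul_assoc, mul_smul_comm, ← smul_sub]
  rw [h2]
  simp only [h1, smul_sub, smul_ite, smul_zero, Finset.sum_sub_distrib, Finset.sum_ite_eq',
    Finset.mem_univ, if_true]
  have h3 : ∑ x, ∑ x_1, (if x = r then b x x_1 • S.tm φ x_1 else 0) = ∑ q, b r q • S.tm φ q := by
    rw [Finset.sum_comm]
    refine Finset.sum_congr rfl fun q _ => ?_
    rw [Finset.sum_ite_eq' Finset.univ r (fun x => b x q • S.tm φ q)]
    simp
  have h4 : ∑ x, b x r • S.tm φ x = -∑ q, b r q • S.tm φ q := by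
    rw [← Finset.sum_neg_distrib]
    refine Finset.sum_congr rfl fun q _ => ?_
    rw [hb' q r, neg_smul]
  rw [h3, h4, ← smul_sub, ← neg_add', smul_neg, ← two_smul ℂ, smul_smul]
  norm_num

lemma qu_skew (S : Setup d F) (φ : Spl dh dm d) {b : Matrix (Fin 16 × Fin dm) (Fin 16 × Fin dm) ℂ}
    (hb : RA b) (v w : F) : inner ℂ (S.Qu φ b v) w = -inner ℂ v (S.Qu φ b w) := by
  have hb' : ∀ p q, b p q = -b q p := by
    intro p q
    have := congrFun (congrFun hb.anti q) p
    simpa [Matrix.transpose_apply] using this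
  have hc : ∀ p q, (starRingEnd ℂ) (b p q) = b p q := fun p q =>
    Complex.conj_eq_iff_im.2 (hb.real p q)
  have hs : ∀ p (x y : F), inner ℂ (S.tm φ p x) y = inner ℂ x (S.tm φ p y) :=
    fun p x y => S.th_sa _ _ x y
  unfold Setup.Qu
  simp only [_root_.smul_apply, _root_.sum_apply, inner_smul_left, inner_smul_right, sum_inner,
    inner_sum, hc, mul_apply_eq_comp, hs]
  rw [← mul_neg, ← Finset.sum_neg_distrib]
  have h2 : (starRingEnd ℂ) (1 / 2 : ℂ) = 1 / 2 := by
    rw [map_div₀, map_one]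
    congr 1
    exact Complex.conj_ofNat 2
  rw [h2]
  congr 1
  rw [Finset.sum_comm]
  refine Finset.sum_congr rfl fun p _ => ?_
  rw [← Finset.sum_neg_distrib]
  refine Finset.sum_congr rfl fun q _ => ?_
  rw [hb' q p]
  ring


lemma qu_exp_deriv [CompleteSpace F] (Q : F →L[ℂ] F) (v : F) (s : ℝ) :
    HasDerivAt (fun u : ℝ => NormedSpace.exp (u • Q) v) (Q (NormedSpace.exp (s • Q) v)) s := by
  have h := hasDerivAt_exp_smul_const' (𝕂 := ℝ) Q s
  exact ((ContinuousLinearMap.apply ℂ F v).restrictScalars ℝ).hasFDerivAt.comp_hasDerivAt s h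

lemma qu_exp_inner [CompleteSpace F] (Q : F →L[ℂ] F) (hQ : ∀ v w, inner ℂ (Q v) w = -inner ℂ v (Q w))
    (v w : F) (s : ℝ) :
    inner ℂ (NormedSpace.exp (s • Q) v) (NormedSpace.exp (s • Q) w) = inner ℂ v w := by
  have hd : ∀ u : ℝ, HasDerivAt (fun s : ℝ => inner ℂ (NormedSpace.exp (s • Q) v)
      (NormedSpace.exp (s • Q) w)) 0 u := by
    intro u
    refine ((qu_exp_deriv Q v u).inner ℂ (qu_exp_deriv Q w u)).congr_deriv ?_
    rw [hQ]
    ring
  have hc := is_const_of_deriv_eq_zero (fun u => (hd u).differentiableAt) (fun u => (hd u).deriv) s 0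
  simpa using hc

lemma qu_exp_surj [FiniteDimensional ℂ F] [CompleteSpace F] (Q : F →L[ℂ] F)
    (hQ : ∀ v w, inner ℂ (Q v) w = -inner ℂ v (Q w)) (s : ℝ) (v : F) :
    ∃ u, NormedSpace.exp (s • Q) u = v := by
  have hinj : Function.Injective (NormedSpace.exp (s • Q) : F →L[ℂ] F).toLinearMap := by
    rw [injective_iff_map_eq_zero]
    intro x hx
    have h := qu_exp_inner Q hQ x x s
    have hx' : NormedSpace.exp (s • Q) x = 0 := hx
    rw [hx', inner_zero_left] at h
    exact inner_self_eq_zero.1 h.symm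
  exact LinearMap.injective_iff_surjective.1 hinj v

theorem qu (S : Setup d F) (φ : Spl dh dm d) : QuStmt S φ := by
  intro hF b hb
  have : CompleteSpace F := FiniteDimensional.complete ℂ F
  refine ⟨qu_comm S φ hb.anti, qu_skew S φ hb, fun s => ⟨fun v w => qu_exp_inner _ (qu_skew S φ hb) v w s,
    fun v => qu_exp_surj _ (qu_skew S φ hb) s v⟩, ?_⟩
  intro X hX
  have h2 : ∀ p q, S.tm φ p * S.tm φ q * X = X * (S.tm φ p * S.tm φ q) := by
    intro p q
    rcases hX with h | h
    · rw [mul_assoc, ← h q, ← mul_assoc, ← h p, mul_assoc]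
    · have h' : ∀ p, S.tm φ p * X = -(X * S.tm φ p) := fun p => by rw [h p, neg_neg]
      rw [mul_assoc, h' q, mul_neg, ← mul_assoc, h' p, neg_mul, neg_neg, mul_assoc]
  have h1 : S.Qu φ b * X = X * S.Qu φ b := by
    unfold Setup.Qu
    rw [smul_mul_assoc, mul_smul_comm, Finset.sum_mul, Finset.mul_sum]
    congr 1
    refine Finset.sum_congr rfl fun p _ => ?_
    rw [Finset.sum_mul, Finset.mul_sum]
    refine Finset.sum_congr rfl fun q _ => ?_
    rw [smul_mul_assoc, mul_smul_comm, h2]
  refine ⟨h1, fun s => ?_⟩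
  have hc : Commute (s • S.Qu φ b) X := by
    show s • S.Qu φ b * X = X * (s • S.Qu φ b)
    rw [smul_mul_assoc, mul_smul_comm, h1]
  exact hc.exp_left

theorem tr (S : Setup d F) (φ : Spl dh dm d) : TrStmt S φ := by
  intro hF b hb 𝒜 h𝒜 τ v
  have : CompleteSpace F := FiniteDimensional.complete ℂ F
  have hb' : ∀ p q, b p q = -b q p := by
    intro p q
    have := congrFun (congrFun hb.anti q) p
    simpa [Matrix.transpose_apply] using this
  set Q := S.Qu φ b with hQ
  set y : (Fin 16 × Fin dm) → ℝ → F := fun p s => ∑ q, 𝒜 s p q • S.tm φ q (NormedSpace.exp (s • Q) v)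
    with hy
  -- derivative of y
  have hyd : ∀ p s, HasDerivAt (y p) (∑ r, b p r • y r s + Q (y p s)) s := by
    intro p s
    have h1 : ∀ q, HasDerivAt (fun s => 𝒜 s p q • S.tm φ q (NormedSpace.exp (s • Q) v))
        (𝒜 s p q • S.tm φ q (Q (NormedSpace.exp (s • Q) v)) +
          ((b * 𝒜 s - 𝒜 s * b) p q) • S.tm φ q (NormedSpace.exp (s • Q) v)) s := by
      intro q
      have e1 := (qu_exp_deriv Q v s)
      have e2 : HasDerivAt (fun s : ℝ => S.tm φ q (NormedSpace.exp (s • Q) v))
          (S.tm φ q (Q (NormedSpace.exp (s • Q) v))) s :=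
        ((S.tm φ q).restrictScalars ℝ).hasFDerivAt.comp_hasDerivAt s e1
      exact (h𝒜 s p q).smul e2
    have h2 := HasDerivAt.fun_sum (u := Finset.univ) fun q _ => h1 q
    refine h2.congr_deriv ?_
    set x := NormedSpace.exp (s • Q) v with hx
    have hcom : ∀ q, S.tm φ q (Q x) = Q (S.tm φ q x) + ∑ r, b q r • S.tm φ r x := by
      intro q
      have := congrArg (fun T : F →L[ℂ] F => T x) (qu_comm S φ hb.anti q)
      simp only [_root_.sub_apply, mul_apply_eq_comp, _root_.neg_apply, _root_.sum_apply,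
        _root_.smul_apply] at this
      rw [← hQ] at this
      have h3 : S.tm φ q (Q x) = Q (S.tm φ q x) - (Q (S.tm φ q x) - S.tm φ q (Q x)) := by abel
      rw [h3, this]
      abel
    rw [Finset.sum_add_distrib]
    have e3 : ∑ q, 𝒜 s p q • S.tm φ q (Q x) = Q (y p s) + ∑ q, ((𝒜 s * b) p q) • S.tm φ q x := by
      simp only [hcom, smul_add, Finset.sum_add_distrib]
      congr 1
      · rw [hy]
        simp only [map_sum, map_smul]
        rfl
      · simp only [Finset.smul_sum, smul_smul]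
        rw [Finset.sum_comm]
        refine Finset.sum_congr rfl fun q _ => ?_
        rw [Matrix.mul_apply, Finset.sum_smul]
    have e4 : ∑ r, b p r • y r s = ∑ q, ((b * 𝒜 s) p q) • S.tm φ q x := by
      rw [hy]
      simp only [Finset.smul_sum, smul_smul]
      rw [Finset.sum_comm]
      refine Finset.sum_congr rfl fun q _ => ?_
      rw [Matrix.mul_apply, Finset.sum_smul]
    rw [e3, e4]
    have e5 : ∑ q, ((b * 𝒜 s - 𝒜 s * b) p q) • S.tm φ q x =
        ∑ q, ((b * 𝒜 s) p q) • S.tm φ q x - ∑ q, ((𝒜 s * b) p q) • S.tm φ q x := by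
      rw [← Finset.sum_sub_distrib]
      refine Finset.sum_congr rfl fun q _ => ?_
      rw [Matrix.sub_apply, sub_smul]
    rw [e5]
    abel
  -- the sum of the squares is constant
  have hN : ∀ s, ∑ p, ‖y p s‖ ^ 2 = ∑ p, ‖y p 0‖ ^ 2 := by
    have hd : ∀ s, HasDerivAt (fun s => ∑ p, (inner ℂ (y p s) (y p s) : ℂ)) 0 s := by
      intro s
      have h1 := HasDerivAt.fun_sum (u := Finset.univ) fun p _ => (hyd p s).inner ℂ (hyd p s)
      refine h1.congr_deriv ?_
      have h2 : ∀ p, (inner ℂ (y p s) (∑ r, b p r • y r s + Q (y p s)) : ℂ) +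
          inner ℂ (∑ r, b p r • y r s + Q (y p s)) (y p s) =
          ∑ r, b p r * inner ℂ (y p s) (y r s) + ∑ r, b p r * inner ℂ (y r s) (y p s) := by
        intro p
        have hc : ∀ p q, (starRingEnd ℂ) (b p q) = b p q := fun p q =>
          Complex.conj_eq_iff_im.2 (hb.real p q)
        rw [inner_add_left, inner_add_right, qu_skew S φ hb]
        simp only [inner_sum, sum_inner, inner_smul_left, inner_smul_right, hc]
        ring
      simp only [h2, Finset.sum_add_distrib]
      rw [Finset.sum_comm (f := fun p r => b p r * inner ℂ (y r s) (y p s)),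
        ← Finset.sum_add_distrib]
      refine Finset.sum_eq_zero fun p _ => ?_
      rw [← Finset.sum_add_distrib]
      refine Finset.sum_eq_zero fun r _ => ?_
      rw [hb' r p]
      ring
    intro s
    have hc := is_const_of_deriv_eq_zero (fun u => (hd u).differentiableAt)
      (fun u => (hd u).deriv) s 0
    simp only [inner_self_eq_norm_sq_to_K] at hc
    have hc' := congrArg Complex.re hc
    simp only [Complex.re_sum] at hc'
    convert hc' using 1 <;>
    · refine Finset.sum_congr rfl fun p _ => ?_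
      norm_cast
  have hz : ∀ s, (∀ p, y p s = 0) ↔ ∑ p, ‖y p s‖ ^ 2 = 0 := by
    intro s
    rw [Finset.sum_eq_zero_iff_of_nonneg fun p _ => by positivity]
    constructor
    · intro h p _
      rw [h p, norm_zero]
      norm_num
    · intro h p
      have := h p (Finset.mem_univ p)
      rwa [sq_eq_zero_iff, norm_eq_zero] at this
  have k0 : v ∈ S.Kr φ (𝒜 0) ↔ ∀ p, y p 0 = 0 := by
    have : NormedSpace.exp ((0 : ℝ) • Q) v = v := by
      rw [zero_smul, NormedSpace.exp_zero]
      rfl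
    constructor
    · intro h p
      have := h p
      rw [hy]
      simpa [‹NormedSpace.exp ((0 : ℝ) • Q) v = v›] using this
    · intro h p
      have h' := h p
      rw [hy] at h'
      simpa [this] using h'
  have k1 : NormedSpace.exp (τ • Q) v ∈ S.Kr φ (𝒜 τ) ↔ ∀ p, y p τ = 0 := Iff.rfl
  rw [k0, k1, hz, hz, hN τ]

end Vale.Agent.P353.Z.AX
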