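import Vale.Agent.P353.AN.X.Stmt

/-! # P353, all `N`, block X: X-Sm, smoothness off the collisions -/

open MeasureTheory Filter Topology Matrix
open scoped ContDiff

namespace Vale.Agent.P353.Z.AX

variable {d dh dm r : ℕ} {F : Type*} [NormedAddCommGroup F] [InnerProductSpace ℂ F]

namespace SmPf

theorem contDiff_zk (l : Fin r → ℝ) (i : Fin 9) : ContDiff ℝ ∞ (fun η : Cfg r => zk l η i) := by
  unfold zk
  fun_prop

theorem isClosed_coll (L : Finset (Fin r → ℝ)) : IsClosed (Coll L) := by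
  have h : Coll L = ⋃ l ∈ L, ⋂ i : Fin 8, {y : Cfg r | ∑ A, l A * y (i.castSucc, A) = 0} := by
    ext y
    simp [Coll]
  rw [h]
  refine Set.Finite.isClosed_biUnion L.finite_toSet fun l _ => isClosed_iInter fun i => ?_
  refine isClosed_eq ?_ continuous_const
  fun_prop

theorem nz8_ne {z : Fin 9 → ℝ} : nz8 z ≠ 0 ↔ ∃ j : Fin 8, z j.castSucc ≠ 0 := by
  unfold nz8
  rw [Ne, Real.sqrt_eq_zero (Finset.sum_nonneg fun j _ => sq_nonneg _),
    Finset.sum_eq_zero_iff_of_nonneg (fun j _ => sq_nonneg _)]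
  simp

theorem sum_sq_split (z : Fin 9 → ℝ) : ∑ i, z i ^ 2 = (∑ j : Fin 8, z j.castSucc ^ 2) + z 8 ^ 2 := by
  rw [Fin.sum_univ_castSucc]
  rfl

theorem sum8_pos {z : Fin 9 → ℝ} (h : nz8 z ≠ 0) : 0 < ∑ j : Fin 8, z j.castSucc ^ 2 := by
  have h1 : 0 ≤ ∑ j : Fin 8, z j.castSucc ^ 2 := Finset.sum_nonneg fun j _ => sq_nonneg _
  rcases h1.lt_or_eq with h2 | h2
  · exact h2
  · exact absurd (by unfold nz8; rw [← h2, Real.sqrt_zero]) h

theorem sum9_pos {z : Fin 9 → ℝ} (h : nz8 z ≠ 0) : 0 < ∑ i, z i ^ 2 := by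
  rw [sum_sq_split]
  have := sum8_pos h
  positivity

theorem abs_lt_one {z : Fin 9 → ℝ} (h : nz8 z ≠ 0) : |z 8 / nz z| < 1 := by
  have h9 := sum9_pos h
  have h8 := sum8_pos h
  have hn : 0 < nz z := Real.sqrt_pos.2 h9
  rw [abs_div, abs_of_pos hn, div_lt_one hn]
  unfold nz
  rw [← Real.sqrt_sq_eq_abs]
  apply Real.sqrt_lt_sqrt (sq_nonneg _)
  rw [sum_sq_split]
  linarith

theorem contDiffAt_nz (l : Fin r → ℝ) {η : Cfg r} (h : ∑ i, zk l η i ^ 2 ≠ 0) :
    ContDiffAt ℝ ∞ (fun η : Cfg r => nz (zk l η)) η := by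
  unfold nz
  refine ContDiffAt.sqrt ?_ h
  refine ContDiffAt.sum fun i _ => ?_
  exact ((contDiff_zk l i).pow 2).contDiffAt

theorem contDiffAt_nz8 (l : Fin r → ℝ) {η : Cfg r} (h : nz8 (zk l η) ≠ 0) :
    ContDiffAt ℝ ∞ (fun η : Cfg r => nz8 (zk l η)) η := by
  have h' : ∑ j : Fin 8, zk l η j.castSucc ^ 2 ≠ 0 := (sum8_pos h).ne'
  unfold nz8
  refine ContDiffAt.sqrt ?_ h'
  refine ContDiffAt.sum fun i _ => ?_
  exact ((contDiff_zk l i.castSucc).pow 2).contDiffAt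

theorem contDiffAt_be (l : Fin r → ℝ) {η : Cfg r} (h : nz8 (zk l η) ≠ 0) (j : Fin 8) :
    ContDiffAt ℝ ∞ (fun η : Cfg r => be (zk l η) j) η := by
  have h9 := sum9_pos h
  have hn : nz (zk l η) ≠ 0 := (Real.sqrt_pos.2 h9).ne'
  have ha := abs_lt_one h
  rw [abs_lt] at ha
  have h1 : ContDiffAt ℝ ∞ (fun η : Cfg r => zk l η 8 / nz (zk l η)) η :=
    (contDiff_zk l 8).contDiffAt.div (contDiffAt_nz l h9.ne') hn
  have h2 : ContDiffAt ℝ ∞ (fun η : Cfg r => ang (zk l η)) η := by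
    unfold ang
    exact (Real.contDiffAt_arccos (by linarith [ha.1]) (by linarith [ha.2])).comp η h1
  have h3 : ContDiffAt ℝ ∞ (fun η : Cfg r => zk l η j.castSucc / nz8 (zk l η)) η :=
    (contDiff_zk l j.castSucc).contDiffAt.div (contDiffAt_nz8 l h) h
  unfold be
  exact (h2.div_const 2).mul h3

theorem sp_apply (E : Matrix (Fin dm) (Fin dm) ℝ) (f : Fin dm → ℝ) (A B : Fin dm) :
    sp E f A B = ∑ k, E k A * f k * E k B := by
  unfold sp
  rw [Matrix.mul_apply]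
  refine Finset.sum_congr rfl fun k _ => ?_
  rw [Matrix.mul_diagonal, Matrix.transpose_apply]

/-- the linear map `c ↦ Qu(∑ γ^jγ^8 ⊗ sp(c_j))` -/
noncomputable def T (S : Setup d F) (φ : Spl dh dm d) (E : Matrix (Fin dm) (Fin dm) ℝ) :
    (Fin 8 → Fin dm → ℝ) →ₗ[ℝ] (F →L[ℂ] F) where
  toFun c := S.Qu φ (Matrix.of fun p q =>
      ∑ j : Fin 8, (S.g j.castSucc * S.g 8) p.1 q.1 * ((sp E (c j) p.2 q.2 : ℝ) : ℂ))
  map_add' a b := by
    simp only [Setup.Qu, Matrix.of_apply]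
    rw [← smul_add, ← Finset.sum_add_distrib]
    congr 1
    refine Finset.sum_congr rfl fun p _ => ?_
    rw [← Finset.sum_add_distrib]
    refine Finset.sum_congr rfl fun q _ => ?_
    rw [← add_smul, ← Finset.sum_add_distrib]
    congr 1
    refine Finset.sum_congr rfl fun j _ => ?_
    rw [← mul_add, ← Complex.ofReal_add]
    congr 2
    rw [sp_apply, sp_apply, sp_apply, ← Finset.sum_add_distrib]
    refine Finset.sum_congr rfl fun k _ => ?_
    simp only [Pi.add_apply]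
    ring
  map_smul' a b := by
    simp only [Setup.Qu, Matrix.of_apply, RingHom.id_apply]
    rw [smul_comm]
    congr 1
    rw [Finset.smul_sum]
    refine Finset.sum_congr rfl fun p _ => ?_
    rw [Finset.smul_sum]
    refine Finset.sum_congr rfl fun q _ => ?_
    rw [← smul_assoc, Finset.smul_sum]
    congr 1
    refine Finset.sum_congr rfl fun j _ => ?_
    rw [sp_apply, sp_apply]
    have : ∑ k, E k p.2 * (a • b) j k * E k q.2 = a * ∑ k, E k p.2 * b j k * E k q.2 := by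
      rw [Finset.mul_sum]
      refine Finset.sum_congr rfl fun k _ => ?_
      simp only [Pi.smul_apply, smul_eq_mul]
      ring
    rw [this, Complex.ofReal_mul, Complex.real_smul]
    ring

theorem T_bb (S : Setup d F) (φ : Spl dh dm d) (E : Matrix (Fin dm) (Fin dm) ℝ) (l : Fin dm → Fin r → ℝ) (η : Cfg r) :
    S.Qu φ (S.bb E l η) = T S φ E (fun j k => be (zk (l k) η) j) := rfl

/-- `T` as a continuous linear map -/
noncomputable def Tc (S : Setup d F) (φ : Spl dh dm d) (E : Matrix (Fin dm) (Fin dm) ℝ) :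
    (Fin 8 → Fin dm → ℝ) →L[ℝ] (F →L[ℂ] F) := LinearMap.toContinuousLinearMap (T S φ E)

theorem Tc_apply (S : Setup d F) (φ : Spl dh dm d) (E : Matrix (Fin dm) (Fin dm) ℝ) (c : Fin 8 → Fin dm → ℝ) :
    Tc S φ E c = S.Qu φ (Matrix.of fun p q =>
      ∑ j : Fin 8, (S.g j.castSucc * S.g 8) p.1 q.1 * ((sp E (c j) p.2 q.2 : ℝ) : ℂ)) := rfl

theorem contDiffAt_bev (l : Fin dm → Fin r → ℝ) {η : Cfg r} (h : ∀ k, nz8 (zk (l k) η) ≠ 0) :
    ContDiffAt ℝ ∞ (fun η : Cfg r => (fun (j : Fin 8) (k : Fin dm) => be (zk (l k) η) j)) η := by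
  rw [contDiffAt_pi]
  intro j
  rw [contDiffAt_pi]
  intro k
  exact contDiffAt_be (l k) (h k) j

theorem not_mem_coll (l : Fin dm → Fin r → ℝ) (η : Cfg r) :
    η ∉ Coll (Finset.univ.image l) ↔ ∀ k, nz8 (zk (l k) η) ≠ 0 := by
  simp only [nz8_ne]
  simp [Coll, zk]

theorem contDiffAt_qb (S : Setup d F) (φ : Spl dh dm d) (E : Matrix (Fin dm) (Fin dm) ℝ) (l : Fin dm → Fin r → ℝ)
    {η : Cfg r} (h : ∀ k, nz8 (zk (l k) η) ≠ 0) :
    ContDiffAt ℝ ∞ (fun η : Cfg r => S.Qu φ (S.bb E l η)) η :=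
  (Tc S φ E).contDiff.contDiffAt.comp η (contDiffAt_bev l h)

theorem fderiv_qb (S : Setup d F) (φ : Spl dh dm d) (E : Matrix (Fin dm) (Fin dm) ℝ) (l : Fin dm → Fin r → ℝ)
    {η : Cfg r} (h : ∀ k, nz8 (zk (l k) η) ≠ 0) (ξ : Cfg r) :
    fderiv ℝ (fun η : Cfg r => S.Qu φ (S.bb E l η)) η ξ =
      Tc S φ E (fderiv ℝ (fun η : Cfg r => (fun (j : Fin 8) (k : Fin dm) => be (zk (l k) η) j)) η ξ) := by
  have h1 : HasFDerivAt (fun η : Cfg r => (fun (j : Fin 8) (k : Fin dm) => be (zk (l k) η) j))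
      (fderiv ℝ (fun η : Cfg r => (fun (j : Fin 8) (k : Fin dm) => be (zk (l k) η) j)) η) η :=
    ((contDiffAt_bev l h).differentiableAt (by simp)).hasFDerivAt
  have h2 := (Tc S φ E).hasFDerivAt.comp η h1
  have h3 : fderiv ℝ (fun η : Cfg r => S.Qu φ (S.bb E l η)) η =
      (Tc S φ E).comp (fderiv ℝ (fun η : Cfg r => (fun (j : Fin 8) (k : Fin dm) => be (zk (l k) η) j)) η) :=
    h2.fderiv
  rw [h3]
  rfl

end SmPf

open SmPf in
/-- **X-Sm** -/
theorem sm (S : Setup d F) (φ : Spl dh dm d) : SmStmt S φ := by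
  intro hF r E l
  have : CompleteSpace F := FiniteDimensional.complete ℂ F
  refine ⟨isClosed_coll _, not_mem_coll l, ?_, ?_, ?_, ?_⟩
  · intro η hη
    exact (contDiffAt_qb S φ E l ((not_mem_coll l η).1 hη)).contDiffWithinAt
  · intro η hη
    have h1 := contDiffAt_qb S φ E l ((not_mem_coll l η).1 hη)
    have h2 : ContDiffAt ℝ ∞ (fun x : F →L[ℂ] F => NormedSpace.exp x) (S.Qu φ (S.bb E l η)) :=
      (NormedSpace.exp_analytic (𝕂 := ℝ) _).contDiffAt
    exact (h2.comp η h1).contDiffWithinAt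
  · intro η hη ξ
    exact ⟨_, (fderiv_qb S φ E l ((not_mem_coll l η).1 hη) ξ).trans (Tc_apply S φ E _)⟩
  · intro A B η hη
    have h0 : (fun η : Cfg r => OmE S.κ E l η A B) =
        fun η : Cfg r => S.κ * ∑ k, E k A * nz (zk (l k) η) * E k B := by
      funext η
      simp only [OmE, Matrix.smul_apply, smul_eq_mul, sp_apply]
    rw [h0]
    refine ContDiffAt.contDiffWithinAt ?_
    refine contDiffAt_const.mul (ContDiffAt.sum fun k _ => ?_)
    refine (contDiffAt_const.mul (contDiffAt_nz (l k) ?_)).mul contDiffAt_const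
    have hk : 0 < nz (zk (l k) η) := hη k
    exact (Real.sqrt_pos.1 hk).ne'

end Vale.Agent.P353.Z.AX
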