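import Vale.Agent.P353.AN.X.Root
import Vale.Agent.P353.AN.X.VecSp
import Vale.Agent.P353.AN.X.Path
import Vale.Agent.P353.AN.X.Qu
import Vale.Agent.P353.AN.X.TwoCov
import Vale.Agent.P353.AN.X.Duh
import Vale.Agent.P353.AN.X.Par
import Vale.Agent.P353.AN.X.Irr
import Vale.Agent.P353.AN.X.Bun
import Vale.Agent.P353.AN.X.Qf
import Vale.Agent.P353.AN.X.Gauss
import Vale.Agent.P353.AN.X.Sm

/-! # P353, all `N`, block X (vacuum bundle): unconditional output -/

namespace Vale.Agent.P353.Z.AX

variable {d dh dm : ℕ} {F : Type*} [NormedAddCommGroup F] [InnerProductSpace ℂ F]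

theorem omPAll : OmPStmt := omP spS vecS
theorem pathAll (S : Setup d F) : PathStmt S := path S spS vecS
theorem krFAll (S : Setup d F) (φ : Spl dh dm d) : KrFStmt S φ := krF S φ spS vecS
theorem qfAll : QfStmt := qfR spS
theorem gaussAll : GaussStmt := gauss qfAll

theorem parAll (S : Setup d F) (φ : Spl dh dm d) : ParStmt S φ :=
  par S φ spS (pathAll S) (qu S φ) (tr S φ) (two S φ) (duh F) (sm S φ)

/-- **the vacuum bundle** -/
theorem bunAll (S : Setup d F) (φ : Spl dh dm d) : BunStmt S φ :=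
  bun S φ vecS spS omPAll (pathAll S) (krFAll S φ) (qu S φ) (sm S φ) (parAll S φ) (irr S φ)

end Vale.Agent.P353.Z.AX
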