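import Vale.Agent.P353.AN.X.BosB

/-! # P353, all `N`, block X: the normalised boson vacuum (`X-Bos`) -/

open MeasureTheory Filter Topology Matrix
open scoped ContDiff

namespace Vale.Agent.P353.Z.AX

namespace BosP

variable {dm r : ℕ}

lemma int_gauss {c : ℝ} (hc : 0 < c) : Integrable (fun w : Wsp dm => Real.exp (-(c * ‖w‖ ^ 2))) := by
  have h0 : 0 < ((c : ℂ)).re := by simpa using hc
  have h1 := (GaussianFourier.integrable_cexp_neg_mul_sq_norm_add (V := Wsp dm) h0 0 0).norm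
  refine h1.congr (Eventually.of_forall fun w => ?_)
  simp only [Complex.norm_exp]
  congr 1
  simp only [zero_mul, add_zero]
  rw [show (-(c : ℂ) * (‖w‖ : ℂ) ^ 2) = ((-(c * ‖w‖ ^ 2) : ℝ) : ℂ) by push_cast; ring, Complex.ofReal_re]

lemma wt_neg (w : Wsp dm) (i : Fin 9) : wt (-w) i = -wt w i := by
  funext B
  unfold wt
  refine Fin.lastCases ?_ (fun j => ?_) i
  · simp only [Pi.neg_apply, Fin.lastCases_last, neg_zero]
  · simp only [Pi.neg_apply, Fin.lastCases_castSucc, PiLp.neg_apply]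

lemma sV_neg (D : Fin 9 → Matrix (Fin dm) (Fin dm) ℝ) (w : Wsp dm) : sV D (-w) = -sV D w := by
  unfold sV
  simp only [wt_neg, Matrix.mulVec_neg, Finset.sum_neg_distrib]

lemma VV_neg (D : Fin 9 → Matrix (Fin dm) (Fin dm) ℝ) (w : Wsp dm) (i : Fin 9) : VV D (-w) i = -VV D w i := by
  unfold VV
  rw [wt_neg, sV_neg, Matrix.mulVec_neg]
  abel

lemma qf_neg (D : Fin 9 → Matrix (Fin dm) (Fin dm) ℝ) (Om : Matrix (Fin dm) (Fin dm) ℝ) (w : Wsp dm) :
    qf D Om (-w) = qf D Om w := by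
  unfold qf
  refine Finset.sum_congr rfl fun i _ => ?_
  rw [VV_neg, Matrix.mulVec_neg, neg_dotProduct_neg]

lemma DM_smul (M : Fin r → Matrix (Fin dm) (Fin dm) ℝ) (R : ℝ) (η : Cfg r) (i : Fin 9) :
    DM M (R • η) i = R • DM M η i := by
  unfold DM
  rw [Finset.smul_sum]
  refine Finset.sum_congr rfl fun a _ => ?_
  rw [smul_smul]
  simp

lemma isOpen_ch8 (M : Fin r → Matrix (Fin dm) (Fin dm) ℝ) : IsOpen (ch8 M) := by
  have hc : Continuous fun η : Cfg r => (DM M η 8).det := by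
    have : Continuous fun η : Cfg r => DM M η 8 := by
      unfold DM
      fun_prop
    exact this.matrix_det
  exact hc.isOpen_preimage _ isOpen_ne

/-- vanishing of the integral of `G ∂G` -/
lemma par_Ge {κ : ℝ} (hκ : 0 < κ) {E : Matrix (Fin dm) (Fin dm) ℝ} (hE : E * Eᵀ = 1) (l : Fin dm → Fin r → ℝ)
    {U : Set (Cfg r)} (hU : IsOpen U) (hUs : U ⊆ Ch l)
    (h1 : ∀ η ∈ U, ∫ w : Wsp dm, Ge κ E l (η, w) ^ 2 = 1) {η : Cfg r} (hηU : η ∈ U) (ξ : Cfg r) :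
    ∫ w : Wsp dm, Ge κ E l (η, w) * fderiv ℝ (Ge κ E l) (η, w) (ξ, 0) = 0 := by
  have hη : η ∈ Ch l := hUs hηU
  have hcl : Continuous fun t : ℝ => η + t • ξ := by fun_prop
  have hop : IsOpen ((fun t : ℝ => η + t • ξ) ⁻¹' U) := hU.preimage hcl
  have h00 : (0 : ℝ) ∈ (fun t : ℝ => η + t • ξ) ⁻¹' U := by
    simp only [Set.mem_preimage, zero_smul, add_zero]
    exact hηU
  obtain ⟨ε, hε, hsub⟩ := Metric.isOpen_iff.1 hop 0 h00
  have hsubU : ∀ t ∈ Metric.closedBall (0 : ℝ) (ε / 2), η + t • ξ ∈ U := fun t ht =>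
    hsub (Metric.closedBall_subset_ball (by linarith) ht)
  have hsub' : ∀ t ∈ Metric.closedBall (0 : ℝ) (ε / 2), η + t • ξ ∈ Ch l := fun t ht => hUs (hsubU t ht)
  have hK : IsCompact ((fun t : ℝ => η + t • ξ) '' Metric.closedBall (0 : ℝ) (ε / 2)) :=
    (isCompact_closedBall _ _).image hcl
  have hKs : (fun t : ℝ => η + t • ξ) '' Metric.closedBall (0 : ℝ) (ε / 2) ⊆ Ch l := by
    rintro _ ⟨t, ht, rfl⟩
    exact hsub' t ht
  obtain ⟨C, c, hc, hb⟩ := bdG hκ hE l hK hKs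
  have hb1 : ∀ t ∈ Metric.closedBall (0 : ℝ) (ε / 2), ∀ w : Wsp dm,
      |Ge κ E l (η + t • ξ, w)| ≤ C * Real.exp (-(c * ‖w‖ ^ 2)) := fun t ht w => (hb _ ⟨t, ht, rfl⟩ w).1
  have hb2 : ∀ t ∈ Metric.closedBall (0 : ℝ) (ε / 2), ∀ w : Wsp dm,
      ‖fderiv ℝ (Ge κ E l) (η + t • ξ, w)‖ ≤ C * Real.exp (-(c * ‖w‖ ^ 2)) := fun t ht w => (hb _ ⟨t, ht, rfl⟩ w).2
  have h0mem : (0 : ℝ) ∈ Metric.closedBall (0 : ℝ) (ε / 2) := Metric.mem_closedBall_self (by linarith)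
  have hnb : Metric.closedBall (0 : ℝ) (ε / 2) ∈ 𝓝 (0 : ℝ) := Metric.closedBall_mem_nhds _ (by linarith)
  have hcont : ∀ η' ∈ Ch l, Continuous fun w : Wsp dm => Ge κ E l (η', w) := by
    intro η' hη'
    rw [continuous_iff_continuousAt]
    intro w
    exact ContinuousAt.comp (g := Ge κ E l) (f := fun w : Wsp dm => (η', w))
      (contDiffAt_Ge hκ E l (p := (η', w)) hη').continuousAt (by fun_prop)
  have hcontd : Continuous fun w : Wsp dm => fderiv ℝ (Ge κ E l) (η, w) := by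
    have hon : ContinuousOn (fderiv ℝ (Ge κ E l)) (Ch l ×ˢ Set.univ) := by
      have : ContDiffOn ℝ ∞ (Ge κ E l) (Ch l ×ˢ Set.univ) := fun p hp =>
        (contDiffAt_Ge hκ E l (p := p) hp.1).contDiffWithinAt
      exact this.continuousOn_fderiv_of_isOpen (isOpen_dom l) (by simp)
    exact hon.comp_continuous (by fun_prop) fun w => ⟨hη, Set.mem_univ _⟩
  have hexp1 : ∀ w : Wsp dm, Real.exp (-(c * ‖w‖ ^ 2)) * Real.exp (-(c * ‖w‖ ^ 2)) ≤ Real.exp (-(c * ‖w‖ ^ 2)) := by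
    intro w
    refine mul_le_of_le_one_left (Real.exp_pos _).le ?_
    rw [Real.exp_le_one_iff]
    have : 0 ≤ c * ‖w‖ ^ 2 := by positivity
    linarith
  have key := hasDerivAt_integral_of_dominated_loc_of_deriv_le (μ := (volume : Measure (Wsp dm))) (𝕜 := ℝ)
    (F := fun (t : ℝ) (w : Wsp dm) => Ge κ E l (η + t • ξ, w) ^ 2)
    (F' := fun (t : ℝ) (w : Wsp dm) => 2 * Ge κ E l (η + t • ξ, w) * fderiv ℝ (Ge κ E l) (η + t • ξ, w) (ξ, 0))
    (bound := fun w : Wsp dm => 2 * (C ^ 2 * ‖((ξ, 0) : Cfg r × Wsp dm)‖) * Real.exp (-(c * ‖w‖ ^ 2)))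
    (x₀ := (0 : ℝ)) (s := Metric.closedBall (0 : ℝ) (ε / 2)) hnb ?_ ?_ ?_ ?_ ?_ ?_
  · have hd := key.2
    have hcst : HasDerivAt (fun t : ℝ => ∫ w : Wsp dm, Ge κ E l (η + t • ξ, w) ^ 2) 0 0 := by
      refine (hasDerivAt_const (0 : ℝ) (1 : ℝ)).congr_of_eventuallyEq ?_
      filter_upwards [hnb] with t ht
      exact h1 _ (hsubU t ht)
    have h3 := hd.unique hcst
    simp only [zero_smul, add_zero] at h3
    have h4 : ∀ w : Wsp dm, 2 * Ge κ E l (η, w) * fderiv ℝ (Ge κ E l) (η, w) (ξ, 0) =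
        2 * (Ge κ E l (η, w) * fderiv ℝ (Ge κ E l) (η, w) (ξ, 0)) := fun w => by ring
    simp only [h4] at h3
    rw [integral_const_mul] at h3
    linarith
  · filter_upwards [hnb] with t ht
    exact ((hcont _ (hsub' t ht)).pow 2).aestronglyMeasurable
  · refine Integrable.mono' ((int_gauss (dm := dm) hc).const_mul (C ^ 2))
      (((hcont _ (hsub' 0 h0mem)).pow 2).aestronglyMeasurable) (Eventually.of_forall fun w => ?_)
    have h5 := hb1 0 h0mem w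
    rw [Real.norm_eq_abs, abs_pow, pow_two]
    calc _ ≤ (C * Real.exp (-(c * ‖w‖ ^ 2))) * (C * Real.exp (-(c * ‖w‖ ^ 2))) :=
          mul_le_mul h5 h5 (abs_nonneg _) ((abs_nonneg _).trans h5)
      _ = C ^ 2 * (Real.exp (-(c * ‖w‖ ^ 2)) * Real.exp (-(c * ‖w‖ ^ 2))) := by ring
      _ ≤ _ := mul_le_mul_of_nonneg_left (hexp1 w) (sq_nonneg _)
  · have h6 : Continuous fun w : Wsp dm => 2 * Ge κ E l (η + (0 : ℝ) • ξ, w) * fderiv ℝ (Ge κ E l) (η + (0 : ℝ) • ξ, w) (ξ, 0) := by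
      simp only [zero_smul, add_zero]
      exact (continuous_const.mul (hcont η hη)).mul (hcontd.clm_apply continuous_const)
    exact h6.aestronglyMeasurable
  · refine Eventually.of_forall fun w t ht => ?_
    have h5 := hb1 t ht w
    have h6 := hb2 t ht w
    have h7 : |fderiv ℝ (Ge κ E l) (η + t • ξ, w) (ξ, 0)| ≤ C * Real.exp (-(c * ‖w‖ ^ 2)) * ‖((ξ, 0) : Cfg r × Wsp dm)‖ :=
      ((fderiv ℝ (Ge κ E l) (η + t • ξ, w)).le_opNorm _).trans (mul_le_mul_of_nonneg_right h6 (norm_nonneg _))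
    rw [Real.norm_eq_abs, abs_mul, abs_mul, abs_two]
    calc _ ≤ 2 * (C * Real.exp (-(c * ‖w‖ ^ 2))) * (C * Real.exp (-(c * ‖w‖ ^ 2)) * ‖((ξ, 0) : Cfg r × Wsp dm)‖) :=
          mul_le_mul (mul_le_mul_of_nonneg_left h5 (by norm_num)) h7 (abs_nonneg _)
            (by have := (abs_nonneg _).trans h5; positivity)
      _ = 2 * (C ^ 2 * ‖((ξ, 0) : Cfg r × Wsp dm)‖) * (Real.exp (-(c * ‖w‖ ^ 2)) * Real.exp (-(c * ‖w‖ ^ 2))) := by ring
      _ ≤ _ := mul_le_mul_of_nonneg_left (hexp1 w) (by positivity)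
  · exact (int_gauss (dm := dm) hc).const_mul _
  · refine Eventually.of_forall fun w t ht => ?_
    have hGd : HasFDerivAt (Ge κ E l) (fderiv ℝ (Ge κ E l) (η + t • ξ, w)) (η + t • ξ, w) :=
      ((contDiffAt_Ge hκ E l (p := (η + t • ξ, w)) (hsub' t ht)).differentiableAt (by simp)).hasFDerivAt
    have hline : HasDerivAt (fun s : ℝ => (η + s • ξ, w)) ((ξ, 0) : Cfg r × Wsp dm) t := by
      have h8 : HasDerivAt (fun s : ℝ => η + s • ξ) ξ t := by
        have := ((hasDerivAt_id t).smul_const ξ).const_add η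
        simpa using this
      exact h8.prodMk (hasDerivAt_const t w)
    have h9 : HasDerivAt (fun s : ℝ => Ge κ E l (η + s • ξ, w)) (fderiv ℝ (Ge κ E l) (η + t • ξ, w) (ξ, 0)) t :=
      HasFDerivAt.comp_hasDerivAt (f := fun s : ℝ => (η + s • ξ, w)) (l := Ge κ E l) t hGd hline
    have h10 : HasDerivAt (fun s : ℝ => Ge κ E l (η + s • ξ, w) ^ 2)
        (2 * Ge κ E l (η + t • ξ, w) * fderiv ℝ (Ge κ E l) (η + t • ξ, w) (ξ, 0)) t := by
      have h11 := h9.pow 2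
      have h12 : ((2 : ℕ) : ℝ) * Ge κ E l (η + t • ξ, w) ^ (2 - 1) * fderiv ℝ (Ge κ E l) (η + t • ξ, w) (ξ, 0) =
          2 * Ge κ E l (η + t • ξ, w) * fderiv ℝ (Ge κ E l) (η + t • ξ, w) (ξ, 0) := by
        norm_num
      rw [← h12]
      exact h11
    exact h10

end BosP

open BosP in
theorem bos : BosSmStmt := by
  intro hQ hGa r dm κ M t Kc E l hκ hRD
  have hE := hRD.orth
  have hch : ∀ η, η ∈ ch8 M → η ∈ Ch l := fun η hη => (hQ r dm κ M t Kc E l hκ hRD η hη).1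
  have hI : ∀ η ∈ ch8 M, ∫ w : Wsp dm, gR (DM M η) (OmE κ E l η) 1 w ^ 2 = Ie κ l η := by
    intro η hη
    obtain ⟨-, h2, h3, -⟩ := hQ r dm κ M t Kc E l hκ hRD η hη
    rw [(hGa r dm κ M t Kc E l hκ hRD η hη).2, h2, h3]
    rfl
  have hg : ∀ η ∈ ch8 M, ∀ w : Wsp dm, gR (DM M η) (OmE κ E l η) 1 w = Real.exp (-(1 / 2) * Qe κ E l (η, w)) := by
    intro η hη w
    obtain ⟨-, -, -, h4⟩ := hQ r dm κ M t Kc E l hκ hRD η hη
    unfold gR
    rw [h4 w]
    rfl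
  have hG : ∀ η ∈ ch8 M, ∀ w : Wsp dm, gN M (OmE κ E l) η w = Ge κ E l (η, w) := by
    intro η hη w
    unfold gN Ge
    rw [hg η hη w, hI η hη]
  have hop := isOpen_ch8 M
  have hev : ∀ η ∈ ch8 M, ∀ w : Wsp dm,
      (fun p : Cfg r × Wsp dm => gN M (OmE κ E l) p.1 p.2) =ᶠ[𝓝 (η, w)] Ge κ E l := by
    intro η hη w
    have : ∀ᶠ p : Cfg r × Wsp dm in 𝓝 (η, w), p.1 ∈ ch8 M :=
      continuous_fst.continuousAt.preimage_mem_nhds (hop.mem_nhds hη)
    filter_upwards [this] with p hp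
    exact hG p.1 hp p.2
  have hnorm : ∀ η ∈ ch8 M, ∫ w : Wsp dm, gN M (OmE κ E l) η w ^ 2 = 1 := by
    intro η hη
    have h1 : ∀ w : Wsp dm, gN M (OmE κ E l) η w ^ 2 = gR (DM M η) (OmE κ E l η) 1 w ^ 2 / Ie κ l η := by
      intro w
      unfold gN
      rw [hI η hη, div_pow, Real.sq_sqrt (Ie_pos hκ l (hch η hη)).le]
    simp only [h1]
    rw [integral_div, hI η hη, div_self (Ie_pos hκ l (hch η hη)).ne']
  refine ⟨hop, ?_, ?_, hnorm, ?_, ?_, ?_, ?_⟩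
  · rintro ⟨η, w⟩ ⟨hη, -⟩
    exact ((contDiffAt_Ge hκ E l (p := (η, w)) (hch η hη)).congr_of_eventuallyEq (hev η hη w)).contDiffWithinAt
  · intro η hη
    rw [hI η hη]
    exact Ie_pos hκ l (hch η hη)
  · intro η w
    unfold gN gR
    rw [qf_neg]
  · intro 𝒞 hC hs
    obtain ⟨C, c, hc, hb⟩ := bdG hκ hE l hC fun η hη => hch η (hs hη)
    refine ⟨C, c, hc, fun η hη w => ⟨?_, ?_⟩⟩
    · rw [hG η (hs hη) w]
      exact (hb η hη w).1
    · rw [(hev η (hs hη) w).fderiv_eq]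
      exact (hb η hη w).2
  · intro η hη ξ
    have h1 : ∀ η ∈ ch8 M, ∫ w : Wsp dm, Ge κ E l (η, w) ^ 2 = 1 := by
      intro η hη
      rw [← hnorm η hη]
      exact integral_congr_ae (Eventually.of_forall fun w => by
        change Ge κ E l (η, w) ^ 2 = gN M (OmE κ E l) η w ^ 2
        rw [hG η hη w])
    have h2 := par_Ge hκ hE l hop hch h1 hη ξ
    rw [← h2]
    refine integral_congr_ae (Eventually.of_forall fun w => ?_)
    change gN M (OmE κ E l) η w * fderiv ℝ (fun η' => gN M (OmE κ E l) η' w) η ξ =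
      Ge κ E l (η, w) * fderiv ℝ (Ge κ E l) (η, w) (ξ, 0)
    rw [hG η hη w]
    congr 1
    have h3 : (fun η' => gN M (OmE κ E l) η' w) =ᶠ[𝓝 η] fun η' => Ge κ E l (η', w) := by
      filter_upwards [hop.mem_nhds hη] with η' hη'
      exact hG η' hη' w
    rw [h3.fderiv_eq]
    have h4 : HasFDerivAt (Ge κ E l) (fderiv ℝ (Ge κ E l) (η, w)) (η, w) :=
      ((contDiffAt_Ge hκ E l (p := (η, w)) (hch η hη)).differentiableAt (by simp)).hasFDerivAt
    have h5 : HasFDerivAt (fun η' : Cfg r => (η', w)) (ContinuousLinearMap.inl ℝ (Cfg r) (Wsp dm)) η :=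
      hasFDerivAt_prodMk_left η w
    have h6 := HasFDerivAt.comp (g := Ge κ E l) η h4 h5
    have h7 : fderiv ℝ (fun η' => Ge κ E l (η', w)) η =
        (fderiv ℝ (Ge κ E l) (η, w)).comp (ContinuousLinearMap.inl ℝ (Cfg r) (Wsp dm)) := h6.fderiv
    rw [h7]
    rfl
  · intro R η w hR hη
    have hRη : R • η ∈ ch8 M := by
      change (DM M (R • η) 8).det ≠ 0
      rw [DM_smul, Matrix.det_smul]
      exact mul_ne_zero (pow_ne_zero _ hR.ne') hη
    rw [hG _ hRη, hG _ hη]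
    exact Ge_scale hκ E l (hch η hη) w hR

end Vale.Agent.P353.Z.AX
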