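import Vale.Agent.P353.AN.X.StmtB

/-! # P353, all `N`, block X: the normalised boson vacuum — explicit form and its calculus -/

open MeasureTheory Filter Topology Matrix
open scoped ContDiff

namespace Vale.Agent.P353.Z.AX.BosP

variable {dm r : ℕ}

/-- explicit quadratic form -/
noncomputable def Qe (κ : ℝ) (E : Matrix (Fin dm) (Fin dm) ℝ) (l : Fin dm → Fin r → ℝ) (p : Cfg r × Wsp dm) : ℝ :=
  κ * ∑ k, nz (zk (l k) p.1) * ((∑ j : Fin 8, (E *ᵥ fun B => p.2 (j, B)) k ^ 2) -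
      (∑ j : Fin 8, zk (l k) p.1 j.castSucc * (E *ᵥ fun B => p.2 (j, B)) k) ^ 2 / nz (zk (l k) p.1) ^ 2)

/-- explicit value of the Gauss integral -/
noncomputable def Ie (κ : ℝ) (l : Fin dm → Fin r → ℝ) (η : Cfg r) : ℝ :=
  Real.pi ^ (4 * dm) / (κ ^ dm * (κ ^ dm * ∏ k, nz (zk (l k) η)) ^ 3 * ∏ k, |zk (l k) η 8|)

/-- explicit normalised vacuum -/
noncomputable def Ge (κ : ℝ) (E : Matrix (Fin dm) (Fin dm) ℝ) (l : Fin dm → Fin r → ℝ) (p : Cfg r × Wsp dm) : ℝ :=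
  Real.exp (-(1 / 2) * Qe κ E l p) / Real.sqrt (Ie κ l p.1)

/-! ## elementary properties -/

lemma zk_smul (l : Fin r → ℝ) (R : ℝ) (η : Cfg r) (i : Fin 9) : zk l (R • η) i = R * zk l η i := by
  unfold zk
  rw [Finset.mul_sum]
  exact Finset.sum_congr rfl fun a _ => by simp; ring

lemma contDiff_zk (l : Fin r → ℝ) (i : Fin 9) : ContDiff ℝ ∞ (fun η : Cfg r => zk l η i) := by
  unfold zk
  fun_prop

lemma nz_nonneg (z : Fin 9 → ℝ) : 0 ≤ nz z := Real.sqrt_nonneg _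

lemma sumsq_pos (z : Fin 9 → ℝ) (h : z 8 ≠ 0) : 0 < ∑ i, z i ^ 2 :=
  lt_of_lt_of_le (by positivity) (Finset.single_le_sum (f := fun i => z i ^ 2) (fun _ _ => sq_nonneg _) (Finset.mem_univ 8))

lemma nz_pos (z : Fin 9 → ℝ) (h : z 8 ≠ 0) : 0 < nz z := Real.sqrt_pos.2 (sumsq_pos z h)

lemma nz_sq (z : Fin 9 → ℝ) : nz z ^ 2 = ∑ i, z i ^ 2 :=
  Real.sq_sqrt (Finset.sum_nonneg fun i _ => sq_nonneg _)

lemma nz_smul (l : Fin r → ℝ) (R : ℝ) (hR : 0 ≤ R) (η : Cfg r) : nz (zk l (R • η)) = R * nz (zk l η) := by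
  unfold nz
  rw [← Real.sqrt_sq hR, ← Real.sqrt_mul (sq_nonneg R), Real.sqrt_sq hR, Finset.mul_sum]
  congr 1
  exact Finset.sum_congr rfl fun i _ => by rw [zk_smul]; ring

/-- the open set in terms of the roots -/
def Ch (l : Fin dm → Fin r → ℝ) : Set (Cfg r) := {η | ∀ k, zk (l k) η 8 ≠ 0}

lemma contDiffAt_nz (l : Fin dm → Fin r → ℝ) (k : Fin dm) {η : Cfg r} (h : zk (l k) η 8 ≠ 0) :
    ContDiffAt ℝ ∞ (fun η : Cfg r => nz (zk (l k) η)) η := by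
  unfold nz
  refine ContDiffAt.sqrt ?_ (sumsq_pos _ h).ne'
  refine ContDiffAt.sum fun i _ => ?_
  exact ((contDiff_zk (l k) i).contDiffAt).pow 2

lemma contDiff_om (E : Matrix (Fin dm) (Fin dm) ℝ) (j : Fin 8) (k : Fin dm) :
    ContDiff ℝ ∞ (fun w : Wsp dm => (E *ᵥ fun B => w (j, B)) k) := by
  unfold Matrix.mulVec dotProduct
  fun_prop

lemma contDiffAt_Qe (κ : ℝ) (E : Matrix (Fin dm) (Fin dm) ℝ) (l : Fin dm → Fin r → ℝ) {p : Cfg r × Wsp dm}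
    (h : p.1 ∈ Ch l) : ContDiffAt ℝ ∞ (Qe κ E l) p := by
  unfold Qe
  refine contDiffAt_const.mul (ContDiffAt.sum fun k _ => ?_)
  have hn : ContDiffAt ℝ ∞ (fun p : Cfg r × Wsp dm => nz (zk (l k) p.1)) p :=
    ContDiffAt.comp (g := fun η : Cfg r => nz (zk (l k) η)) p (contDiffAt_nz l k (h k)) contDiffAt_fst
  have ho : ∀ j : Fin 8, ContDiffAt ℝ ∞ (fun p : Cfg r × Wsp dm => (E *ᵥ fun B => p.2 (j, B)) k) p := fun j =>
    ContDiffAt.comp (g := fun w : Wsp dm => (E *ᵥ fun B => w (j, B)) k) p (contDiff_om E j k).contDiffAt contDiffAt_snd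
  have hz : ∀ i : Fin 9, ContDiffAt ℝ ∞ (fun p : Cfg r × Wsp dm => zk (l k) p.1 i) p := fun i =>
    ContDiffAt.comp (g := fun η : Cfg r => zk (l k) η i) p (contDiff_zk (l k) i).contDiffAt contDiffAt_fst
  refine hn.mul (ContDiffAt.sub (ContDiffAt.sum fun j _ => (ho j).pow 2) ?_)
  refine ContDiffAt.div ((ContDiffAt.sum fun j _ => (hz _).mul (ho j)).pow 2) (hn.pow 2) ?_
  exact pow_ne_zero 2 (nz_pos _ (h k)).ne'

lemma Ie_den_pos {κ : ℝ} (hκ : 0 < κ) (l : Fin dm → Fin r → ℝ) {η : Cfg r} (h : η ∈ Ch l) :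
    0 < κ ^ dm * (κ ^ dm * ∏ k, nz (zk (l k) η)) ^ 3 * ∏ k, |zk (l k) η 8| := by
  have h1 : 0 < ∏ k, nz (zk (l k) η) := Finset.prod_pos fun k _ => nz_pos _ (h k)
  have h2 : 0 < ∏ k, |zk (l k) η 8| := Finset.prod_pos fun k _ => abs_pos.2 (h k)
  positivity

lemma Ie_pos {κ : ℝ} (hκ : 0 < κ) (l : Fin dm → Fin r → ℝ) {η : Cfg r} (h : η ∈ Ch l) : 0 < Ie κ l η :=
  div_pos (by positivity) (Ie_den_pos hκ l h)

lemma contDiffAt_Ie {κ : ℝ} (hκ : 0 < κ) (l : Fin dm → Fin r → ℝ) {η : Cfg r} (h : η ∈ Ch l) :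
    ContDiffAt ℝ ∞ (Ie κ l) η := by
  unfold Ie
  refine contDiffAt_const.div ?_ (Ie_den_pos hκ l h).ne'
  refine (contDiffAt_const.mul ((contDiffAt_const.mul (contDiffAt_prod fun k _ => contDiffAt_nz l k (h k))).pow 3)).mul ?_
  refine contDiffAt_prod fun k _ => ?_
  exact ContDiffAt.comp η (contDiffAt_abs (h k)) (contDiff_zk (l k) 8).contDiffAt

lemma contDiffAt_Ge {κ : ℝ} (hκ : 0 < κ) (E : Matrix (Fin dm) (Fin dm) ℝ) (l : Fin dm → Fin r → ℝ)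
    {p : Cfg r × Wsp dm} (h : p.1 ∈ Ch l) : ContDiffAt ℝ ∞ (Ge κ E l) p := by
  unfold Ge
  have h1 : ContDiffAt ℝ ∞ (fun p : Cfg r × Wsp dm => Ie κ l p.1) p :=
    ContDiffAt.comp (g := Ie κ l) p (contDiffAt_Ie hκ l h) contDiffAt_fst
  refine ContDiffAt.div (ContDiffAt.exp (contDiffAt_const.mul (contDiffAt_Qe κ E l h)))
    (h1.sqrt (Ie_pos hκ l h).ne') ?_
  exact (Real.sqrt_pos.2 (Ie_pos hκ l h)).ne'

lemma Qe_smul_right (κ : ℝ) (E : Matrix (Fin dm) (Fin dm) ℝ) (l : Fin dm → Fin r → ℝ) (η : Cfg r) (w : Wsp dm) (c : ℝ) :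
    Qe κ E l (η, c • w) = c ^ 2 * Qe κ E l (η, w) := by
  have ho : ∀ (j : Fin 8) (k : Fin dm), (E *ᵥ fun B => (c • w) (j, B)) k = c * (E *ᵥ fun B => w (j, B)) k := by
    intro j k
    have : (fun B => (c • w) (j, B)) = c • fun B => w (j, B) := by
      funext B
      simp
    rw [this, Matrix.mulVec_smul]
    simp
  unfold Qe
  simp only [ho]
  rw [mul_left_comm (c ^ 2) κ]
  refine congrArg (κ * ·) ?_
  rw [Finset.mul_sum]
  refine Finset.sum_congr rfl fun k _ => ?_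
  have h1 : (∑ j : Fin 8, (c * (E *ᵥ fun B => w (j, B)) k) ^ 2) = c ^ 2 * ∑ j : Fin 8, (E *ᵥ fun B => w (j, B)) k ^ 2 := by
    rw [Finset.mul_sum]
    refine Finset.sum_congr rfl fun j _ => ?_
    ring
  have h2 : (∑ j : Fin 8, zk (l k) η j.castSucc * (c * (E *ᵥ fun B => w (j, B)) k)) =
      c * ∑ j : Fin 8, zk (l k) η j.castSucc * (E *ᵥ fun B => w (j, B)) k := by
    rw [Finset.mul_sum]
    refine Finset.sum_congr rfl fun j _ => ?_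
    ring
  rw [h1, h2]
  ring

lemma Qe_smul_left (κ : ℝ) (E : Matrix (Fin dm) (Fin dm) ℝ) (l : Fin dm → Fin r → ℝ) {η : Cfg r} (h : η ∈ Ch l) (w : Wsp dm)
    {R : ℝ} (hR : 0 < R) : Qe κ E l (R • η, w) = R * Qe κ E l (η, w) := by
  unfold Qe
  dsimp only
  rw [mul_left_comm R κ]
  refine congrArg (κ * ·) ?_
  rw [Finset.mul_sum]
  refine Finset.sum_congr rfl fun k _ => ?_
  have h2 : (∑ j : Fin 8, zk (l k) (R • η) j.castSucc * (E *ᵥ fun B => w (j, B)) k) =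
      R * ∑ j : Fin 8, zk (l k) η j.castSucc * (E *ᵥ fun B => w (j, B)) k := by
    rw [Finset.mul_sum]
    refine Finset.sum_congr rfl fun j _ => ?_
    rw [zk_smul]
    ring
  rw [h2, nz_smul _ _ hR.le]
  have h0 := (nz_pos _ (h k)).ne'
  field_simp

lemma Ch_smul (l : Fin dm → Fin r → ℝ) {η : Cfg r} (h : η ∈ Ch l) {R : ℝ} (hR : 0 < R) : R • η ∈ Ch l := by
  intro k
  rw [zk_smul]
  exact mul_ne_zero hR.ne' (h k)

lemma Ie_smul {κ : ℝ} (hκ : 0 < κ) (l : Fin dm → Fin r → ℝ) {η : Cfg r} (h : η ∈ Ch l) {R : ℝ} (hR : 0 < R) :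
    Ie κ l (R • η) = Ie κ l η / R ^ (4 * dm) := by
  have h0 := (Ie_den_pos hκ l h).ne'
  have h1 : ∏ k, nz (zk (l k) (R • η)) = R ^ dm * ∏ k, nz (zk (l k) η) := by
    rw [Finset.prod_congr rfl fun k _ => nz_smul (l k) R hR.le η, Finset.prod_mul_distrib]
    simp
  have h2 : ∏ k, |zk (l k) (R • η) 8| = R ^ dm * ∏ k, |zk (l k) η 8| := by
    rw [Finset.prod_congr rfl fun k _ => by rw [zk_smul, abs_mul, abs_of_pos hR], Finset.prod_mul_distrib]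
    simp
  unfold Ie
  rw [h1, h2, div_div]
  congr 1
  ring

lemma sqrt_pow_eq {R : ℝ} (hR : 0 < R) (n : ℕ) : Real.sqrt (R ^ n) = Real.sqrt R ^ n := by
  rw [Real.sqrt_eq_iff_mul_self_eq (by positivity) (by positivity), ← pow_add, ← two_mul, pow_mul, Real.sq_sqrt hR.le]

lemma Ge_scale {κ : ℝ} (hκ : 0 < κ) (E : Matrix (Fin dm) (Fin dm) ℝ) (l : Fin dm → Fin r → ℝ) {η : Cfg r} (h : η ∈ Ch l)
    (w : Wsp dm) {R : ℝ} (hR : 0 < R) :
    Ge κ E l (R • η, w) = Real.sqrt R ^ (4 * dm) * Ge κ E l (η, Real.sqrt R • w) := by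
  unfold Ge
  dsimp only
  rw [Qe_smul_left κ E l h w hR, Qe_smul_right, Real.sq_sqrt hR.le, Ie_smul hκ l h hR,
    Real.sqrt_div (Ie_pos hκ l h).le, sqrt_pow_eq hR]
  have h1 : 0 < Real.sqrt R := Real.sqrt_pos.2 hR
  have h2 : 0 < Real.sqrt (Ie κ l η) := Real.sqrt_pos.2 (Ie_pos hκ l h)
  field_simp

/-! ## coercivity -/

lemma E_inj {E : Matrix (Fin dm) (Fin dm) ℝ} (hE : E * Eᵀ = 1) {v : Fin dm → ℝ} (h : E *ᵥ v = 0) : v = 0 := by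
  have h1 : Eᵀ * E = 1 := mul_eq_one_comm.mp hE
  rw [← Matrix.one_mulVec v, ← h1, ← Matrix.mulVec_mulVec, h, Matrix.mulVec_zero]

lemma term_nonneg (z : Fin 9 → ℝ) (h : z 8 ≠ 0) (o : Fin 8 → ℝ) :
    z 8 ^ 2 / nz z ^ 2 * (∑ j, o j ^ 2) ≤ (∑ j, o j ^ 2) - (∑ j : Fin 8, z j.castSucc * o j) ^ 2 / nz z ^ 2 := by
  have hn := nz_pos z h
  have hcs : (∑ j : Fin 8, z j.castSucc * o j) ^ 2 ≤ (∑ j : Fin 8, z j.castSucc ^ 2) * ∑ j, o j ^ 2 :=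
    Finset.sum_mul_sq_le_sq_mul_sq _ _ _
  have h9 : nz z ^ 2 = (∑ j : Fin 8, z j.castSucc ^ 2) + z 8 ^ 2 := by
    rw [nz_sq, Fin.sum_univ_castSucc]
    rfl
  have h10 : (∑ j : Fin 8, z j.castSucc * o j) ^ 2 / nz z ^ 2 ≤ (∑ j, o j ^ 2) - z 8 ^ 2 / nz z ^ 2 * (∑ j, o j ^ 2) := by
    rw [div_le_iff₀ (by positivity)]
    have : ((∑ j, o j ^ 2) - z 8 ^ 2 / nz z ^ 2 * (∑ j, o j ^ 2)) * nz z ^ 2 =
        (∑ j : Fin 8, z j.castSucc ^ 2) * ∑ j, o j ^ 2 := by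
      have : ((∑ j, o j ^ 2) - z 8 ^ 2 / nz z ^ 2 * (∑ j, o j ^ 2)) * nz z ^ 2 = (nz z ^ 2 - z 8 ^ 2) * ∑ j, o j ^ 2 := by
        field_simp
      rw [this, h9]
      ring
    rw [this]
    exact hcs
  linarith

lemma Qe_pos {κ : ℝ} (hκ : 0 < κ) {E : Matrix (Fin dm) (Fin dm) ℝ} (hE : E * Eᵀ = 1) (l : Fin dm → Fin r → ℝ)
    {η : Cfg r} (h : η ∈ Ch l) {w : Wsp dm} (hw : w ≠ 0) : 0 < Qe κ E l (η, w) := by
  have h0 : ∀ k, 0 ≤ zk (l k) η 8 ^ 2 / nz (zk (l k) η) ^ 2 * (∑ j : Fin 8, (E *ᵥ fun B => w (j, B)) k ^ 2) := fun k =>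
    mul_nonneg (by positivity) (Finset.sum_nonneg fun j _ => sq_nonneg _)
  have hle : ∀ k, 0 ≤ nz (zk (l k) η) * ((∑ j : Fin 8, (E *ᵥ fun B => w (j, B)) k ^ 2) -
      (∑ j : Fin 8, zk (l k) η j.castSucc * (E *ᵥ fun B => w (j, B)) k) ^ 2 / nz (zk (l k) η) ^ 2) := fun k =>
    mul_nonneg (nz_nonneg _) ((h0 k).trans (term_nonneg (zk (l k) η) (h k) fun j => (E *ᵥ fun B => w (j, B)) k))
  -- a nonzero component
  obtain ⟨j, k, hjk⟩ : ∃ (j : Fin 8) (k : Fin dm), (E *ᵥ fun B => w (j, B)) k ≠ 0 := by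
    by_contra hc
    push Not at hc
    apply hw
    ext ⟨j, B⟩
    have := E_inj hE (v := fun B => w (j, B)) (by funext k; exact hc j k)
    exact congrFun this B
  unfold Qe
  refine mul_pos hκ (Finset.sum_pos' (fun k _ => hle k) ⟨k, Finset.mem_univ k, ?_⟩)
  refine mul_pos (nz_pos _ (h k)) (lt_of_lt_of_le ?_ (term_nonneg (zk (l k) η) (h k) fun j => (E *ᵥ fun B => w (j, B)) k))
  have hz := h k
  have hn := nz_pos _ (h k)
  refine mul_pos (by positivity) ?_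
  exact lt_of_lt_of_le (by positivity) (Finset.single_le_sum (f := fun j : Fin 8 => (E *ᵥ fun B => w (j, B)) k ^ 2)
    (fun j _ => sq_nonneg _) (Finset.mem_univ j))

end Vale.Agent.P353.Z.AX.BosP
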