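import Vale.Agent.P353.AN.X.BosA

/-! # P353, all `N`, block X: the normalised boson vacuum — Gaussian bounds on compact sets -/

open MeasureTheory Filter Topology Matrix
open scoped ContDiff

namespace Vale.Agent.P353.Z.AX.BosP

variable {dm r : ℕ}

lemma isOpen_Ch (l : Fin dm → Fin r → ℝ) : IsOpen (Ch l) := by
  have : Ch l = ⋂ k, {η : Cfg r | zk (l k) η 8 ≠ 0} := by
    ext η
    simp [Ch]
  rw [this]
  exact isOpen_iInter_of_finite fun k => (contDiff_zk (l k) 8).continuous.isOpen_preimage _ isOpen_ne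

lemma isOpen_dom (l : Fin dm → Fin r → ℝ) : IsOpen (Ch l ×ˢ (Set.univ : Set (Wsp dm))) :=
  (isOpen_Ch l).prod isOpen_univ

lemma contDiffOn_Qe (κ : ℝ) (E : Matrix (Fin dm) (Fin dm) ℝ) (l : Fin dm → Fin r → ℝ) :
    ContDiffOn ℝ ∞ (Qe κ E l) (Ch l ×ˢ Set.univ) := fun p hp =>
  (contDiffAt_Qe κ E l (p := p) hp.1).contDiffWithinAt

lemma coer {κ : ℝ} (hκ : 0 < κ) {E : Matrix (Fin dm) (Fin dm) ℝ} (hE : E * Eᵀ = 1) (l : Fin dm → Fin r → ℝ)
    {𝒞 : Set (Cfg r)} (hC : IsCompact 𝒞) (hs : 𝒞 ⊆ Ch l) :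
    ∃ c : ℝ, 0 < c ∧ ∀ η ∈ 𝒞, ∀ w : Wsp dm, c * ‖w‖ ^ 2 ≤ Qe κ E l (η, w) := by
  have h0 : ∀ η : Cfg r, Qe κ E l (η, 0) = 0 := by
    intro η
    have := Qe_smul_right κ E l η 0 0
    simpa using this
  have hK : IsCompact (𝒞 ×ˢ Metric.sphere (0 : Wsp dm) 1) := hC.prod (isCompact_sphere 0 1)
  rcases (𝒞 ×ˢ Metric.sphere (0 : Wsp dm) 1).eq_empty_or_nonempty with he | hne
  · refine ⟨1, one_pos, fun η hη w => ?_⟩
    by_cases hw : w = 0
    · rw [hw, h0]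
      simp
    · exfalso
      have : (η, ‖w‖⁻¹ • w) ∈ 𝒞 ×ˢ Metric.sphere (0 : Wsp dm) 1 := by
        refine ⟨hη, ?_⟩
        simp [norm_smul, hw]
      rw [he] at this
      exact this
  · have hc : ContinuousOn (Qe κ E l) (𝒞 ×ˢ Metric.sphere (0 : Wsp dm) 1) :=
      (contDiffOn_Qe κ E l).continuousOn.mono (Set.prod_mono hs (Set.subset_univ _))
    obtain ⟨p, hp, hmin⟩ := hK.exists_isMinOn hne hc
    have hp0 : p.2 ≠ 0 := by
      intro h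
      have := hp.2
      rw [h] at this
      simp at this
    refine ⟨Qe κ E l p, Qe_pos hκ hE l (hs hp.1) hp0, fun η hη w => ?_⟩
    by_cases hw : w = 0
    · rw [hw, h0]
      simp
    · have hw' : ‖w‖ ≠ 0 := norm_ne_zero_iff.2 hw
      have h1 : (η, ‖w‖⁻¹ • w) ∈ 𝒞 ×ˢ Metric.sphere (0 : Wsp dm) 1 := by
        refine ⟨hη, ?_⟩
        simp [norm_smul, hw]
      have h2 : Qe κ E l p ≤ Qe κ E l (η, ‖w‖⁻¹ • w) := hmin h1
      have h3 : Qe κ E l (η, w) = ‖w‖ ^ 2 * Qe κ E l (η, ‖w‖⁻¹ • w) := by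
        rw [← Qe_smul_right, smul_smul, mul_inv_cancel₀ hw', one_smul]
      rw [h3, mul_comm]
      exact mul_le_mul_of_nonneg_left h2 (sq_nonneg _)

lemma dQe {κ : ℝ} {E : Matrix (Fin dm) (Fin dm) ℝ} (l : Fin dm → Fin r → ℝ)
    {𝒞 : Set (Cfg r)} (hC : IsCompact 𝒞) (hs : 𝒞 ⊆ Ch l) :
    ∃ C : ℝ, 0 ≤ C ∧ ∀ η ∈ 𝒞, ∀ w : Wsp dm, ‖fderiv ℝ (Qe κ E l) (η, w)‖ ≤ C * (1 + ‖w‖ ^ 2) := by
  have hK : IsCompact (𝒞 ×ˢ Metric.closedBall (0 : Wsp dm) 1) := hC.prod (isCompact_closedBall 0 1)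
  have hc : ContinuousOn (fderiv ℝ (Qe κ E l)) (𝒞 ×ˢ Metric.closedBall (0 : Wsp dm) 1) :=
    ((contDiffOn_Qe κ E l).continuousOn_fderiv_of_isOpen (isOpen_dom l) (by simp)).mono
      (Set.prod_mono hs (Set.subset_univ _))
  obtain ⟨C, hCb⟩ := hK.exists_bound_of_continuousOn hc
  refine ⟨max C 0, le_max_right _ _, fun η hη w => ?_⟩
  by_cases hw : ‖w‖ ≤ 1
  · have h1 := hCb (η, w) ⟨hη, by simpa using hw⟩
    calc ‖fderiv ℝ (Qe κ E l) (η, w)‖ ≤ C := h1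
      _ ≤ max C 0 * 1 := by rw [mul_one]; exact le_max_left _ _
      _ ≤ _ := mul_le_mul_of_nonneg_left (by nlinarith [sq_nonneg ‖w‖]) (le_max_right _ _)
  · push Not at hw
    have hpos : 0 < ‖w‖ := lt_trans one_pos hw
    set Λ : Cfg r × Wsp dm →L[ℝ] Cfg r × Wsp dm :=
      (ContinuousLinearMap.id ℝ (Cfg r)).prodMap (‖w‖⁻¹ • ContinuousLinearMap.id ℝ (Wsp dm)) with hΛ
    have hQ : Qe κ E l = fun p => ‖w‖ ^ 2 * Qe κ E l (Λ p) := by
      funext p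
      have : Λ p = (p.1, ‖w‖⁻¹ • p.2) := rfl
      rw [this, ← Qe_smul_right, smul_smul, mul_inv_cancel₀ hpos.ne', one_smul]
    have hin : Λ (η, w) ∈ 𝒞 ×ˢ Metric.closedBall (0 : Wsp dm) 1 := by
      refine ⟨hη, ?_⟩
      change ‖w‖⁻¹ • w ∈ _
      simp [norm_smul, hpos.ne']
    have hd : DifferentiableAt ℝ (Qe κ E l) (Λ (η, w)) :=
      (contDiffAt_Qe κ E l (p := Λ (η, w)) (hs hin.1)).differentiableAt (by simp)
    have hf : HasFDerivAt (Qe κ E l) (‖w‖ ^ 2 • (fderiv ℝ (Qe κ E l) (Λ (η, w))).comp Λ) (η, w) := by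
      have h := (hd.hasFDerivAt.comp (η, w) Λ.hasFDerivAt).const_smul (‖w‖ ^ 2)
      rw [hQ]
      refine HasFDerivAt.congr_fderiv (h.congr_of_eventuallyEq (Eventually.of_forall fun p => rfl)) ?_
      rw [← hQ]
    rw [hf.fderiv, norm_smul]
    have hΛn : ‖Λ‖ ≤ 1 := by
      refine Λ.opNorm_le_bound zero_le_one fun p => ?_
      rw [one_mul]
      have : Λ p = (p.1, ‖w‖⁻¹ • p.2) := rfl
      rw [this, Prod.norm_def, Prod.norm_def]
      refine max_le_max le_rfl ?_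
      dsimp only
      rw [norm_smul, norm_inv, norm_norm]
      calc ‖w‖⁻¹ * ‖p.2‖ ≤ 1 * ‖p.2‖ := mul_le_mul_of_nonneg_right (inv_le_one_of_one_le₀ hw.le) (norm_nonneg _)
        _ = _ := one_mul _
    have h2 : ‖(fderiv ℝ (Qe κ E l) (Λ (η, w))).comp Λ‖ ≤ max C 0 := by
      refine (ContinuousLinearMap.opNorm_comp_le _ _).trans ?_
      calc _ ≤ max C 0 * 1 := mul_le_mul ((hCb _ hin).trans (le_max_left _ _)) hΛn (norm_nonneg _) (le_max_right _ _)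
        _ = _ := mul_one _
    have h3 : ‖‖w‖ ^ 2‖ = ‖w‖ ^ 2 := by
      rw [Real.norm_eq_abs, abs_of_nonneg (sq_nonneg _)]
    rw [h3]
    calc _ ≤ ‖w‖ ^ 2 * max C 0 := mul_le_mul_of_nonneg_left h2 (sq_nonneg _)
      _ ≤ _ := by
        rw [mul_comm]
        exact mul_le_mul_of_nonneg_left (by linarith) (le_max_right _ _)

lemma one_add_le {c : ℝ} (hc : 0 < c) {x : ℝ} (hx : 0 ≤ x) : 1 + x ≤ (1 + 1 / c) * Real.exp (c * x) := by
  have h1 : 1 ≤ Real.exp (c * x) := Real.one_le_exp (by positivity)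
  have h2 : c * x ≤ Real.exp (c * x) := by
    have := Real.add_one_le_exp (c * x)
    linarith
  have h3 : x ≤ 1 / c * Real.exp (c * x) := by
    rw [one_div, ← div_eq_inv_mul, le_div_iff₀ hc]
    linarith
  nlinarith

/-- normalising factor -/
noncomputable def He (κ : ℝ) (l : Fin dm → Fin r → ℝ) (η : Cfg r) : ℝ := (Real.sqrt (Ie κ l η))⁻¹

lemma contDiffAt_He {κ : ℝ} (hκ : 0 < κ) (l : Fin dm → Fin r → ℝ) {η : Cfg r} (h : η ∈ Ch l) :
    ContDiffAt ℝ ∞ (He κ l) η := by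
  unfold He
  exact ((contDiffAt_Ie hκ l h).sqrt (Ie_pos hκ l h).ne').inv (Real.sqrt_pos.2 (Ie_pos hκ l h)).ne'

lemma bdG {κ : ℝ} (hκ : 0 < κ) {E : Matrix (Fin dm) (Fin dm) ℝ} (hE : E * Eᵀ = 1) (l : Fin dm → Fin r → ℝ)
    {𝒞 : Set (Cfg r)} (hC : IsCompact 𝒞) (hs : 𝒞 ⊆ Ch l) :
    ∃ C c : ℝ, 0 < c ∧ ∀ η ∈ 𝒞, ∀ w : Wsp dm,
      |Ge κ E l (η, w)| ≤ C * Real.exp (-(c * ‖w‖ ^ 2)) ∧
      ‖fderiv ℝ (Ge κ E l) (η, w)‖ ≤ C * Real.exp (-(c * ‖w‖ ^ 2)) := by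
  obtain ⟨c, hc, hco⟩ := coer hκ hE l hC hs
  obtain ⟨C1, hC1, hdQ⟩ := dQe (κ := κ) (E := E) l hC hs
  have hHon : ContDiffOn ℝ ∞ (He κ l) (Ch l) := fun η hη => (contDiffAt_He hκ l hη).contDiffWithinAt
  obtain ⟨C2, hC2⟩ := hC.exists_bound_of_continuousOn (hHon.continuousOn.mono hs)
  obtain ⟨C3, hC3⟩ := hC.exists_bound_of_continuousOn
    ((hHon.continuousOn_fderiv_of_isOpen (isOpen_Ch l) (by simp)).mono hs)
  have hC2' : ∀ η ∈ 𝒞, ‖He κ l η‖ ≤ max C2 0 := fun η hη => (hC2 η hη).trans (le_max_left _ _)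
  have hC3' : ∀ η ∈ 𝒞, ‖fderiv ℝ (He κ l) η‖ ≤ max C3 0 := fun η hη => (hC3 η hη).trans (le_max_left _ _)
  have hE1 : ∀ η ∈ 𝒞, ∀ w : Wsp dm, Real.exp (-(1 / 2) * Qe κ E l (η, w)) ≤ Real.exp (-(c / 2 * ‖w‖ ^ 2)) := by
    intro η hη w
    refine Real.exp_le_exp.2 ?_
    have := hco η hη w
    linarith
  have hE2 : ∀ w : Wsp dm, Real.exp (-(c / 2 * ‖w‖ ^ 2)) = Real.exp (-(c / 4 * ‖w‖ ^ 2)) * Real.exp (-(c / 4 * ‖w‖ ^ 2)) := by
    intro w
    rw [← Real.exp_add]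
    congr 1
    ring
  have hE3 : ∀ w : Wsp dm, Real.exp (-(c / 4 * ‖w‖ ^ 2)) ≤ 1 := by
    intro w
    rw [Real.exp_le_one_iff]
    have : 0 ≤ c / 4 * ‖w‖ ^ 2 := by positivity
    linarith
  have hE4 : ∀ w : Wsp dm, (1 + ‖w‖ ^ 2) * Real.exp (-(c / 4 * ‖w‖ ^ 2)) ≤ 1 + 1 / (c / 4) := by
    intro w
    have h1 := one_add_le (c := c / 4) (by positivity) (sq_nonneg ‖w‖)
    calc _ ≤ ((1 + 1 / (c / 4)) * Real.exp (c / 4 * ‖w‖ ^ 2)) * Real.exp (-(c / 4 * ‖w‖ ^ 2)) :=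
          mul_le_mul_of_nonneg_right h1 (Real.exp_pos _).le
      _ = _ := by
        rw [mul_assoc, ← Real.exp_add]
        simp
  have hM2 : 0 ≤ max C2 0 := le_max_right _ _
  have hM3 : 0 ≤ max C3 0 := le_max_right _ _
  have hk : 0 ≤ 1 + 1 / (c / 4) := by positivity
  refine ⟨max C2 0 + max C3 0 + max C2 0 * (1 / 2 * C1 * (1 + 1 / (c / 4))), c / 4, by positivity, fun η hη w => ⟨?_, ?_⟩⟩
  · have h1 : Ge κ E l (η, w) = Real.exp (-(1 / 2) * Qe κ E l (η, w)) * He κ l η := by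
      unfold Ge He
      rw [div_eq_mul_inv]
    rw [h1, abs_mul, abs_of_pos (Real.exp_pos _)]
    calc _ ≤ Real.exp (-(c / 4 * ‖w‖ ^ 2)) * max C2 0 := by
          refine mul_le_mul ?_ (hC2' η hη) (abs_nonneg _) (Real.exp_pos _).le
          refine (hE1 η hη w).trans ?_
          rw [hE2]
          exact mul_le_of_le_one_left (Real.exp_pos _).le (hE3 w)
      _ = max C2 0 * Real.exp (-(c / 4 * ‖w‖ ^ 2)) := mul_comm _ _
      _ ≤ _ := by
        refine mul_le_mul_of_nonneg_right ?_ (Real.exp_pos _).le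
        have : 0 ≤ max C2 0 * (1 / 2 * C1 * (1 + 1 / (c / 4))) := by positivity
        linarith
  · have hQd : HasFDerivAt (Qe κ E l) (fderiv ℝ (Qe κ E l) (η, w)) (η, w) :=
      ((contDiffAt_Qe κ E l (p := (η, w)) (hs hη)).differentiableAt (by simp)).hasFDerivAt
    have hHd : HasFDerivAt (He κ l) (fderiv ℝ (He κ l) η) η :=
      ((contDiffAt_He hκ l (hs hη)).differentiableAt (by simp)).hasFDerivAt
    have hHd' : HasFDerivAt (fun p : Cfg r × Wsp dm => He κ l p.1)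
        ((fderiv ℝ (He κ l) η).comp (ContinuousLinearMap.fst ℝ (Cfg r) (Wsp dm))) (η, w) :=
      HasFDerivAt.comp (g := He κ l) (η, w) hHd hasFDerivAt_fst
    have hG : HasFDerivAt (Ge κ E l) (Real.exp (-(1 / 2) * Qe κ E l (η, w)) •
        ((fderiv ℝ (He κ l) η).comp (ContinuousLinearMap.fst ℝ (Cfg r) (Wsp dm))) +
        He κ l η • (Real.exp (-(1 / 2) * Qe κ E l (η, w)) • (-(1 / 2) : ℝ) • fderiv ℝ (Qe κ E l) (η, w))) (η, w) := by
      have h := ((hQd.const_mul (-(1 / 2))).exp).mul hHd'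
      refine h.congr_of_eventuallyEq (Eventually.of_forall fun p => ?_)
      change Real.exp (-(1 / 2) * Qe κ E l p) / Real.sqrt (Ie κ l p.1) = _
      rw [div_eq_mul_inv]
      rfl
    rw [hG.fderiv]
    have hexp0 : 0 ≤ Real.exp (-(1 / 2) * Qe κ E l (η, w)) := (Real.exp_pos _).le
    have n1 : ‖Real.exp (-(1 / 2) * Qe κ E l (η, w)) •
        ((fderiv ℝ (He κ l) η).comp (ContinuousLinearMap.fst ℝ (Cfg r) (Wsp dm)))‖ ≤
        Real.exp (-(c / 4 * ‖w‖ ^ 2)) * max C3 0 := by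
      rw [norm_smul, Real.norm_eq_abs, abs_of_nonneg hexp0]
      refine mul_le_mul ?_ ?_ (norm_nonneg _) (Real.exp_pos _).le
      · refine (hE1 η hη w).trans ?_
        rw [hE2]
        exact mul_le_of_le_one_left (Real.exp_pos _).le (hE3 w)
      · refine (ContinuousLinearMap.opNorm_comp_le _ _).trans ?_
        calc _ ≤ max C3 0 * 1 := mul_le_mul (hC3' η hη) (ContinuousLinearMap.norm_fst_le _ _ _) (norm_nonneg _) hM3
          _ = _ := mul_one _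
    have n2 : ‖He κ l η • (Real.exp (-(1 / 2) * Qe κ E l (η, w)) • (-(1 / 2) : ℝ) • fderiv ℝ (Qe κ E l) (η, w))‖ ≤
        max C2 0 * (1 / 2 * C1 * (1 + 1 / (c / 4))) * Real.exp (-(c / 4 * ‖w‖ ^ 2)) := by
      rw [norm_smul, norm_smul, norm_smul, Real.norm_eq_abs (Real.exp _), abs_of_nonneg hexp0]
      have e1 : ‖(-(1 / 2) : ℝ)‖ = 1 / 2 := by norm_num
      rw [e1]
      have e2 : Real.exp (-(1 / 2) * Qe κ E l (η, w)) * (1 / 2 * ‖fderiv ℝ (Qe κ E l) (η, w)‖) ≤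
          (1 / 2 * C1 * (1 + 1 / (c / 4))) * Real.exp (-(c / 4 * ‖w‖ ^ 2)) := by
        calc _ ≤ Real.exp (-(c / 2 * ‖w‖ ^ 2)) * (1 / 2 * (C1 * (1 + ‖w‖ ^ 2))) := by
              refine mul_le_mul (hE1 η hη w) ?_ (by positivity) (Real.exp_pos _).le
              exact mul_le_mul_of_nonneg_left (hdQ η hη w) (by norm_num)
          _ = (1 / 2 * C1) * ((1 + ‖w‖ ^ 2) * Real.exp (-(c / 4 * ‖w‖ ^ 2))) * Real.exp (-(c / 4 * ‖w‖ ^ 2)) := by
              rw [hE2]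
              ring
          _ ≤ _ := by
              refine mul_le_mul_of_nonneg_right ?_ (Real.exp_pos _).le
              exact mul_le_mul_of_nonneg_left (hE4 w) (by positivity)
      calc _ ≤ max C2 0 * ((1 / 2 * C1 * (1 + 1 / (c / 4))) * Real.exp (-(c / 4 * ‖w‖ ^ 2))) :=
            mul_le_mul (hC2' η hη) e2 (by positivity) hM2
        _ = _ := by ring
    refine (norm_add_le _ _).trans ((add_le_add n1 n2).trans ?_)
    have : 0 ≤ max C2 0 * Real.exp (-(c / 4 * ‖w‖ ^ 2)) := by positivity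
    nlinarith

end Vale.Agent.P353.Z.AX.BosP
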