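import Vale.Agent.P353.AN.F.Stmt
import Vale.Agent.P353.AN.B.Stmt

/-! # P353, all `N`, block X: the vacuum bundle — definitions (architect helper667)

`M a`, `a < r`, are commuting antisymmetric real matrices on the colour space `m` (`M a = S.Dm φ (c a)` for a basis `c` of the centre of
`h`), `D_i(η) = ∑_a η_{ia} M_a`, `η : Cfg r`. For `η` off the collision set the fermionic vacuum space `F0(η) = S.F0 φ (DM M η) (Om η)` is the
image of a fixed space `K` under a unitary operator `U(η) = exp(Qu(b(η)))`, `b(η)` a real antisymmetric matrix on `ℝ^16 ⊗ m`. -/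

open MeasureTheory Filter Topology Matrix
open scoped ContDiff

namespace Vale.Agent.P353.Z

variable {d dh dm r : ℕ} {F : Type*} [NormedAddCommGroup F] [InnerProductSpace ℂ F]

/-- `D_i(η) = ∑_a η_{ia} M_a` -/
noncomputable def DM (M : Fin r → Matrix (Fin dm) (Fin dm) ℝ) (η : Cfg r) (i : Fin 9) : Matrix (Fin dm) (Fin dm) ℝ :=
  ∑ a, η (i, a) • M a

/-- commuting antisymmetric matrices; `∑ t_a M_a` is invertible -/
structure Tor (M : Fin r → Matrix (Fin dm) (Fin dm) ℝ) (t : Fin r → ℝ) : Prop where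
  anti : ∀ a, (M a)ᵀ = -M a
  comm : ∀ a b, M a * M b = M b * M a
  reg : (∑ a, t a • M a).det ≠ 0

/-- `∑_k f_k e_k e_kᵀ`, `e_k` = rows of `E` -/
noncomputable def sp (E : Matrix (Fin dm) (Fin dm) ℝ) (f : Fin dm → ℝ) : Matrix (Fin dm) (Fin dm) ℝ :=
  Eᵀ * Matrix.diagonal f * E

/-- root data: complex structure `Kc` on `m`, orthonormal joint eigenbasis (rows of `E`) of the symmetric matrices `-M_a Kc`, root
covectors `l k` (positive at `t`) -/
structure RD (M : Fin r → Matrix (Fin dm) (Fin dm) ℝ) (t : Fin r → ℝ) (Kc E : Matrix (Fin dm) (Fin dm) ℝ)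
    (l : Fin dm → Fin r → ℝ) : Prop where
  anti : Kcᵀ = -Kc
  sq : Kc * Kc = -1
  orth : E * Eᵀ = 1
  M_eq : ∀ a, M a = sp E (fun k => l k a) * Kc
  pos : ∀ k, 0 < ∑ a, l k a * t a
  comm : ∀ f : (Fin r → ℝ) → ℝ, Kc * sp E (fun k => f (l k)) = sp E (fun k => f (l k)) * Kc

/-- `z_i = ∑_a l_a η_{ia}`: value of the root `l` on `η` -/
noncomputable def zk (l : Fin r → ℝ) (η : Cfg r) (i : Fin 9) : ℝ := ∑ a, l a * η (i, a)

/-- `|z|` -/
noncomputable def nz (z : Fin 9 → ℝ) : ℝ := Real.sqrt (∑ i, z i ^ 2)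

/-- `|z'|`, `z' = (z_0, …, z_7)` -/
noncomputable def nz8 (z : Fin 9 → ℝ) : ℝ := Real.sqrt (∑ j : Fin 8, z j.castSucc ^ 2)

/-- angle between `z` and the axis `8` -/
noncomputable def ang (z : Fin 9 → ℝ) : ℝ := Real.arccos (z 8 / nz z)

/-- path of unit vectors from the axis `8` (`τ = 0`) to `z/|z|` (`τ = 1`) -/
noncomputable def nn (τ : ℝ) (z : Fin 9 → ℝ) (i : Fin 9) : ℝ :=
  Fin.lastCases (motive := fun _ => ℝ) (Real.cos (τ * ang z)) (fun j => Real.sin (τ * ang z) * (z j.castSucc / nz8 z)) i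

/-- rotation parameters: half the angle times the unit vector `z'/|z'|` -/
noncomputable def be (z : Fin 9 → ℝ) (j : Fin 8) : ℝ := ang z / 2 * (z j.castSucc / nz8 z)

/-- `Ω(η) = κ ∑_k |z_k(η)| e_k e_kᵀ` -/
noncomputable def OmE (κ : ℝ) (E : Matrix (Fin dm) (Fin dm) ℝ) (l : Fin dm → Fin r → ℝ) (η : Cfg r) :
    Matrix (Fin dm) (Fin dm) ℝ := κ • sp E fun k => nz (zk (l k) η)

/-- `Ω` at the reference point `e_8 ⊗ t` -/
noncomputable def OmT (κ : ℝ) (E : Matrix (Fin dm) (Fin dm) ℝ) (l : Fin dm → Fin r → ℝ) (t : Fin r → ℝ) :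
    Matrix (Fin dm) (Fin dm) ℝ := κ • sp E fun k => ∑ a, l k a * t a

/-- `D` at the reference point `e_8 ⊗ t` -/
noncomputable def DT (M : Fin r → Matrix (Fin dm) (Fin dm) ℝ) (t : Fin r → ℝ) (i : Fin 9) : Matrix (Fin dm) (Fin dm) ℝ :=
  if i = 8 then ∑ a, t a • M a else 0

/-- real antisymmetric matrix on `ℝ^16 ⊗ m` -/
structure RA (b : Matrix (Fin 16 × Fin dm) (Fin 16 × Fin dm) ℂ) : Prop where
  real : ∀ p q, (b p q).im = 0
  anti : bᵀ = -b

/-- real orthogonal complex structure on `ℝ^16 ⊗ m` -/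
structure CStr (J : Matrix (Fin 16 × Fin dm) (Fin 16 × Fin dm) ℂ) : Prop extends RA J where
  sq : J * J = -1

namespace Setup

variable (S : Setup d F) (φ : Spl dh dm d)

/-- `θ_p`, `p = (α, B)`, `B ∈ m` -/
noncomputable def tm (p : Fin 16 × Fin dm) : F →L[ℂ] F := S.th p.1 (φ (Sum.inr p.2))

/-- `½ ∑ b_{pq} θ_p θ_q` -/
noncomputable def Qu (b : Matrix (Fin 16 × Fin dm) (Fin 16 × Fin dm) ℂ) : F →L[ℂ] F :=
  (1 / 2 : ℂ) • ∑ p : Fin 16 × Fin dm, ∑ q : Fin 16 × Fin dm, b p q • (S.tm φ p * S.tm φ q)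

/-- common kernel of the operators `∑_q 𝒜_{pq} θ_q` -/
noncomputable def Kr (𝒜 : Matrix (Fin 16 × Fin dm) (Fin 16 × Fin dm) ℂ) : Submodule ℂ F where
  carrier := {v | ∀ p, ∑ q, 𝒜 p q • S.tm φ q v = 0}
  add_mem' := by
    intro a b ha hb p
    simp only [map_add, smul_add, Finset.sum_add_distrib]
    rw [ha p, hb p, add_zero]
  zero_mem' := by
    intro p
    simp
  smul_mem' := by
    intro c a ha p
    simp only [map_smul, smul_comm _ c]
    rw [← Finset.smul_sum, ha p, smul_zero]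

/-- generator of the rotation: `∑_{j<8} γ^jγ^8 ⊗ β_j(z_k(η)) e_ke_kᵀ` -/
noncomputable def bb (E : Matrix (Fin dm) (Fin dm) ℝ) (l : Fin dm → Fin r → ℝ) (η : Cfg r) :
    Matrix (Fin 16 × Fin dm) (Fin 16 × Fin dm) ℂ :=
  Matrix.of fun p q => ∑ j : Fin 8, (S.g j.castSucc * S.g 8) p.1 q.1 *
    ((sp E (fun k => be (zk (l k) η) j) p.2 q.2 : ℝ) : ℂ)

/-- `J_τ(η) = ∑_i γ^i ⊗ n_i(τ) Kc` -/
noncomputable def JJ (Kc E : Matrix (Fin dm) (Fin dm) ℝ) (l : Fin dm → Fin r → ℝ) (τ : ℝ) (η : Cfg r) :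
    Matrix (Fin 16 × Fin dm) (Fin 16 × Fin dm) ℂ :=
  Matrix.of fun p q => ∑ i : Fin 9, S.g i p.1 q.1 * (((sp E (fun k => nn τ (zk (l k) η) i) * Kc) p.2 q.2 : ℝ) : ℂ)

/-- `J_0 = γ^8 ⊗ Kc` -/
noncomputable def J0 (Kc : Matrix (Fin dm) (Fin dm) ℝ) : Matrix (Fin 16 × Fin dm) (Fin 16 × Fin dm) ℂ :=
  Matrix.of fun p q => S.g 8 p.1 q.1 * ((Kc p.2 q.2 : ℝ) : ℂ)

/-- the unitary operators `U(η) = exp(Qu(b(η)))` -/
noncomputable def UU (E : Matrix (Fin dm) (Fin dm) ℝ) (l : Fin dm → Fin r → ℝ) (η : Cfg r) : F →L[ℂ] F :=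
  NormedSpace.exp (S.Qu φ (S.bb E l η))

end Setup

end Vale.Agent.P353.Z
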