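import Vale.Agent.P353.AN.X.Defs

/-! # P353, all `N`, block X: the vacuum bundle — statements (architect helper667)

A prover delivers `theorem <name> … : XxStmt …` in `Vale/Agent/P353/AN/X/<Task>.lean`, importing this file and landed files (`AN/B/Om.lean`,
`Z/U/*`), with other statements as hypotheses. Notation `θ_p = S.tm φ p`, `{θ_p, θ_q} = δ_{pq}` (`S.th_anti`), `θ_p` self-adjoint (`S.th_sa`). -/

open MeasureTheory Filter Topology Matrix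
open scoped ContDiff

namespace Vale.Agent.P353.Z.AX

variable {d dh dm : ℕ} {F : Type*} [NormedAddCommGroup F] [InnerProductSpace ℂ F]

/-- **X-Root** root data exist. PROOF. `A = ∑ t_aM_a` is antisymmetric and invertible, `AᵀA` is positive definite; `P` = its positive square
root, which commutes with the commutant (`OmPf.omp_sqrt` in `AN/B/Om.lean`; all `M_a` commute with `AᵀA = -A²`). `Kc = A P⁻¹`: commutes with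
all `M_a`, `Kcᵀ = -Kc`, `Kc² = A²P⁻² = -1`. `T_a = -M_a Kc` is symmetric, the `T_a` commute with each other and with `Kc`, and `M_a = T_a Kc`.
Simultaneous diagonalisation of commuting real symmetric matrices (`Mathlib/Analysis/InnerProductSpace/JointEigenspace`, or induction):
orthonormal `e_k` with `T_ae_k = l_k(a)e_k`; rows of `E`; `T_a = sp E (l · a)`. `pos`: `∑t_aT_a = -A Kc = P > 0`. `comm`: `Kc` commutes with `T_a`,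
so `⟨e_j, Kc e_k⟩(l_j(a) - l_k(a)) = 0` for all `a`: nonzero only if `l_j = l_k`. -/
def RootStmt : Prop := ∀ (r dm : ℕ) (M : Fin r → Matrix (Fin dm) (Fin dm) ℝ) (t : Fin r → ℝ), Tor M t →
  ∃ (Kc E : Matrix (Fin dm) (Fin dm) ℝ) (l : Fin dm → Fin r → ℝ), RD M t Kc E l

/-- **X-OmU** uniqueness of `Ω`. PROOF: `Om'` commutes with `∑D_i²` (its square is a multiple), so `Om'Om = OmOm'` (`comm`), hence
`(Om - Om')(Om + Om') = 0`, and `Om + Om'` is positive definite, so invertible. -/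
def OmUStmt : Prop := ∀ (dm : ℕ) (κ : ℝ) (D : Fin 9 → Matrix (Fin dm) (Fin dm) ℝ) (Om Om' : Matrix (Fin dm) (Fin dm) ℝ),
  0 < κ → IsOm κ D Om → IsOm κ D Om' → Om = Om'

/-- **X-Vec** the functions of one root `z`. PROOF: `cos(ang z) = z_8/|z|`, `sin(ang z) = √(1 - z_8²/|z|²) = |z'|/|z|` (`Real.cos_arccos`,
`Real.sin_arccos`, `|z_8| ≤ |z|`, `|z|² = |z'|² + z_8²`); `∑_{j<8}(z_j/|z'|)² = 1`; scaling: `|Rz| = R|z|`. -/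
def VecStmt : Prop := ∀ z : Fin 9 → ℝ, nz8 z ≠ 0 →
  0 < nz z ∧ (∀ i, nn 1 z i = z i / nz z) ∧ (∀ τ, ∑ i, nn τ z i ^ 2 = 1) ∧ (nn 0 z 8 = 1 ∧ ∀ j : Fin 8, nn 0 z j.castSucc = 0) ∧
  (∀ τ, HasDerivAt (fun s => nn s z 8) (-2 * ∑ j : Fin 8, be z j * nn τ z j.castSucc) τ) ∧
  (∀ τ (j : Fin 8), HasDerivAt (fun s => nn s z j.castSucc) (2 * be z j * nn τ z 8) τ) ∧
  (∀ (τ : ℝ) (i j : Fin 8), be z i * nn τ z j.castSucc = be z j * nn τ z i.castSucc) ∧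
  ∀ R : ℝ, 0 < R → (∀ j, be (fun i => R * z i) j = be z j) ∧ nz (fun i => R * z i) = R * nz z

/-- **X-Sp** calculus of `sp`. PROOF: `E Eᵀ = Eᵀ E = 1`. -/
def SpStmt : Prop := ∀ (dm : ℕ) (E : Matrix (Fin dm) (Fin dm) ℝ), E * Eᵀ = 1 →
  (∀ f g, sp E f * sp E g = sp E (fun k => f k * g k)) ∧ (∀ f g, sp E f + sp E g = sp E (fun k => f k + g k)) ∧
  (∀ (c : ℝ) f, c • sp E f = sp E (fun k => c * f k)) ∧ sp E (fun _ => 1) = 1 ∧ (∀ f, (sp E f)ᵀ = sp E f) ∧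
  (∀ f, (sp E f).det = ∏ k, f k) ∧ (∀ f (v : Fin dm → ℝ), v ⬝ᵥ (sp E f *ᵥ v) = ∑ k, f k * (E *ᵥ v) k ^ 2) ∧
  (∀ f, (∀ k, 0 < f k) → ∀ v : Fin dm → ℝ, v ≠ 0 → 0 < v ⬝ᵥ (sp E f *ᵥ v)) ∧
  ∀ (f g : Fin dm → ℝ) (M : Matrix (Fin dm) (Fin dm) ℝ), (∀ j k, f j = f k → g j = g k) →
    M * sp E f = sp E f * M → M * sp E g = sp E g * M

/-- **X-OmP** `OmE` is the matrix `Ω(η)`. PROOF (X-Sp). `DM M η i = sp(z_{k,i}) Kc` (`M_eq`), `∑D_i² = -sp(|z_k|²)` (`Kc² = -1`, `Kc` commutes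
with `sp(f ∘ l)`), `det(∑D_i²) = ±∏|z_k|²`, so all `|z_k| > 0`; `OmE = κ sp(|z_k|)`. Reference: `DT M t 8 = sp(∑l_k(a)t_a) Kc`. -/
def OmPStmt : Prop := ∀ (r dm : ℕ) (κ : ℝ) (M : Fin r → Matrix (Fin dm) (Fin dm) ℝ) (t : Fin r → ℝ)
  (Kc E : Matrix (Fin dm) (Fin dm) ℝ) (l : Fin dm → Fin r → ℝ), 0 < κ → RD M t Kc E l →
  (∀ (η : Cfg r) i, DM M η i = sp E (fun k => zk (l k) η i) * Kc) ∧
  (∀ η : Cfg r, (∑ i, DM M η i * DM M η i).det ≠ 0 → (∀ k, 0 < nz (zk (l k) η)) ∧ IsOm κ (DM M η) (OmE κ E l η)) ∧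
  (∀ η : Cfg r, (∀ k, 0 < nz (zk (l k) η)) → (∑ i, DM M η i * DM M η i).det ≠ 0) ∧
  IsOm κ (DT M t) (OmT κ E l t) ∧ (∀ i, (DT M t i)ᵀ = -DT M t i) ∧ (∀ i j, DT M t i * DT M t j = DT M t j * DT M t i)

/-- **X-Path** the path of complex structures. PROOF. Entrywise: a sum over `(α', B')` of products splits (`γ`-part times `m`-part), i.e.
`(x ⊗ X)(y ⊗ Y) = xy ⊗ XY`. `bb`: `γ^jγ^8` is antisymmetric (`g_symm`, `g_anti`), `sp` symmetric, real entries (`g_real`). `JJ`: `γ^i` symmetric, `sp(f∘l) Kc`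
antisymmetric; `JJ² = ∑_{ij}γ^iγ^j ⊗ sp(n_in_j)Kc² = -∑_i sp(n_i²) = -1`. `[bb, JJ_τ]`: `[γ^jγ^8, γ^8] = 2γ^j`, `[γ^iγ^8, γ^j] = -2δ_{ij}γ^8` (`i,j < 8`) up
to the part symmetric under `i ↔ j`, use `be_i n_j = be_j n_i` (X-Vec) or `γ^iγ^8γ^j - γ^jγ^iγ^8 = -(γ^iγ^j + γ^jγ^i)γ^8`. Derivatives: X-Vec. -/
def PathStmt (S : Setup d F) : Prop := ∀ (r dm : ℕ) (M : Fin r → Matrix (Fin dm) (Fin dm) ℝ) (t : Fin r → ℝ)
  (Kc E : Matrix (Fin dm) (Fin dm) ℝ) (l : Fin dm → Fin r → ℝ), RD M t Kc E l →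
  (∀ η : Cfg r, RA (S.bb E l η)) ∧ CStr (S.J0 Kc) ∧
  ∀ η : Cfg r, (∀ k, nz8 (zk (l k) η) ≠ 0) → (∀ τ, CStr (S.JJ Kc E l τ η)) ∧ S.JJ Kc E l 0 η = S.J0 Kc ∧
    ∀ τ p q, HasDerivAt (fun s => S.JJ Kc E l s η p q)
      ((S.bb E l η * S.JJ Kc E l τ η - S.JJ Kc E l τ η * S.bb E l η) p q) τ

/-- **X-KrF** `F0` in terms of complex structures. PROOF: `P(η) = κ∑γ^i ⊗ sp(z_{k,i})Kc = (1 ⊗ Ω) J_1`, since `z_{k,i} = |z_k| n_i(1)` (X-Vec), so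
`Λ = ½(1 ⊗ Ω)(1 - iJ_1)` and `Ω` is invertible. `Lth p v = ∑_q Lam p q • θ_q v`. Same at the reference point. -/
def KrFStmt (S : Setup d F) (φ : Spl dh dm d) : Prop := ∀ (r : ℕ) (M : Fin r → Matrix (Fin dm) (Fin dm) ℝ) (t : Fin r → ℝ)
  (Kc E : Matrix (Fin dm) (Fin dm) ℝ) (l : Fin dm → Fin r → ℝ), RD M t Kc E l →
  S.Kr φ (1 - Complex.I • S.J0 Kc) = S.F0 φ (DT M t) (OmT S.κ E l t) ∧
  ∀ η : Cfg r, (∀ k, nz8 (zk (l k) η) ≠ 0) →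
    S.Kr φ (1 - Complex.I • S.JJ Kc E l 1 η) = S.F0 φ (DM M η) (OmE S.κ E l η)

/-- **X-Qu** quadratic operators. PROOF: `θ_pθ_qθ_r - θ_rθ_pθ_q = θ_p{θ_q,θ_r} - {θ_p,θ_r}θ_q`; `(θ_pθ_q)^* = θ_qθ_p`; `X` passes two `θ`'s.
`exp` of a skew-adjoint operator is unitary (`NormedSpace.exp_mem_unitary_of_mem_skewAdjoint`, `F` is complete), commutes with whatever commutes
with the exponent (`Commute.exp_left` …). -/
def QuStmt (S : Setup d F) (φ : Spl dh dm d) : Prop := FiniteDimensional ℂ F →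
  ∀ b : Matrix (Fin 16 × Fin dm) (Fin 16 × Fin dm) ℂ, RA b →
  (∀ p, S.Qu φ b * S.tm φ p - S.tm φ p * S.Qu φ b = -∑ q, b p q • S.tm φ q) ∧
  (∀ v w, inner ℂ (S.Qu φ b v) w = -inner ℂ v (S.Qu φ b w)) ∧
  (∀ s : ℝ, (∀ v w, inner ℂ (NormedSpace.exp (s • S.Qu φ b) v) (NormedSpace.exp (s • S.Qu φ b) w) = inner ℂ v w) ∧
    (∀ v, ∃ u, NormedSpace.exp (s • S.Qu φ b) u = v)) ∧
  ∀ X : F →L[ℂ] F, ((∀ p, X * S.tm φ p = S.tm φ p * X) ∨ (∀ p, X * S.tm φ p = -(S.tm φ p * X))) →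
    S.Qu φ b * X = X * S.Qu φ b ∧ ∀ s : ℝ, NormedSpace.exp (s • S.Qu φ b) * X = X * NormedSpace.exp (s • S.Qu φ b)

/-- **X-Tr** transport of the kernels. PROOF. `B = Qu b`, `A_p(τ) = ∑_q 𝒜(τ)_{pq}θ_q`, `W_p(τ) = exp(-τB)A_p(τ)exp(τB)`. By X-Qu
`[A_p, B] = ∑_q(𝒜b)_{pq}θ_q`, so `W_p' = exp(-τB)∑_q(𝒜b + 𝒜')_{pq}θ_q exp(τB) = ∑_r b_{pr}W_r` (`𝒜' + 𝒜b = b𝒜`): linear ODE with
constant coefficients, `W(τ) = exp(τb)W(0)` (or: `∑_p‖W_p(τ)v‖²` has derivative `0` since `b` is real antisymmetric!). So `W(0)v = 0` iff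
`W(τ)v = 0` iff `A_p(τ)exp(τB)v = 0` for all `p`. -/
def TrStmt (S : Setup d F) (φ : Spl dh dm d) : Prop := FiniteDimensional ℂ F →
  ∀ b : Matrix (Fin 16 × Fin dm) (Fin 16 × Fin dm) ℂ, RA b →
  ∀ 𝒜 : ℝ → Matrix (Fin 16 × Fin dm) (Fin 16 × Fin dm) ℂ,
    (∀ τ p q, HasDerivAt (fun s => 𝒜 s p q) ((b * 𝒜 τ - 𝒜 τ * b) p q) τ) →
    ∀ (τ : ℝ) (v : F), v ∈ S.Kr φ (𝒜 0) ↔ NormedSpace.exp (τ • S.Qu φ b) v ∈ S.Kr φ (𝒜 τ)

/-- **X-Two** two-point function. PROOF. `G_{pq} = ⟨v, θ_pθ_qw⟩`. On the kernel `θ_qw = i∑_rJ_{qr}θ_rw`, so `G = iGJᵀ = -iGJ`; and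
`⟨v,θ_p·⟩ = ⟨θ_pv,·⟩ = -i∑J_{pr}⟨θ_rv,·⟩` (`J` real), so `G = -iJG`. With `π = ½(1 - iJ)`: `G = πG`, `Gᵀ = … `, `πGᵀ = 0`, `G + Gᵀ = ⟨v,w⟩`, so `G = π⟨v,w⟩`. Second
part: `∑b_{pq}δ_{pq} = 0`. -/
def TwoStmt (S : Setup d F) (φ : Spl dh dm d) : Prop :=
  ∀ J : Matrix (Fin 16 × Fin dm) (Fin 16 × Fin dm) ℂ, CStr J →
  ∀ v ∈ S.Kr φ (1 - Complex.I • J), ∀ w ∈ S.Kr φ (1 - Complex.I • J),
    (∀ p q, inner ℂ v (S.tm φ p (S.tm φ q w)) = (1 / 2 : ℂ) * ((if p = q then 1 else 0) - Complex.I * J p q) * inner ℂ v w) ∧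
    ∀ b : Matrix (Fin 16 × Fin dm) (Fin 16 × Fin dm) ℂ, bᵀ = -b →
      inner ℂ v (S.Qu φ b w) = -(Complex.I / 4) * (∑ p, ∑ q, b p q * J p q) * inner ℂ v w

/-- **X-Duh** derivative of `exp(A(η))` between vectors. PROOF. `h(τ) = ⟨exp(τA(η))v, D_ξ[exp(τA(·))](η)w⟩`; `(τ,η) ↦ exp(τA(η))` is smooth, so
the mixed derivatives commute: `∂_τD_ξ exp(τA) = D_ξ(A exp(τA)) = (D_ξA)exp(τA) + A D_ξ exp(τA)`; `A` is skew: `h' = ⟨exp(τA)v,(D_ξA)exp(τA)w⟩ = 0`,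
`h(0) = 0`. (Or Duhamel, cf. `AN/A/Dexp.lean`.) -/
def DuhStmt (F : Type*) [NormedAddCommGroup F] [InnerProductSpace ℂ F] : Prop := FiniteDimensional ℂ F →
  ∀ (r : ℕ) (A : Cfg r → F →L[ℂ] F) (s : Set (Cfg r)) (η ξ : Cfg r), IsOpen s → η ∈ s → ContDiffOn ℝ ∞ A s →
  (∀ η' v w, inner ℂ (A η' v) w = -inner ℂ v (A η' w)) → ∀ v w : F,
  (∀ τ : ℝ, 0 ≤ τ → τ ≤ 1 →
    inner ℂ (NormedSpace.exp (τ • A η) v) ((fderiv ℝ A η ξ) (NormedSpace.exp (τ • A η) w)) = 0) →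
  inner ℂ (NormedSpace.exp (A η) v) ((fderiv ℝ (fun η' => NormedSpace.exp (A η')) η ξ) w) = 0

/-- **X-Sm** smoothness off the collisions. PROOF: `zk` is linear in `η`; `√` is smooth at positive numbers, `arccos` on `(-1,1)`
(`Real.contDiffAt_arccos`); `|z_8|/|z| < 1` if `z' ≠ 0`; `Coll L` is closed (finite union of linear subspaces). `Qu` is linear in `b`. The derivative of
`bb` only differentiates the functions `be`. -/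
def SmStmt (S : Setup d F) (φ : Spl dh dm d) : Prop := FiniteDimensional ℂ F →
  ∀ (r : ℕ) (E : Matrix (Fin dm) (Fin dm) ℝ) (l : Fin dm → Fin r → ℝ),
  IsClosed (Coll (Finset.univ.image l)) ∧ (∀ η : Cfg r, η ∉ Coll (Finset.univ.image l) ↔ ∀ k, nz8 (zk (l k) η) ≠ 0) ∧
  ContDiffOn ℝ ∞ (fun η => S.Qu φ (S.bb E l η)) (Coll (Finset.univ.image l))ᶜ ∧
  ContDiffOn ℝ ∞ (fun η => S.UU φ E l η) (Coll (Finset.univ.image l))ᶜ ∧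
  (∀ η ∉ Coll (Finset.univ.image l), ∀ ξ : Cfg r, ∃ c : Fin 8 → Fin dm → ℝ,
    fderiv ℝ (fun η => S.Qu φ (S.bb E l η)) η ξ = S.Qu φ (Matrix.of fun p q =>
      ∑ j : Fin 8, (S.g j.castSucc * S.g 8) p.1 q.1 * ((sp E (c j) p.2 q.2 : ℝ) : ℂ))) ∧
  ∀ A B, ContDiffOn ℝ ∞ (fun η : Cfg r => OmE S.κ E l η A B) {η | ∀ k, 0 < nz (zk (l k) η)}

/-- **X-Par** parallel transport. PROOF: X-Duh with `A = Qu ∘ bb` (skew by X-Qu). `exp(τA(η))v` lies in `Kr(1 - iJ_τ)` by X-Tr with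
`𝒜(τ) = 1 - iJ_τ` and X-Path; by X-Two `⟨·,(D_ξA)·⟩` is a multiple of `∑_{pq}b'_{pq}(J_τ)_{pq} = ∑_{j,i}tr((γ^jγ^8)ᵀγ^i)·tr(sp(c_j) sp(n_i) Kc)` (X-Sm), and
`sp(c_j)sp(n_i)` is symmetric, `Kc` antisymmetric: the second trace is `0`. -/
def ParStmt (S : Setup d F) (φ : Spl dh dm d) : Prop := FiniteDimensional ℂ F →
  ∀ (r : ℕ) (M : Fin r → Matrix (Fin dm) (Fin dm) ℝ) (t : Fin r → ℝ)
  (Kc E : Matrix (Fin dm) (Fin dm) ℝ) (l : Fin dm → Fin r → ℝ), RD M t Kc E l →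
  ∀ η ∉ Coll (Finset.univ.image l), (∀ v, v ∈ S.Kr φ (1 - Complex.I • S.J0 Kc) ↔
      S.UU φ E l η v ∈ S.Kr φ (1 - Complex.I • S.JJ Kc E l 1 η)) ∧
    ∀ v ∈ S.Kr φ (1 - Complex.I • S.J0 Kc), ∀ w ∈ S.Kr φ (1 - Complex.I • S.J0 Kc), ∀ ξ : Cfg r,
      inner ℂ (S.UU φ E l η v) ((fderiv ℝ (fun η' => S.UU φ E l η') η ξ) w) = 0

/-- **X-Irr** the vacuum space of a complex structure. PROOF. `a_p = ∑_q(1 - iJ)_{pq}θ_q`; `{a_p,a_q} = ((1-iJ)(1-iJ)ᵀ)_{pq} = (1 + J²)_{pq} = 0`.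
(1) `θ^h` anticommutes with `a_p`. (2) NONZERO: by induction on a finset `T` of indices there is `v ≠ 0` with `a_pv = 0` for `p ∈ T` (insert `p`: if `a_pv ≠ 0`
replace `v` by `a_pv`). (3) SCALAR: for every word `θ_{p_1}…θ_{p_n}` there is `c` with `⟨u,θ_{p_1}…θ_{p_n}w⟩ = c⟨u,w⟩` for all `u, w` in the kernel: `2θ_{p_1} =
a_{p_1} + a_{p_1}^*`, `a^*` moves to the left and kills `u`, `a_{p_1}` is anticommuted to the right (`{a_p,θ_q} = (1-iJ)_{pq}`) and kills `w`; strong induction on `n`.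
(4) IRREDUCIBLE: `W ≤ Kr` invariant under `θ^h`, `W ≠ ⊥`; the span of all words in `θ_p` applied to `W` is invariant under all `θ` (`θ^h` anticommutes with `θ_p`),
so it is `F`; the orthogonal projection onto `Kr` of a word applied to `w ∈ W` is `c w` by (3), so `Kr ≤ W`. -/
def IrrStmt (S : Setup d F) (φ : Spl dh dm d) : Prop := FiniteDimensional ℂ F →
  ∀ J : Matrix (Fin 16 × Fin dm) (Fin 16 × Fin dm) ℂ, CStr J →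
  (∀ α (A : Fin dh), ∀ v ∈ S.Kr φ (1 - Complex.I • J), S.th α (φ (Sum.inl A)) v ∈ S.Kr φ (1 - Complex.I • J)) ∧
  ((∃ v : F, v ≠ 0) → ∃ v ∈ S.Kr φ (1 - Complex.I • J), v ≠ 0) ∧
  (∀ L : List (Fin 16 × Fin dm), ∃ c : ℂ, ∀ u ∈ S.Kr φ (1 - Complex.I • J), ∀ w ∈ S.Kr φ (1 - Complex.I • J),
    inner ℂ u ((L.map (S.tm φ)).prod w) = c * inner ℂ u w) ∧
  (S.Irr → ∀ W : Submodule ℂ F, W ≤ S.Kr φ (1 - Complex.I • J) →
    (∀ α (A : Fin dh), ∀ v ∈ W, S.th α (φ (Sum.inl A)) v ∈ W) → W = ⊥ ∨ W = S.Kr φ (1 - Complex.I • J))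

/-- **X-Cov** `F0` and `Ω` do not depend on the frame. PROOF: `∑_iγ'^i_{αβ}D'_i = ∑_{ijk}R_{ij}R_{ik}γ^jD_k = ∑γ^jD_j`, `∑D'_i² = ∑D_i²`; for `O = 1` the `θ`'s
are the same (`S.rot R hR 1 hO`.th α A = `∑_B 1_{AB}θ_α^B`). -/
def CovF0Stmt (S : Setup d F) (φ : Spl dh dm d) : Prop :=
  ∀ (R : Matrix (Fin 9) (Fin 9) ℝ) (hR : R * Rᵀ = 1) (hO : (1 : Matrix (Fin d) (Fin d) ℝ) * (1 : Matrix (Fin d) (Fin d) ℝ)ᵀ = 1)
    (D : Fin 9 → Matrix (Fin dm) (Fin dm) ℝ) (Om : Matrix (Fin dm) (Fin dm) ℝ),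
  (∀ α A, (S.rot R hR 1 hO).th α A = S.th α A) ∧
  (S.rot R hR 1 hO).F0 φ (fun i => ∑ j, R i j • D j) Om = S.F0 φ D Om ∧
  (IsOm S.κ D Om ↔ IsOm (S.rot R hR 1 hO).κ (fun i => ∑ j, R i j • D j) Om)

/-- **X-Conn** the complement of the collision set is connected. PROOF. Complement of a finite union of subspaces of codimension `8`
(`l ≠ 0`): dense and path connected: two points `x, y` of the complement; the set of `z` such that the segment `[x,z]` or `[z,y]` meets the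
subspace `V` lies in `V + ℝx` resp. `V + ℝy`, proper subspaces (codimension `≥ 7`), and a finite union of proper subspaces is not everything
(`Subspace.biUnion_ne_univ_of_top_notMem` or measure zero); `z` outside all of them gives the path `[x,z] ∪ [z,y]`. -/
def ConnStmt : Prop := ∀ (r : ℕ) (L : Finset (Fin r → ℝ)), (∀ l ∈ L, l ≠ 0) → IsPreconnected (Coll L)ᶜ

/-- the vacuum bundle -/
structure Bun (S : Setup d F) (φ : Spl dh dm d) {r : ℕ} (M : Fin r → Matrix (Fin dm) (Fin dm) ℝ) (L : Finset (Fin r → ℝ))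
    (Om : Cfg r → Matrix (Fin dm) (Fin dm) ℝ) (K : Submodule ℂ F) (U : Cfg r → F →L[ℂ] F) : Prop where
  L_ne : ∀ l ∈ L, l ≠ 0
  closed : IsClosed (Coll L)
  det : ∀ η ∉ Coll L, (∑ i, DM M η i * DM M η i).det ≠ 0
  om : ∀ η : Cfg r, (∑ i, DM M η i * DM M η i).det ≠ 0 → IsOm S.κ (DM M η) (Om η)
  om_smooth : ∀ A B, ContDiffOn ℝ ∞ (fun η => Om η A B) {η | (∑ i, DM M η i * DM M η i).det ≠ 0}
  om_scale : ∀ (R : ℝ) (η : Cfg r), 0 < R → Om (R • η) = R • Om η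
  U_smooth : ContDiffOn ℝ ∞ U (Coll L)ᶜ
  U_scale : ∀ (R : ℝ) (η : Cfg r), 0 < R → U (R • η) = U η
  U_inner : ∀ η v w, inner ℂ (U η v) (U η w) = inner ℂ v w
  U_surj : ∀ η v, ∃ u, U η u = v
  U_comm : ∀ η α A, U η * S.th α (φ (Sum.inl A)) = S.th α (φ (Sum.inl A)) * U η
  U_comm' : ∀ η (X : F →L[ℂ] F), ((∀ p, X * S.tm φ p = S.tm φ p * X) ∨ (∀ p, X * S.tm φ p = -(S.tm φ p * X))) →
    U η * X = X * U η
  U_mem : ∀ η ∉ Coll L, ∀ v, v ∈ K ↔ U η v ∈ S.F0 φ (DM M η) (Om η)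
  U_par : ∀ η ∉ Coll L, ∀ v ∈ K, ∀ w ∈ K, ∀ ξ : Cfg r, inner ℂ (U η v) ((fderiv ℝ U η ξ) w) = 0
  K_th : ∀ α A, ∀ v ∈ K, S.th α (φ (Sum.inl A)) v ∈ K
  K_ne : (∃ v : F, v ≠ 0) → ∃ v ∈ K, v ≠ 0
  K_irr : S.Irr → ∀ W : Submodule ℂ F, W ≤ K → (∀ α A, ∀ v ∈ W, S.th α (φ (Sum.inl A)) v ∈ W) → W = ⊥ ∨ W = K

/-- **X-Bun** OUTPUT. PROOF: X-Root, `L = image of l`, `Om = OmE`, `K = Kr(1 - iJ_0)`, `U = UU`. The explicit form is part of the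
statement (it is needed for the exchange of equal blocks). -/
def BunStmt (S : Setup d F) (φ : Spl dh dm d) : Prop := FiniteDimensional ℂ F →
  ∀ (r : ℕ) (M : Fin r → Matrix (Fin dm) (Fin dm) ℝ) (t : Fin r → ℝ) (Kc E : Matrix (Fin dm) (Fin dm) ℝ)
    (l : Fin dm → Fin r → ℝ), RD M t Kc E l →
    Bun S φ M (Finset.univ.image l) (OmE S.κ E l) (S.Kr φ (1 - Complex.I • S.J0 Kc)) (S.UU φ E l)

end Vale.Agent.P353.Z.AX
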