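import Vale.Agent.P353.AN.X.Stmt

/-! # P353, all `N`, block X: the normalised boson vacuum — statements (architect helper667)

`gN M Om η w` = `g_η(w)/|g_η|`, `g_η = gR (DM M η) (Om η) 1 = exp(-½⟨V,ΩV⟩)`, on the open set `{η | det D_8(η) ≠ 0}`. -/

open MeasureTheory Filter Topology Matrix
open scoped ContDiff

namespace Vale.Agent.P353.Z.AX

variable {d dh dm r : ℕ} {F : Type*} [NormedAddCommGroup F] [InnerProductSpace ℂ F]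

/-- normalised boson vacuum -/
noncomputable def gN (M : Fin r → Matrix (Fin dm) (Fin dm) ℝ) (Om : Cfg r → Matrix (Fin dm) (Fin dm) ℝ) (η : Cfg r)
    (w : Wsp dm) : ℝ :=
  gR (DM M η) (Om η) 1 w / Real.sqrt (∫ w' : Wsp dm, gR (DM M η) (Om η) 1 w' ^ 2)

/-- the chart of the slice in the frame `8` -/
def ch8 (M : Fin r → Matrix (Fin dm) (Fin dm) ℝ) : Set (Cfg r) := {η | (DM M η 8).det ≠ 0}

/-- **X-Qf** the quadratic form in the joint eigenbasis, `ω_{jk} = (E w_j)_k`.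
PROOF. `D_i = sp(z_{k,i})Kc`, `Kc` commutes with the `sp(f∘l)`, `T_i = D_8⁻¹D_i = sp(z_{k,i}/z_{k,8})`, `t2 = sp(|z_k|²/z_{k,8}²)`,
`s_k = z_{k,8}(∑_jz_{k,j}ω_{jk})/|z_k|²`, `V_{i,k} = ω_{ik} - z_{k,i}(∑_jz_{k,j}ω_{jk})/|z_k|²`: projection orthogonal to `z_k` (`ω_{8k} = 0`). -/
def QfStmt : Prop := ∀ (r dm : ℕ) (κ : ℝ) (M : Fin r → Matrix (Fin dm) (Fin dm) ℝ) (t : Fin r → ℝ)
  (Kc E : Matrix (Fin dm) (Fin dm) ℝ) (l : Fin dm → Fin r → ℝ), 0 < κ → RD M t Kc E l →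
  ∀ η : Cfg r, (DM M η 8).det ≠ 0 → (∀ k, zk (l k) η 8 ≠ 0) ∧ |(DM M η 8).det| = ∏ k, |zk (l k) η 8| ∧
    (OmE κ E l η).det = κ ^ dm * ∏ k, nz (zk (l k) η) ∧ ∀ w : Wsp dm, qf (DM M η) (OmE κ E l η) w =
    κ * ∑ k, nz (zk (l k) η) * ((∑ j : Fin 8, (E *ᵥ fun B => w (j, B)) k ^ 2) -
      (∑ j : Fin 8, zk (l k) η j.castSucc * (E *ᵥ fun B => w (j, B)) k) ^ 2 / nz (zk (l k) η) ^ 2)

/-- **X-Gauss** PROOF (X-Qf): change of variables `w_j = Eᵀω_j` (orthogonal), product over `k` of integrals over `ℝ^8` of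
`exp(-a(|ω|² - (u·ω)²))`, `a = κ|z|`, `u = z'/|z|`, `1 - |u|² = z_8²/|z|²`: rotate `u` to an axis; value `(π/a)^4 (1-|u|²)^{-1/2}`. -/
def GaussStmt : Prop := ∀ (r dm : ℕ) (κ : ℝ) (M : Fin r → Matrix (Fin dm) (Fin dm) ℝ) (t : Fin r → ℝ)
  (Kc E : Matrix (Fin dm) (Fin dm) ℝ) (l : Fin dm → Fin r → ℝ), 0 < κ → RD M t Kc E l →
  ∀ η : Cfg r, (DM M η 8).det ≠ 0 →
    Integrable (fun w : Wsp dm => gR (DM M η) (OmE κ E l η) 1 w ^ 2) ∧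
    ∫ w : Wsp dm, gR (DM M η) (OmE κ E l η) 1 w ^ 2 =
      Real.pi ^ (4 * dm) / (κ ^ dm * (OmE κ E l η).det ^ 3 * |(DM M η 8).det|)

/-- **X-Bos** the normalised boson vacuum on the chart. PROOF. `smooth`: X-Qf (a rational function of the `z_k` and of `|z_k| > 0`, quadratic
in `w`), X-Gauss for the normalisation. `coer`: `|ω|² - (z'·ω)²/|z|² ≥ (z_8²/|z|²)|ω|²`, continuity on the compact set. `bd`: first derivatives of the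
exponent are `O((1+|w|)²)`, `exp(-c|w|²)` absorbs powers. `par`: differentiate `∫gN² = 1` under the integral
(`hasFDerivAt_integral_of_dominated_of_fderiv_le` or along lines, `bd` on a small closed ball in the chart). `scale`: `T_i` and `V` are invariant under
`η ↦ Rη`, `Ω ↦ RΩ`, so `qf_{Rη}(w) = R qf_η(w) = qf_η(√R w)`. -/
structure Bos (κ : ℝ) (M : Fin r → Matrix (Fin dm) (Fin dm) ℝ) (Om : Cfg r → Matrix (Fin dm) (Fin dm) ℝ) : Prop where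
  isOpen : IsOpen (ch8 M)
  smooth : ContDiffOn ℝ ∞ (fun p : Cfg r × Wsp dm => gN M Om p.1 p.2) (ch8 M ×ˢ Set.univ)
  pos : ∀ η ∈ ch8 M, 0 < ∫ w : Wsp dm, gR (DM M η) (Om η) 1 w ^ 2
  norm : ∀ η ∈ ch8 M, ∫ w : Wsp dm, gN M Om η w ^ 2 = 1
  even : ∀ η w, gN M Om η (-w) = gN M Om η w
  bd : ∀ 𝒞 : Set (Cfg r), IsCompact 𝒞 → 𝒞 ⊆ ch8 M → ∃ C c : ℝ, 0 < c ∧ ∀ η ∈ 𝒞, ∀ w : Wsp dm,
    |gN M Om η w| ≤ C * Real.exp (-(c * ‖w‖ ^ 2)) ∧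
    ‖fderiv ℝ (fun p : Cfg r × Wsp dm => gN M Om p.1 p.2) (η, w)‖ ≤ C * Real.exp (-(c * ‖w‖ ^ 2))
  par : ∀ η ∈ ch8 M, ∀ ξ : Cfg r, ∫ w : Wsp dm, gN M Om η w * fderiv ℝ (fun η' => gN M Om η' w) η ξ = 0
  scale : ∀ (R : ℝ) (η : Cfg r) (w : Wsp dm), 0 < R → η ∈ ch8 M →
    gN M Om (R • η) w = Real.sqrt R ^ (4 * dm) * gN M Om η (Real.sqrt R • w)

def BosSmStmt : Prop := QfStmt → GaussStmt → ∀ (r dm : ℕ) (κ : ℝ) (M : Fin r → Matrix (Fin dm) (Fin dm) ℝ) (t : Fin r → ℝ)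
  (Kc E : Matrix (Fin dm) (Fin dm) ℝ) (l : Fin dm → Fin r → ℝ), 0 < κ → RD M t Kc E l → Bos κ M (OmE κ E l)

/-- **X-Susy** supersymmetry of the vacuum, at any frozen point. PROOF. `dd D i B g = -(ΩV_i)_B g` for all `i ≤ 8` (`qf = ⟨w,Mw⟩`,
`(Mw)_{jB} = (ΩV_j)_B`: `QFStmt`; `i = 8`: `-∑_jT_jΩV_j = ΩV_8`), so `q1_β(gv) = g(i∑_i(γ^i ΩV_i·θ)_β + κ∑_{ij}(γ^{ij}D_iV_j·θ)_β)v` (`AlgStmt`: `w` may
be replaced by `V`, `∑D_iV_i = 0`). `γ^{ij} → γ^iγ^j`; `(D_iV_j)·θ = -V_j·(D_iθ)`; `∑_iγ^iγ^jD_iθ = 2D_jθ - κ⁻¹γ^jPθ`, `∑_jV_j·D_jθ = 0`. So the bracket is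
`∑_jV_j·γ^j(iΩθ + Pθ) = i∑_jV_j·γ^j(Ω - iP)θ`, and `(Ω - iP)θv = 2Λθv = 0` on `F0`. -/
def SusyStmt (S : Setup d F) (φ : Spl dh dm d) : Prop := AlgStmt → QFStmt →
  ∀ (D : Fin 9 → Matrix (Fin dm) (Fin dm) ℝ) (Om : Matrix (Fin dm) (Fin dm) ℝ), Frz D → IsOm S.κ D Om →
  ∀ v ∈ S.F0 φ D Om, ∀ (β : Fin 16) (w : Wsp dm),
    S.q1 φ D β (fun w' => ((gR D Om 1 w' : ℝ) : ℂ) • v) w = 0

end Vale.Agent.P353.Z.AX
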