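import Vale.Agent.P353.AN.X.StmtB
import Vale.Agent.P353.AN.B.EnC

/-! # P353, all `N`, block X: supersymmetry of the frozen vacuum -/

open MeasureTheory Filter Topology Matrix
open scoped ContDiff

namespace Vale.Agent.P353.Z.AX

open Vale.Agent.P353.Z.EnFib

variable {d dh dm : ℕ} {F : Type*} [NormedAddCommGroup F] [InnerProductSpace ℂ F]

private lemma susy_sw {ι κ' : Type*} [Fintype ι] [Fintype κ'] (c : ι → ℝ) (N : ι → ι → ℝ)
    (g : κ' → ℂ) (f : κ' → ι → F) :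
    ∑ B, (((∑ A, c A * N A B : ℝ)) : ℂ) • ∑ α, g α • f α B =
      ∑ A, ((c A : ℝ) : ℂ) • ∑ α, g α • ∑ B, ((N A B : ℝ) : ℂ) • f α B := by
  have h1 : ∀ B, (((∑ A, c A * N A B : ℝ)) : ℂ) • ∑ α, g α • f α B =
      ∑ A, ∑ α, ((c A : ℂ) * (g α * (N A B : ℂ))) • f α B := by
    intro B
    rw [Complex.ofReal_sum, Finset.sum_smul]
    refine Finset.sum_congr rfl fun A _ => ?_
    rw [Finset.smul_sum]
    refine Finset.sum_congr rfl fun α _ => ?_
    rw [smul_smul, Complex.ofReal_mul]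
    congr 1
    ring
  rw [Finset.sum_congr rfl fun B _ => h1 B, Finset.sum_comm]
  refine Finset.sum_congr rfl fun A _ => ?_
  rw [Finset.sum_comm, Finset.smul_sum]
  refine Finset.sum_congr rfl fun α _ => ?_
  rw [Finset.smul_sum, Finset.smul_sum]
  refine Finset.sum_congr rfl fun B _ => ?_
  rw [smul_smul, smul_smul, mul_assoc]

private lemma susy_fd {D : Fin 9 → Matrix (Fin dm) (Fin dm) ℝ} {Om : Matrix (Fin dm) (Fin dm) ℝ}
    {M : Wsp dm →L[ℝ] Wsp dm} (hM : ∀ v w, inner ℝ (M v) w = inner ℝ v (M w))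
    (hq : ∀ w, qf D Om w = inner ℝ w (M w)) (v : F) (w e : Wsp dm) :
    fderiv ℝ (fun w' => ((gR D Om 1 w' : ℝ) : ℂ) • v) w e =
      ((-(gR D Om 1 w * inner ℝ (M w) e) : ℝ) : ℂ) • v := by
  have hg : ∀ w' : Wsp dm, gR D Om 1 w' = Real.exp (-(1 / 2 : ℝ) * inner ℝ (id w') (M w')) := by
    intro w'
    simp only [gR, hq, id, neg_mul]
  have h0 := (hasFDerivAt_id (𝕜 := ℝ) w).inner ℝ (M.hasFDerivAt (x := w))
  have h2 := (Complex.ofRealCLM.hasFDerivAt (x := Real.exp (-(1 / 2 : ℝ) * inner ℝ (id w) (M w)))).comp w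
    (h0.const_mul (-(1 / 2 : ℝ))).exp
  have h3 := h2.smul_const v
  have h4 : (fun w' => ((gR D Om 1 w' : ℝ) : ℂ) • v) = fun w' => ((⇑Complex.ofRealCLM ∘ fun y : Wsp dm =>
      Real.exp (-(1 / 2 : ℝ) * inner ℝ (id y) (M y))) w') • v := by
    funext w'
    rw [hg w']
    rfl
  rw [h4, h3.fderiv]
  simp only [ContinuousLinearMap.smulRight_apply, ContinuousLinearMap.comp_apply,
    _root_.smul_apply, Complex.ofRealCLM_apply]
  congr 1
  have h5 : Real.exp (-(1 / 2 : ℝ) * inner ℝ (id w) (M w)) = gR D Om 1 w := (hg w).symm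
  rw [h5]
  simp only [fderivInnerCLM_apply, ContinuousLinearMap.prod_apply, ContinuousLinearMap.id_apply, id,
    smul_eq_mul]
  have h6 : inner ℝ w (M e) = inner ℝ (M w) e := (hM w e).symm
  have h7 : inner ℝ e (M w) = inner ℝ (M w) e := real_inner_comm _ _
  rw [h6, h7]
  congr 1
  ring

private lemma susy_in {κ : ℝ} {D : Fin 9 → Matrix (Fin dm) (Fin dm) ℝ} {Om : Matrix (Fin dm) (Fin dm) ℝ}
    (hA : AlgStmt) (hk : 0 < κ) (hF : Frz D) (hO : IsOm κ D Om)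
    {M : Wsp dm →L[ℝ] Wsp dm}
    (hMw : ∀ (w : Wsp dm) (j : Fin 8) (B : Fin dm), M w (j, B) = (Om *ᵥ VV D w j.castSucc) B)
    (w : Wsp dm) (i : Fin 9) (B : Fin dm) :
    inner ℝ (M w) (dv D i B) = (Om *ᵥ VV D w i) B := by
  obtain ⟨a1, a2, a3, a4, a5, a6, a7, a8, -⟩ := hA dm κ D Om hk hF hO
  have a3' : tI D (Fin.last 8) = 1 := a3
  refine Fin.lastCases ?_ (fun j => ?_) i
  · have h8 := a8 w
    rw [Fin.sum_univ_castSucc, a3', Matrix.one_mulVec] at h8
    have h9 : VV D w (Fin.last 8) = -∑ j : Fin 8, tI D j.castSucc *ᵥ VV D w j.castSucc := by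
      rw [eq_neg_iff_add_eq_zero, add_comm]
      exact h8
    rw [h9, Matrix.mulVec_neg, Matrix.mulVec_sum, PiLp.inner_apply]
    simp only [Pi.neg_apply, Finset.sum_apply, Fintype.sum_prod_type, dv_last_apply, hMw]
    rw [← Finset.sum_neg_distrib]
    refine Finset.sum_congr rfl fun j _ => ?_
    rw [Matrix.mulVec_mulVec, ← a4, ← Matrix.mulVec_mulVec, Matrix.mulVec, dotProduct,
      ← Finset.sum_neg_distrib]
    refine Finset.sum_congr rfl fun E _ => ?_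
    simp only [RCLike.inner_apply, conj_trivial]
    ring
  · rw [dv_castSucc, EuclideanSpace.inner_single_right, hMw]
    simp

private lemma susy_MA (S : Setup d F) {D : Fin 9 → Matrix (Fin dm) (Fin dm) ℝ}
    {Om : Matrix (Fin dm) (Fin dm) ℝ} (hA : AlgStmt) (hF : Frz D) (hO : IsOm S.κ D Om) (w : Wsp dm) (B : Fin dm) :
    MA S D (wt w) B = -∑ i, ∑ j, (((S.κ * (D i *ᵥ VV D w j) B : ℝ)) : ℂ) • (S.g j * S.g i) := by
  obtain ⟨-, -, -, -, -, -, -, -, a9, a10, -⟩ := hA dm S.κ D Om S.κ_pos hF hO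
  have hL : ∀ i j, LL S.κ D (wt w) B i j = S.κ * (D i *ᵥ VV D w j) B - S.κ * (D j *ᵥ VV D w i) B := by
    intro i j
    have h := congrFun (a10 w i j) B
    rw [Pi.sub_apply, Pi.sub_apply] at h
    unfold LL
    rw [h]
    ring
  have h1 : ∑ i, ∑ j, ((LL S.κ D (wt w) B i j : ℝ) : ℂ) • S.g2 i j =
      (2 : ℂ) • ∑ i, ∑ j, (((S.κ * (D i *ᵥ VV D w j) B : ℝ)) : ℂ) • S.g2 i j := by
    have h2 : ∑ i, ∑ j, (((S.κ * (D j *ᵥ VV D w i) B : ℝ)) : ℂ) • S.g2 i j =
        -∑ i, ∑ j, (((S.κ * (D i *ᵥ VV D w j) B : ℝ)) : ℂ) • S.g2 i j := by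
      rw [Finset.sum_comm, ← Finset.sum_neg_distrib]
      refine Finset.sum_congr rfl fun i _ => ?_
      rw [← Finset.sum_neg_distrib]
      refine Finset.sum_congr rfl fun j _ => ?_
      rw [S.g2_swap j i, smul_neg]
    have h3 : ∑ i, ∑ j, ((LL S.κ D (wt w) B i j : ℝ) : ℂ) • S.g2 i j =
        (∑ i, ∑ j, (((S.κ * (D i *ᵥ VV D w j) B : ℝ)) : ℂ) • S.g2 i j) -
        ∑ i, ∑ j, (((S.κ * (D j *ᵥ VV D w i) B : ℝ)) : ℂ) • S.g2 i j := by
      simp only [← Finset.sum_sub_distrib]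
      refine Finset.sum_congr rfl fun i _ => Finset.sum_congr rfl fun j _ => ?_
      rw [hL, Complex.ofReal_sub, sub_smul]
    rw [h3, h2, two_smul, sub_neg_eq_add]
  have h4 : ∑ i, (((S.κ * (D i *ᵥ VV D w i) B : ℝ)) : ℂ) = 0 := by
    have h := congrFun (a9 w) B
    rw [Finset.sum_apply, Pi.zero_apply] at h
    rw [← Complex.ofReal_sum, ← Finset.mul_sum, h, mul_zero, Complex.ofReal_zero]
  have h5 : ∀ i j, S.g2 i j = (if i = j then (1 : ℂ) else 0) • (1 : Matrix (Fin 16) (Fin 16) ℂ) - S.g j * S.g i := by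
    intro i j
    rw [CS.g2, S.g_swapE' i j]
    by_cases hij : i = j
    · simp only [hij, if_true]
      module
    · simp only [hij, if_false]
      module
  rw [MA, h1, smul_smul, show (1 / 2 : ℂ) * 2 = 1 by norm_num, one_smul]
  simp only [h5, smul_sub, Finset.sum_sub_distrib]
  have h6 : ∑ i, ∑ j, (((S.κ * (D i *ᵥ VV D w j) B : ℝ)) : ℂ) •
      ((if i = j then (1 : ℂ) else 0) • (1 : Matrix (Fin 16) (Fin 16) ℂ)) = 0 := by
    have h7 : ∀ i, ∑ j, (((S.κ * (D i *ᵥ VV D w j) B : ℝ)) : ℂ) •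
        ((if i = j then (1 : ℂ) else 0) • (1 : Matrix (Fin 16) (Fin 16) ℂ)) =
        (((S.κ * (D i *ᵥ VV D w i) B : ℝ)) : ℂ) • (1 : Matrix (Fin 16) (Fin 16) ℂ) := by
      intro i
      rw [Finset.sum_eq_single i]
      · rw [if_pos rfl, one_smul]
      · intro j _ hj
        rw [if_neg (Ne.symm hj), zero_smul, smul_zero]
      · intro h; exact absurd (Finset.mem_univ _) h
    simp only [h7]
    rw [← Finset.sum_smul, h4, zero_smul]
  rw [h6, zero_sub]

private lemma susy_T (S : Setup d F) (φ : Spl dh dm d) {D : Fin 9 → Matrix (Fin dm) (Fin dm) ℝ}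
    {Om : Matrix (Fin dm) (Fin dm) ℝ} {v : F} (hv : v ∈ S.F0 φ D Om) (α : Fin 16) (A : Fin dm) :
    ∑ B, ((Om A B : ℝ) : ℂ) • S.th α (φ (Sum.inr B)) v =
      (Complex.I * (S.κ : ℂ)) • ∑ i, ∑ B, ((D i A B : ℝ) : ℂ) • S.vec (S.g i) (φ (Sum.inr B)) α v := by
  have h : S.Lth φ D Om (α, A) v = 0 := hv (α, A)
  have h1 : (2 : ℂ) • S.Lth φ D Om (α, A) v = (∑ B, ((Om A B : ℝ) : ℂ) • S.th α (φ (Sum.inr B)) v) -
      (Complex.I * (S.κ : ℂ)) • ∑ i, ∑ B, ((D i A B : ℝ) : ℂ) • S.vec (S.g i) (φ (Sum.inr B)) α v := by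
    have h2 : ∀ q : Fin 16 × Fin dm, (2 : ℂ) • (S.Lam D Om (α, A) q • S.th q.1 (φ (Sum.inr q.2)) v) =
        (if α = q.1 then ((Om A q.2 : ℝ) : ℂ) • S.th q.1 (φ (Sum.inr q.2)) v else 0) -
        ∑ i, (Complex.I * (S.κ : ℂ)) • (S.g i α q.1 * ((D i A q.2 : ℝ) : ℂ)) • S.th q.1 (φ (Sum.inr q.2)) v := by
      intro q
      rw [Setup.Lam, Matrix.of_apply, smul_smul, ← Finset.smul_sum, ← Finset.sum_smul]
      have h3 : S.PP D (α, A) q = (S.κ : ℂ) * ∑ i, S.g i α q.1 * ((D i A q.2 : ℝ) : ℂ) := rfl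
      rw [h3]
      by_cases hα : α = q.1
      · simp only [hα, if_true]
        module
      · simp only [hα, if_false]
        module
    rw [Setup.Lth, _root_.sum_apply, Finset.smul_sum]
    simp only [_root_.smul_apply, h2, Finset.sum_sub_distrib]
    congr 1
    · rw [Fintype.sum_prod_type, Finset.sum_eq_single α]
      · simp
      · intro γ _ hγ
        refine Finset.sum_eq_zero fun B _ => ?_
        rw [if_neg (Ne.symm hγ)]
      · intro hh; exact absurd (Finset.mem_univ _) hh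
    · rw [Finset.sum_comm, Finset.smul_sum]
      refine Finset.sum_congr rfl fun i _ => ?_
      rw [← Finset.smul_sum]
      congr 1
      rw [Fintype.sum_prod_type, Finset.sum_comm]
      refine Finset.sum_congr rfl fun B _ => ?_
      rw [CS.vec, _root_.sum_apply, Finset.smul_sum]
      refine Finset.sum_congr rfl fun γ _ => ?_
      rw [_root_.smul_apply, smul_smul, mul_comm]
  rw [h, smul_zero] at h1
  exact (sub_eq_zero.1 h1.symm)

theorem susy (S : Setup d F) (φ : Spl dh dm d) : SusyStmt S φ := by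
  intro hA hQ D Om hF hO v hv β w
  obtain ⟨M, hM, hq, hMw, -⟩ := hQ dm S.κ D Om S.κ_pos hF hO
  have hdd : ∀ i B, dd D i B (fun w' => ((gR D Om 1 w' : ℝ) : ℂ) • v) w =
      ((-(gR D Om 1 w) : ℝ) : ℂ) • (((Om *ᵥ VV D w i) B : ℝ) : ℂ) • v := by
    intro i B
    rw [dd_eq, dr, susy_fd hM hq, susy_in hA S.κ_pos hF hO hMw, smul_smul, ← Complex.ofReal_mul, neg_mul]
  rw [q1_eq]
  simp only [hdd, map_smul]
  have hT := susy_T S φ hv
  -- first part
  have p1 : ∑ i, ∑ B, ((-(gR D Om 1 w) : ℝ) : ℂ) • (((Om *ᵥ VV D w i) B : ℝ) : ℂ) •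
      S.vec (S.g i) (φ (Sum.inr B)) β v =
      ((-(gR D Om 1 w) : ℝ) : ℂ) • ∑ j, ∑ A, ((VV D w j A : ℝ) : ℂ) • ∑ α, S.g j β α •
        ((Complex.I * (S.κ : ℂ)) • ∑ i, ∑ B, ((D i A B : ℝ) : ℂ) • S.vec (S.g i) (φ (Sum.inr B)) α v) := by
    rw [Finset.smul_sum]
    refine Finset.sum_congr rfl fun j _ => ?_
    rw [← Finset.smul_sum]
    congr 1
    have h1 : ∀ B, (Om *ᵥ VV D w j) B = ∑ A, VV D w j A * Om A B := by
      intro B
      rw [Matrix.mulVec, dotProduct]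
      refine Finset.sum_congr rfl fun A _ => ?_
      rw [mul_comm, ← congrFun (congrFun hO.symm B) A, Matrix.transpose_apply]
    simp only [h1]
    have h2 : ∀ B, S.vec (S.g j) (φ (Sum.inr B)) β v = ∑ α, S.g j β α • S.th α (φ (Sum.inr B)) v := by
      intro B
      rw [CS.vec, _root_.sum_apply]
      exact Finset.sum_congr rfl fun α _ => by rw [_root_.smul_apply]
    simp only [h2]
    rw [susy_sw (fun A => VV D w j A) (fun A B => Om A B) (fun α => S.g j β α)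
      (fun α B => S.th α (φ (Sum.inr B)) v)]
    simp only [hT]
  -- second part
  have p2 : (∑ B, S.vec (MA S D (wt w) B) (φ (Sum.inr B)) β) v =
      (S.κ : ℂ) • ∑ j, ∑ A, ((VV D w j A : ℝ) : ℂ) • ∑ α, S.g j β α •
        (∑ i, ∑ B, ((D i A B : ℝ) : ℂ) • S.vec (S.g i) (φ (Sum.inr B)) α v) := by
    have h1 : ∀ i j B, (D i *ᵥ VV D w j) B = -∑ A, VV D w j A * D i A B := by
      intro i j B
      rw [Matrix.mulVec, dotProduct, ← Finset.sum_neg_distrib]
      refine Finset.sum_congr rfl fun A _ => ?_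
      have h2 := congrFun (congrFun (hF.anti i) B) A
      rw [Matrix.transpose_apply, Matrix.neg_apply] at h2
      rw [h2]
      ring
    have h3 : ∀ B, S.vec (MA S D (wt w) B) (φ (Sum.inr B)) β v =
        ∑ j, ∑ i, (S.κ : ℂ) • (((∑ A, VV D w j A * D i A B : ℝ)) : ℂ) •
          ∑ α, S.g j β α • S.vec (S.g i) (φ (Sum.inr B)) α v := by
      intro B
      rw [susy_MA S hA hF hO, S.vec_neg, S.vec_sum, _root_.neg_apply, _root_.sum_apply, Finset.sum_comm,
        ← Finset.sum_neg_distrib]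
      refine Finset.sum_congr rfl fun i _ => ?_
      rw [S.vec_sum, _root_.sum_apply, ← Finset.sum_neg_distrib]
      refine Finset.sum_congr rfl fun j _ => ?_
      rw [S.vec_smul, S.vec_mul, _root_.smul_apply, _root_.sum_apply, h1, smul_smul, ← neg_smul]
      congr 1
      push_cast
      ring
    have h4 : ∀ j i, ∑ B, (((∑ A, VV D w j A * D i A B : ℝ)) : ℂ) •
        ∑ α, S.g j β α • S.vec (S.g i) (φ (Sum.inr B)) α v =
        ∑ A, ((VV D w j A : ℝ) : ℂ) • ∑ α, S.g j β α • ∑ B, ((D i A B : ℝ) : ℂ) •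
          S.vec (S.g i) (φ (Sum.inr B)) α v := fun j i =>
      susy_sw (fun A => VV D w j A) (fun A B => D i A B) (fun α => S.g j β α)
        (fun α B => S.vec (S.g i) (φ (Sum.inr B)) α v)
    rw [_root_.sum_apply, Finset.sum_congr rfl fun B _ => h3 B, Finset.sum_comm, Finset.smul_sum]
    refine Finset.sum_congr rfl fun j _ => ?_
    rw [Finset.sum_comm]
    have h5 : ∀ i, ∑ B, (S.κ : ℂ) • (((∑ A, VV D w j A * D i A B : ℝ)) : ℂ) •
        ∑ α, S.g j β α • S.vec (S.g i) (φ (Sum.inr B)) α v =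
        (S.κ : ℂ) • ∑ A, ((VV D w j A : ℝ) : ℂ) • ∑ α, S.g j β α • ∑ B, ((D i A B : ℝ) : ℂ) •
          S.vec (S.g i) (φ (Sum.inr B)) α v := by
      intro i
      rw [← Finset.smul_sum, h4]
    rw [Finset.sum_congr rfl fun i _ => h5 i, ← Finset.smul_sum]
    congr 1
    rw [Finset.sum_comm]
    refine Finset.sum_congr rfl fun A _ => ?_
    rw [← Finset.smul_sum]
    congr 1
    rw [Finset.sum_comm]
    refine Finset.sum_congr rfl fun α _ => ?_
    rw [← Finset.smul_sum]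
  have p3 : ∑ j, ∑ A, ((VV D w j A : ℝ) : ℂ) • ∑ α, S.g j β α •
        ((Complex.I * (S.κ : ℂ)) • ∑ i, ∑ B, ((D i A B : ℝ) : ℂ) • S.vec (S.g i) (φ (Sum.inr B)) α v) =
      (Complex.I * (S.κ : ℂ)) • ∑ j, ∑ A, ((VV D w j A : ℝ) : ℂ) • ∑ α, S.g j β α •
        (∑ i, ∑ B, ((D i A B : ℝ) : ℂ) • S.vec (S.g i) (φ (Sum.inr B)) α v) := by
    rw [Finset.smul_sum]
    refine Finset.sum_congr rfl fun j _ => ?_
    rw [Finset.smul_sum]
    refine Finset.sum_congr rfl fun A _ => ?_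
    rw [smul_comm (Complex.I * (S.κ : ℂ)) ((VV D w j A : ℝ) : ℂ)]
    congr 1
    rw [Finset.smul_sum]
    refine Finset.sum_congr rfl fun α _ => ?_
    rw [smul_comm (Complex.I * (S.κ : ℂ)) (S.g j β α)]
  rw [p1, p3, p2, smul_smul, smul_smul, smul_smul, ← add_smul]
  have h0 : -Complex.I * ((-(gR D Om 1 w) : ℝ) : ℂ) * (Complex.I * (S.κ : ℂ)) +
      ((gR D Om 1 w : ℝ) : ℂ) * (S.κ : ℂ) = 0 := by
    push_cast
    linear_combination (((gR D Om 1 w : ℝ) : ℂ) * (S.κ : ℂ)) * Complex.I_mul_I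
  rw [← mul_assoc, mul_assoc] at h0 ⊢
  rw [h0, zero_smul]

end Vale.Agent.P353.Z.AX
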